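import Vale.Agent.P073.SQ.Spec

/-!
# P073, block SQ (helper489): layer and edge integrals
-/

namespace Vale.Agent.P073.SQ

open MeasureTheory Set Filter Topology Vale.Agent.P073.St
open scoped ContDiff ENNReal

namespace Edge

/-- coordinates: `x k` and the other two -/
noncomputable def eq (k : Fin 3) : V ≃ᵐ ℝ × (Fin 2 → ℝ) :=
  MeasurableEquiv.piFinSuccAbove (fun _ : Fin 3 => ℝ) k

theorem eq_pres (k : Fin 3) : MeasurePreserving (eq k) volume volume :=
  volume_preserving_piFinSuccAbove (fun _ : Fin 3 => ℝ) k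

theorem eq_apply (k : Fin 3) (x : V) : eq k x = (x k, k.removeNth x) := rfl

/-- measurability of insertion -/
theorem measurable_ins (k : Fin 3) (b : ℝ) :
    Measurable fun y : Fin 2 → ℝ => (k.insertNth b y : V) := by
  rw [measurable_pi_iff]
  intro l
  rcases Fin.eq_self_or_eq_succAbove k l with rfl | ⟨m, rfl⟩
  · simp only [Fin.insertNth_apply_same]
    exact measurable_const
  · simp only [Fin.insertNth_apply_succAbove]
    exact measurable_pi_apply m

theorem update_eq_ins (k : Fin 3) (b : ℝ) (x : V) :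
    Function.update x k b = (k.insertNth b (k.removeNth x) : V) := by
  rw [Fin.insertNth_removeNth]

/-- Fubini for a general function -/
theorem fubini (k : Fin 3) {s : Set ℝ} {T : Set (Fin 2 → ℝ)} (hs : MeasurableSet s)
    (hT : MeasurableSet T) {F : ℝ × (Fin 2 → ℝ) → ℝ≥0∞} (hF : Measurable F) :
    ∫⁻ x in {x : V | x k ∈ s ∧ k.removeNth x ∈ T}, F (x k, k.removeNth x) =
      ∫⁻ u in s, ∫⁻ y in T, F (u, y) := by
  have h1 : {x : V | x k ∈ s ∧ k.removeNth x ∈ T} = eq k ⁻¹' (s ×ˢ T) := rfl
  rw [h1]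
  have h2 := (eq_pres k).setLIntegral_comp_preimage (hs.prod hT) hF
  have h3 : ∀ x, F (eq k x) = F (x k, k.removeNth x) := fun x => rfl
  simp_rw [h3] at h2
  rw [h2, Measure.volume_eq_prod, ← Measure.prod_restrict, lintegral_prod _ hF.aemeasurable]

/-- a function which does not depend on the coordinate `k` -/
theorem fubini_const (k : Fin 3) (b : ℝ) {s : Set ℝ} {T : Set (Fin 2 → ℝ)} (hs : MeasurableSet s)
    (hT : MeasurableSet T) {H : V → ℝ≥0∞} (hH : Measurable H) :
    ∫⁻ x in {x : V | x k ∈ s ∧ k.removeNth x ∈ T}, H (Function.update x k b) =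
      volume s * ∫⁻ y in T, H (k.insertNth b y) := by
  have h1 := fubini k hs hT (F := fun q => H (k.insertNth b q.2))
    ((hH.comp (measurable_ins k b)).comp measurable_snd)
  simp only [← update_eq_ins] at h1
  rw [h1, lintegral_const, Measure.restrict_apply_univ, mul_comm]

/-- a function which depends on one coordinate only -/
theorem fubini_one (k : Fin 3) {s : Set ℝ} {T : Set (Fin 2 → ℝ)} (hs : MeasurableSet s)
    (hT : MeasurableSet T) {G : ℝ → ℝ≥0∞} (hG : Measurable G) :
    ∫⁻ x in {x : V | x k ∈ s ∧ k.removeNth x ∈ T}, G (x k) = volume T * ∫⁻ u in s, G u := by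
  have h1 := fubini k hs hT (F := fun q => G q.1) (hG.comp measurable_fst)
  simp only at h1
  rw [h1]
  simp_rw [lintegral_const, Measure.restrict_apply_univ]
  rw [lintegral_mul_const _ hG, mul_comm]

/-- the square -/
def sq (a : Fin 2 → ℝ) (σ : ℝ) : Set (Fin 2 → ℝ) := {y | ∀ l, |y l - a l| ≤ σ}

theorem sq_eq (a : Fin 2 → ℝ) (σ : ℝ) :
    sq a σ = Icc (fun l => a l - σ) (fun l => a l + σ) := by
  ext y
  simp only [sq, mem_ofPred_eq, mem_Icc, Pi.le_def]
  constructor
  · intro h
    exact ⟨fun l => by linarith [(abs_le.1 (h l)).1], fun l => by linarith [(abs_le.1 (h l)).2]⟩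
  · rintro ⟨h1, h2⟩ l
    exact abs_le.2 ⟨by linarith [h1 l], by linarith [h2 l]⟩

theorem measurableSet_sq (a : Fin 2 → ℝ) (σ : ℝ) : MeasurableSet (sq a σ) := by
  rw [sq_eq]; exact measurableSet_Icc

theorem volume_sq (a : Fin 2 → ℝ) {σ : ℝ} (hσ : 0 ≤ σ) :
    volume (sq a σ) = ENNReal.ofReal ((2 * σ) ^ 2) := by
  rw [sq_eq, Real.volume_Icc_pi]
  simp only [Fin.prod_univ_two]
  rw [← ENNReal.ofReal_mul (by linarith)]
  congr 1
  ring

theorem cube_eq (k : Fin 3) (a : V) (σ : ℝ) :
    cube a σ = {x : V | x k ∈ Icc (a k - σ) (a k + σ) ∧ k.removeNth x ∈ sq (k.removeNth a) σ} := by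
  ext x
  simp only [cube, sq, mem_ofPred_eq, mem_Icc]
  constructor
  · intro h
    refine ⟨⟨by linarith [(abs_le.1 (h k)).1], by linarith [(abs_le.1 (h k)).2]⟩, fun l => ?_⟩
    exact h (k.succAbove l)
  · rintro ⟨⟨h1, h2⟩, h3⟩ l
    rcases Fin.eq_self_or_eq_succAbove k l with rfl | ⟨m, rfl⟩
    · exact abs_le.2 ⟨by linarith, by linarith⟩
    · exact h3 m

theorem layer_eq {c a : V} {ρ σ : ℝ} {k : Fin 3} (h : ∀ l, l ≠ k → |a l - c l| + σ ≤ ρ) :
    cube c ρ ∩ {x | ∀ l, l ≠ k → |x l - a l| ≤ σ} =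
      {x : V | x k ∈ Icc (c k - ρ) (c k + ρ) ∧ k.removeNth x ∈ sq (k.removeNth a) σ} := by
  ext x
  simp only [cube, sq, mem_inter_iff, mem_ofPred_eq, mem_Icc]
  constructor
  · rintro ⟨h1, h2⟩
    refine ⟨⟨by linarith [(abs_le.1 (h1 k)).1], by linarith [(abs_le.1 (h1 k)).2]⟩, fun l => ?_⟩
    exact h2 (k.succAbove l) (Fin.succAbove_ne k l)
  · rintro ⟨⟨h1, h2⟩, h3⟩
    have h4 : ∀ l, l ≠ k → |x l - a l| ≤ σ := by
      intro l hl
      obtain ⟨m, rfl⟩ := Fin.exists_succAbove_eq hl
      exact h3 m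
    refine ⟨fun l => ?_, h4⟩
    by_cases hl : l = k
    · subst hl
      exact abs_le.2 ⟨by linarith, by linarith⟩
    · calc |x l - c l| = |(x l - a l) + (a l - c l)| := by congr 1; ring
        _ ≤ |x l - a l| + |a l - c l| := abs_add_le _ _
        _ ≤ ρ := by linarith [h4 l hl, h l hl]

end Edge

open Edge in
theorem specLayer : SpecLayer := by
  intro c a ρ σ k b H hρ hσ hH h
  rw [layer_eq h, cube_eq k a σ, fubini_const k b measurableSet_Icc (measurableSet_sq _ _) hH,
    fubini_const k b measurableSet_Icc (measurableSet_sq _ _) hH, Real.volume_Icc,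
    Real.volume_Icc, ← mul_assoc, ← ENNReal.ofReal_mul (by positivity)]
  congr 2
  field_simp
  ring

open Edge in
theorem specEdge : SpecEdge := by
  intro a σ k i j b H hσ hH hik hji hjk
  have h1 : ∀ x : V, Function.update (Function.update x k (a k)) i b =
      Function.update (Function.update a i b) j (x j) := by
    intro x
    funext l
    have hall : l = k ∨ l = i ∨ l = j := by
      revert k i j l
      decide
    rcases hall with rfl | rfl | rfl
    · rw [Function.update_of_ne (Ne.symm hik), Function.update_self,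
        Function.update_of_ne (Ne.symm hjk), Function.update_of_ne (Ne.symm hik)]
    · rw [Function.update_self, Function.update_of_ne (Ne.symm hji), Function.update_self]
    · rw [Function.update_of_ne hji, Function.update_of_ne hjk, Function.update_self]
  simp_rw [h1]
  have hm : Measurable fun t : ℝ => H (Function.update (Function.update a i b) j t) :=
    hH.comp (measurable_update _)
  rw [cube_eq j a σ, fubini_one j measurableSet_Icc (measurableSet_sq _ _) hm,
    volume_sq _ hσ.le]

end Vale.Agent.P073.SQ
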