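import Vale.Agent.P073.SQ.Spec

/-!
# Pairwise disjoint neighbourhoods of the relative interiors of the squares of a `Cells`
-/

namespace Vale.Agent.P073.SQ

open MeasureTheory Set Filter Topology Metric Vale.Agent.P073.St
open scoped ContDiff ENNReal

namespace Vor

variable {Ω R : Set V}

/-- the closed square `q` -/
def Q (W : Cells Ω R) (q : W.κ) : Set V :=
  {x | x (W.k q) = W.a q (W.k q) ∧ ∀ l, |x l - W.a q l| ≤ W.σ q}

/-- the set which a neighbourhood of the square `q` has to miss -/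
def Y (W : Cells Ω R) (q : W.κ) : Set V :=
  {x | x ∈ Ωᶜ ∨ x ∈ R ∨ (∃ q', q' ≠ q ∧ x ∈ Q W q') ∨ ∃ i, q ∉ W.bd i ∧ x ∈ cube (W.c i) (W.ρ i)}

/-- the neighbourhood -/
def U (W : Cells Ω R) (q : W.κ) : Set V := {x | infEDist x (Q W q) < infEDist x (Y W q)}

lemma isClosed_cube (c : V) (ρ : ℝ) : IsClosed (cube c ρ) := by
  have : cube c ρ = ⋂ i, {x : V | |x i - c i| ≤ ρ} := by
    ext x; simp [cube]
  rw [this]
  exact isClosed_iInter fun i =>
    isClosed_le ((((continuous_apply i).sub continuous_const)).abs) continuous_const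

lemma isClosed_Q (W : Cells Ω R) (q : W.κ) : IsClosed (Q W q) := by
  have : Q W q = {x : V | x (W.k q) = W.a q (W.k q)} ∩ cube (W.a q) (W.σ q) := by
    ext x; simp [Q, cube]
  rw [this]
  exact (isClosed_eq (continuous_apply _) continuous_const).inter (isClosed_cube _ _)

/-- a point outside a locally finite union of closed sets has a neighbourhood missing the union -/
lemma nhds_miss {ι : Type} (A : ι → Set V) (P : ι → Prop) (hA : ∀ i, IsClosed (A i)) (x : V)
    (hf : ∃ N ∈ 𝓝 x, {i | (A i ∩ N).Nonempty}.Finite) (hx : ∀ i, P i → x ∉ A i) :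
    ∀ᶠ y in 𝓝 x, ∀ i, P i → y ∉ A i := by
  obtain ⟨N, hN, hfin⟩ := hf
  have h1 : ∀ᶠ y in 𝓝 x, ∀ i ∈ {i | (A i ∩ N).Nonempty}, P i → y ∉ A i := by
    rw [hfin.eventually_all]
    intro i _
    by_cases hP : P i
    · have := (hA i).isOpen_compl.mem_nhds (hx i hP)
      filter_upwards [this] with y hy _ using hy
    · exact Eventually.of_forall fun y h => absurd h hP
  filter_upwards [h1, hN] with y hy hyN i hP hyi
  exact hy i ⟨y, hyi, hyN⟩ hP hyi

lemma not_mem_Y (W : Cells Ω R) (q : W.κ) {x : V} (hx : x ∈ U W q) : x ∉ Y W q := by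
  intro h
  have h0 : infEDist x (Y W q) = 0 := infEDist_zero_of_mem h
  have hx' : infEDist x (Q W q) < infEDist x (Y W q) := hx
  rw [h0] at hx'
  exact absurd hx' (not_lt.2 zero_le)

/-- a point of the square `q` of `bd j` lies in the cube `j` -/
lemma mem_cube (W : Cells Ω R) {q : W.κ} {j : W.ι} (hq : q ∈ W.bd j) {x : V}
    (hx : x ∈ Q W q) : x ∈ cube (W.c j) (W.ρ j) := by
  intro l
  obtain ⟨h1, h2⟩ := W.bd_sub j q hq
  by_cases hl : l = W.k q
  · subst hl
    rw [hx.1]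
    exact h1.le
  · have h3 := h2 l hl
    have h4 := hx.2 l
    have h5 : |x l - W.c j l| ≤ |x l - W.a q l| + |W.a q l - W.c j l| := abs_sub_le _ _ _
    linarith

/-- a relative interior point of `q` lies in no cube `i` with `q ∉ bd i` -/
lemma not_mem_cube (W : Cells Ω R) {q : W.κ} {i : W.ι} (hq : q ∉ W.bd i) {x : V}
    (hx1 : x (W.k q) = W.a q (W.k q)) (hx2 : ∀ l, l ≠ W.k q → |x l - W.a q l| < W.σ q) :
    x ∉ cube (W.c i) (W.ρ i) := by
  intro hxi
  have hxQ : x ∈ Q W q := by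
    refine ⟨hx1, fun l => ?_⟩
    by_cases hl : l = W.k q
    · subst hl
      rw [hx1, sub_self, abs_zero]
      exact (W.σpos q).le
    · exact (hx2 l hl).le
  obtain ⟨j, hj⟩ := W.used q
  have hij : i ≠ j := by
    rintro rfl
    exact hq hj
  have hxj := mem_cube W hj hxQ
  have h1 : ∃ l, |x l - W.c i l| = W.ρ i := by
    by_contra hcon
    push Not at hcon
    exact W.disj i j hij x (fun l => lt_of_le_of_ne (hxi l) (hcon l)) hxj
  obtain ⟨q', hq', h2⟩ := W.bd_cover i x hxi h1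
  have hne : q ≠ q' := by
    rintro rfl
    exact hq hq'
  exact W.disjκ q q' hne x hx1 hx2 h2

end Vor

open Vor in
theorem exists_nbhds {Ω R : Set V} (W : Cells Ω R) (hΩ : IsOpen Ω) :
    ∃ U : W.κ → Set V, (∀ q, IsOpen (U q)) ∧
      (∀ q, q ∉ W.ctrl → ∀ x : V, x (W.k q) = W.a q (W.k q) →
        (∀ l, l ≠ W.k q → |x l - W.a q l| < W.σ q) → x ∈ U q) ∧
      (∀ q, U q ⊆ Ω) ∧ (∀ q, Disjoint (U q) R) ∧
      (∀ q q', q ≠ q' → Disjoint (U q) (U q')) ∧
      (∀ q q', q ≠ q' → Disjoint (U q)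
        {x | x (W.k q') = W.a q' (W.k q') ∧ ∀ l, |x l - W.a q' l| ≤ W.σ q'}) ∧
      (∀ i q, q ∉ W.bd i → Disjoint (U q) (cube (W.c i) (W.ρ i))) ∧
      (∀ x ∈ Ω, ∃ N ∈ 𝓝 x, {q | (U q ∩ N).Nonempty}.Finite) ∧
      (∀ q, {i | q ∈ W.bd i}.Finite) := by
  refine ⟨Vor.U W, ?_, ?_, ?_, ?_, ?_, ?_, ?_, ?_, ?_⟩
  · intro q
    exact isOpen_lt continuous_infEDist continuous_infEDist
  · intro q hq x hx1 hx2
    have hxQ : x ∈ Q W q := by
      refine ⟨hx1, fun l => ?_⟩
      by_cases hl : l = W.k q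
      · subst hl
        rw [hx1, sub_self, abs_zero]
        exact (W.σpos q).le
      · exact (hx2 l hl).le
    have hxΩ : x ∈ Ω := W.subκ q hxQ.2
    have hclos : x ∉ closure (Y W q) := by
      rw [mem_closure_iff_frequently, not_frequently]
      obtain ⟨N, hN, hNR⟩ := W.unc q hq x hx1 hx2
      have e2 := nhds_miss (fun q' => Q W q') (fun q' => q' ≠ q) (isClosed_Q W) x
        (by
          obtain ⟨M, hM, hfin⟩ := W.finκ x hxΩ
          refine ⟨M, hM, hfin.subset ?_⟩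
          rintro q' ⟨y, hy, hyM⟩
          exact ⟨y, hy.2, hyM⟩)
        (fun q' hne hxq' => W.disjκ q q' hne.symm x hx1 hx2 hxq')
      have e3 := nhds_miss (fun i => cube (W.c i) (W.ρ i)) (fun i => q ∉ W.bd i)
        (fun i => isClosed_cube _ _) x (W.fin x hxΩ) (fun i hi => not_mem_cube W hi hx1 hx2)
      filter_upwards [hΩ.mem_nhds hxΩ, hN, e2, e3] with y hy1 hy2 hy3 hy4
      rintro (h | h | ⟨q', hq', h⟩ | ⟨i, hi, h⟩)
      · exact h hy1
      · exact Set.disjoint_left.1 hNR hy2 h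
      · exact hy3 q' hq' h
      · exact hy4 i hi h
    have h0 : infEDist x (Q W q) = 0 := infEDist_zero_of_mem hxQ
    have h1 : infEDist x (Y W q) ≠ 0 := fun h => hclos (mem_closure_iff_infEDist_zero.2 h)
    change infEDist x (Q W q) < infEDist x (Y W q)
    rw [h0]
    exact pos_iff_ne_zero.2 h1
  · intro q x hx
    by_contra hcon
    exact not_mem_Y W q hx (Or.inl hcon)
  · intro q
    rw [Set.disjoint_left]
    intro x hx hR
    exact not_mem_Y W q hx (Or.inr (Or.inl hR))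
  · intro q q' hne
    rw [Set.disjoint_left]
    intro x hx hx'
    have hx : infEDist x (Q W q) < infEDist x (Y W q) := hx
    have hx' : infEDist x (Q W q') < infEDist x (Y W q') := hx'
    have s1 : Q W q' ⊆ Y W q := fun y hy => Or.inr (Or.inr (Or.inl ⟨q', hne.symm, hy⟩))
    have s2 : Q W q ⊆ Y W q' := fun y hy => Or.inr (Or.inr (Or.inl ⟨q, hne, hy⟩))
    have h1 : infEDist x (Y W q) ≤ infEDist x (Q W q') := infEDist_anti s1
    have h2 : infEDist x (Y W q') ≤ infEDist x (Q W q) := infEDist_anti s2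
    exact lt_irrefl _ (((hx.trans_le h1).trans hx').trans_le h2)
  · intro q q' hne
    rw [Set.disjoint_left]
    intro x hx hx'
    exact not_mem_Y W q hx (Or.inr (Or.inr (Or.inl ⟨q', hne.symm, hx'⟩)))
  · intro i q hq
    rw [Set.disjoint_left]
    intro x hx hx'
    exact not_mem_Y W q hx (Or.inr (Or.inr (Or.inr ⟨i, hq, hx'⟩)))
  · intro x hx
    obtain ⟨N, hN, hfin⟩ := W.fin x hx
    refine ⟨N, hN, (hfin.biUnion fun i _ => (W.bd i).finite_toSet).subset ?_⟩
    rintro q ⟨y, hy, hyN⟩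
    have hyY := not_mem_Y W q hy
    have hyΩ : y ∈ Ω := by
      by_contra hcon
      exact hyY (Or.inl hcon)
    rcases W.cover hyΩ with h | h
    · exact absurd (Or.inr (Or.inl h)) hyY
    · obtain ⟨i, hi⟩ := Set.mem_iUnion.1 h
      have hq : q ∈ W.bd i := by
        by_contra hcon
        exact hyY (Or.inr (Or.inr (Or.inr ⟨i, hcon, hi⟩)))
      exact Set.mem_biUnion (x := i) ⟨y, hi, hyN⟩ hq
  · intro q
    have haQ : W.a q ∈ Q W q := by
      refine ⟨rfl, fun l => ?_⟩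
      rw [sub_self, abs_zero]
      exact (W.σpos q).le
    obtain ⟨N, hN, hfin⟩ := W.fin (W.a q) (W.subκ q haQ.2)
    refine hfin.subset ?_
    intro i hi
    exact ⟨W.a q, mem_cube W hi haQ, mem_of_mem_nhds hN⟩

end Vale.Agent.P073.SQ
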