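import Vale.Agent.P073.SQ.Squeeze
import Vale.Agent.P073.SQ.Edge
import Vale.Agent.P073.SQ.Vor

/-!
# SQ: the decomposition of the faces of a cube, and the squeeze theorem
-/

namespace Vale.Agent.P073.SQ

open MeasureTheory Set Filter Topology Metric Vale.Agent.P073.St
open scoped ContDiff ENNReal

variable {Ω R : Set V}

open Classical in
theorem faceDec (W : Cells Ω R) : FaceDec W := by
  intro i H hH
  have hρ0 : 0 < W.ρ i := W.ρpos i
  set t : W.κ → ℝ≥0∞ := fun q => ENNReal.ofReal (W.ρ i / W.σ q) *
      ∫⁻ x in cube (W.a q) (W.σ q), H (W.k q) (Function.update x (W.k q) (W.a q (W.k q))) with ht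
  have hlay : ∀ q ∈ W.bd i, ∫⁻ x in cube (W.c i) (W.ρ i) ∩
      {x | ∀ m, m ≠ W.k q → |x m - W.a q m| ≤ W.σ q},
        H (W.k q) (Function.update x (W.k q) (W.a q (W.k q))) = t q := fun q hq =>
    specLayer (W.c i) (W.a q) (W.ρ i) (W.σ q) (W.k q) (W.a q (W.k q)) (H (W.k q)) hρ0 (W.σpos q)
      (hH _) fun m hm => (W.bd_sub i q hq).2 m hm
  have hcl : ∀ q : W.κ, MeasurableSet {x : V | ∀ m, m ≠ W.k q → |x m - W.a q m| ≤ W.σ q} := by
    intro q
    have e : {x : V | ∀ m, m ≠ W.k q → |x m - W.a q m| ≤ W.σ q} =
        ⋂ m, ⋂ (_ : m ≠ W.k q), {x : V | |x m - W.a q m| ≤ W.σ q} := by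
      ext x; simp
    rw [e]
    exact (isClosed_iInter fun m => isClosed_iInter fun _ =>
      isClosed_le ((continuous_apply m).sub continuous_const).abs
        continuous_const).measurableSet
  have hm : ∀ q : W.κ, Measurable ({x : V | ∀ m, m ≠ W.k q → |x m - W.a q m| ≤ W.σ q}.indicator
      fun x => H (W.k q) (Function.update x (W.k q) (W.a q (W.k q)))) := fun q =>
    ((hH _).comp (measurable_upd _ _)).indicator (hcl q)
  -- one face
  have h1 : ∀ (l : Fin 3) (s : ℝ), s ∈ ({1, -1} : Finset ℝ) →
      ∫⁻ x in cube (W.c i) (W.ρ i), H l (Function.update x l (W.c i l + s * W.ρ i)) ≤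
      ∑ q ∈ W.bd i, if W.k q = l ∧ W.a q l = W.c i l + s * W.ρ i then t q else 0 := by
    intro l s hs
    have hs1 : |s| = 1 := by
      simp only [Finset.mem_insert, Finset.mem_singleton] at hs
      rcases hs with rfl | rfl <;> simp
    calc ∫⁻ x in cube (W.c i) (W.ρ i), H l (Function.update x l (W.c i l + s * W.ρ i))
        ≤ ∫⁻ x in cube (W.c i) (W.ρ i), ∑ q ∈ W.bd i,
          (if W.k q = l ∧ W.a q l = W.c i l + s * W.ρ i then (1 : ℝ≥0∞) else 0) *
          {x : V | ∀ m, m ≠ W.k q → |x m - W.a q m| ≤ W.σ q}.indicator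
            (fun x => H (W.k q) (Function.update x (W.k q) (W.a q (W.k q)))) x := by
          refine lintegral_mono_ae ?_
          filter_upwards [ae_restrict_mem (isClosed_cube (W.c i) (W.ρ i)).measurableSet,
            ae_restrict_of_ae (ae_generic (W.c i) (W.ρ i))] with x hx hg
          have hlt : ∀ m, |x m - W.c i m| < W.ρ i := fun m =>
            lt_of_le_of_ne (hx m) (hg.1 m).2
          have hyl : |W.c i l + s * W.ρ i - W.c i l| = W.ρ i := by
            rw [add_sub_cancel_left, abs_mul, hs1, one_mul, abs_of_pos hρ0]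
          have hy : Function.update x l (W.c i l + s * W.ρ i) ∈ cube (W.c i) (W.ρ i) := by
            intro m
            by_cases hml : m = l
            · subst hml; rw [Function.update_self, hyl]
            · rw [Function.update_of_ne hml]; exact hx m
          obtain ⟨q, hq, h2, h3⟩ := W.bd_cover i _ hy ⟨l, by rw [Function.update_self, hyl]⟩
          have hkl : W.k q = l := by
            by_contra hcon
            rw [Function.update_of_ne hcon] at h2
            have h4 := (W.bd_sub i q hq).1
            rw [← h2] at h4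
            exact absurd h4 (hlt _).ne
          have hal : W.a q l = W.c i l + s * W.ρ i := by
            rw [← hkl, ← h2, hkl, Function.update_self]
          have hmem : x ∈ {x : V | ∀ m, m ≠ W.k q → |x m - W.a q m| ≤ W.σ q} := by
            intro m hm
            have h5 := h3 m
            rwa [Function.update_of_ne (hkl ▸ hm)] at h5
          have hterm : H l (Function.update x l (W.c i l + s * W.ρ i)) =
              (if W.k q = l ∧ W.a q l = W.c i l + s * W.ρ i then (1 : ℝ≥0∞) else 0) *
              {x : V | ∀ m, m ≠ W.k q → |x m - W.a q m| ≤ W.σ q}.indicator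
                (fun x => H (W.k q) (Function.update x (W.k q) (W.a q (W.k q)))) x := by
            rw [if_pos ⟨hkl, hal⟩, one_mul, indicator_of_mem hmem, hkl, hal]
          rw [hterm]
          exact Finset.single_le_sum
            (f := fun q => (if W.k q = l ∧ W.a q l = W.c i l + s * W.ρ i then (1 : ℝ≥0∞) else 0) *
              {x : V | ∀ m, m ≠ W.k q → |x m - W.a q m| ≤ W.σ q}.indicator
                (fun x => H (W.k q) (Function.update x (W.k q) (W.a q (W.k q)))) x)
            (fun _ _ => zero_le) hq
      _ = ∑ q ∈ W.bd i, ∫⁻ x in cube (W.c i) (W.ρ i),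
          (if W.k q = l ∧ W.a q l = W.c i l + s * W.ρ i then (1 : ℝ≥0∞) else 0) *
          {x : V | ∀ m, m ≠ W.k q → |x m - W.a q m| ≤ W.σ q}.indicator
            (fun x => H (W.k q) (Function.update x (W.k q) (W.a q (W.k q)))) x :=
          lintegral_finsetSum' _ fun q _ => ((hm q).const_mul _).aemeasurable
      _ = _ := by
          refine Finset.sum_congr rfl fun q hq => ?_
          rw [lintegral_const_mul _ (hm q), lintegral_indicator (hcl q),
            Measure.restrict_restrict (hcl q), inter_comm, hlay q hq]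
          split_ifs <;> simp
  calc ∑ l, ∑ s ∈ ({1, -1} : Finset ℝ), ∫⁻ x in cube (W.c i) (W.ρ i),
        H l (Function.update x l (W.c i l + s * W.ρ i))
      ≤ ∑ l, ∑ s ∈ ({1, -1} : Finset ℝ), ∑ q ∈ W.bd i,
        (if W.k q = l ∧ W.a q l = W.c i l + s * W.ρ i then t q else 0) :=
        Finset.sum_le_sum fun l _ => Finset.sum_le_sum fun s hs => h1 l s hs
    _ = ∑ q ∈ W.bd i, ∑ l, ∑ s ∈ ({1, -1} : Finset ℝ),
        (if W.k q = l ∧ W.a q l = W.c i l + s * W.ρ i then t q else 0) :=
        Eq.trans (Finset.sum_congr rfl fun l _ => Finset.sum_comm) Finset.sum_comm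
    _ ≤ ∑ q ∈ W.bd i, t q := by
        refine Finset.sum_le_sum fun q _ => ?_
        have h2 : ∀ l, (∑ s ∈ ({1, -1} : Finset ℝ),
            (if W.k q = l ∧ W.a q l = W.c i l + s * W.ρ i then t q else 0)) ≤
            if W.k q = l then t q else 0 := by
          intro l
          by_cases hl : W.k q = l
          · rw [if_pos hl, sum_sign]
            by_cases h3 : W.a q l = W.c i l + 1 * W.ρ i
            · rw [if_pos ⟨hl, h3⟩, if_neg, add_zero]
              rintro ⟨-, h4⟩
              rw [h3] at h4
              linarith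
            · rw [if_neg fun h => h3 h.2, zero_add]
              split_ifs
              · exact le_rfl
              · exact zero_le
          · rw [if_neg hl]
            refine (Finset.sum_eq_zero fun s _ => ?_).le
            rw [if_neg fun h => hl h.1]
        refine (Finset.sum_le_sum fun l _ => h2 l).trans ?_
        simp

/-- **(SQ)** the squeeze theorem -/
theorem specSQ : SpecSQ := by
  refine specSQ_of (fun Ω R W hΩ => ?_) fun Ω R W => faceDec W
  obtain ⟨U, h1, h2, h3, h4, h5, h6, h7, h8, h9⟩ := exists_nbhds W hΩ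
  exact ⟨U, h1, h2, h3, h4, h5, h6, h7, h8, h9⟩

end Vale.Agent.P073.SQ
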