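import Vale.Agent.P073.SQ.FaceCube

/-!
# SQ: auxiliary facts for the squeeze theorem
-/

namespace Vale.Agent.P073.SQ

open MeasureTheory Set Filter Topology Metric Vale.Agent.P073.St
open scoped ContDiff ENNReal

/-! ## diffeomorphisms -/

theorem isDiffeo_cd {Ω Λ : Set V} {g : V → V} (h : IsDiffeo Ω Λ g) : ContDiffOn ℝ ∞ g Ω := by
  obtain ⟨g', -, h1, -⟩ := h
  exact contDiffOn_pi.2 h1

theorem isDiffeo_mapsTo {Ω Λ : Set V} {g : V → V} (h : IsDiffeo Ω Λ g) {x : V} (hx : x ∈ Ω) :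
    g x ∈ Λ := by
  obtain ⟨g', h0, -, -⟩ := h
  exact (h0.1 x hx).1

theorem isDiffeo_comp {Ω Λ Ξ : Set V} {f g : V → V} (hf : IsDiffeo Ω Λ f) (hg : IsDiffeo Λ Ξ g) :
    IsDiffeo Ω Ξ (g ∘ f) := by
  have cf := isDiffeo_cd hf
  have cg := isDiffeo_cd hg
  obtain ⟨f', hf0, -, hf2⟩ := hf
  obtain ⟨g', hg0, -, hg2⟩ := hg
  have cf' : ContDiffOn ℝ ∞ f' Λ := contDiffOn_pi.2 hf2
  have cg' : ContDiffOn ℝ ∞ g' Ξ := contDiffOn_pi.2 hg2
  refine ⟨f' ∘ g', ⟨fun x hx => ?_, fun y hy => ?_⟩, ?_, ?_⟩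
  · have h1 := hf0.1 x hx
    have h2 := hg0.1 _ h1.1
    exact ⟨h2.1, by simp only [Function.comp, h2.2, h1.2]⟩
  · have h1 := hg0.2 y hy
    have h2 := hf0.2 _ h1.1
    exact ⟨h2.1, by simp only [Function.comp, h2.2, h1.2]⟩
  · exact contDiffOn_pi.1 (cg.comp cf fun x hx => (hf0.1 x hx).1)
  · exact contDiffOn_pi.1 (cf'.comp cg' fun y hy => (hg0.2 y hy).1)

/-! ## clamping -/

/-- the nearest point projection onto the cube -/
noncomputable def clamp (c : V) (ρ : ℝ) (x : V) : V := fun l => max (c l - ρ) (min (x l) (c l + ρ))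

theorem continuous_clamp (c : V) (ρ : ℝ) : Continuous (clamp c ρ) :=
  continuous_pi fun l => continuous_const.max ((continuous_apply l).min continuous_const)

theorem clamp_mem (c : V) {ρ : ℝ} (hρ : 0 ≤ ρ) (x : V) : clamp c ρ x ∈ cube c ρ := by
  intro l
  rw [abs_le]
  constructor
  · have := le_max_left (c l - ρ) (min (x l) (c l + ρ))
    simp only [clamp]; linarith
  · have : max (c l - ρ) (min (x l) (c l + ρ)) ≤ c l + ρ :=
      max_le (by linarith) (min_le_right _ _)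
    simp only [clamp]; linarith

theorem clamp_eq {c : V} {ρ : ℝ} {x : V} (hx : x ∈ cube c ρ) : clamp c ρ x = x := by
  funext l
  have h := abs_le.1 (hx l)
  simp only [clamp]
  rw [min_eq_left (by linarith), max_eq_right (by linarith)]

/-! ## the test functions -/

/-- the function `min 1 (dist (x, A) / d)` -/
noncomputable def zf (A : Set V) (d : ℝ) (x : V) : ℝ≥0∞ := ENNReal.ofReal (min 1 (infDist x A / d))

theorem continuous_zf (A : Set V) (d : ℝ) : Continuous (zf A d) :=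
  ENNReal.continuous_ofReal.comp
    (continuous_const.min ((continuous_infDist_pt A).div_const d))

theorem zf_le_one (A : Set V) (d : ℝ) (x : V) : zf A d x ≤ 1 := by
  rw [zf, ← ENNReal.ofReal_one]
  exact ENNReal.ofReal_le_ofReal (min_le_left _ _)

theorem zf_eq_zero {A : Set V} (d : ℝ) {x : V} (hx : x ∈ A) : zf A d x = 0 := by
  rw [zf, infDist_zero_of_mem hx, zero_div]
  simp

theorem zf_mono {A B : Set V} (h : A ⊆ B) (hA : A.Nonempty) {d d' : ℝ} (hd : 0 < d) (hd' : d ≤ d')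
    (x : V) : zf B d' x ≤ zf A d x := by
  refine ENNReal.ofReal_le_ofReal (min_le_min le_rfl ?_)
  exact div_le_div₀ infDist_nonneg (infDist_le_infDist_of_subset h hA) hd hd'

theorem zf_eq_one {A : Set V} (hA : A.Nonempty) {d : ℝ} (hd : 0 < d) {x : V}
    (hx : ∀ y ∈ A, d ≤ ‖x - y‖) : zf A d x = 1 := by
  have h1 : d ≤ infDist x A := (le_infDist hA).2 fun y hy => by
    rw [dist_eq_norm]; exact hx y hy
  rw [zf, min_eq_left ((one_le_div hd).2 h1), ENNReal.ofReal_one]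

/-! ## choice of small numbers -/

theorem exists_small {ι : Type} {s : Set ι} (hs : s.Finite) {δ : ι → ℝ≥0∞}
    (hδ : ∀ i ∈ s, δ i ≠ 0) : ∃ e : ℝ≥0∞, e ≠ 0 ∧ ∀ i ∈ s, e ≤ δ i := by
  induction s, hs using Set.Finite.induction_on with
  | empty => exact ⟨1, one_ne_zero, by simp⟩
  | @insert a t _ _ ih =>
    obtain ⟨e, he, h⟩ := ih fun i hi => hδ i (mem_insert_of_mem _ hi)
    refine ⟨min e (δ a), ?_, fun i hi => ?_⟩
    · rcases min_choice e (δ a) with h' | h' <;> rw [h']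
      · exact he
      · exact hδ a (mem_insert _ _)
    · rcases hi with rfl | hi
      · exact min_le_right _ _
      · exact (min_le_left _ _).trans (h i hi)

theorem exists_small' {ι : Type} {s : Set ι} (hs : s.Finite) {δ : ι → ℝ}
    (hδ : ∀ i, 0 < δ i) : ∃ e : ℝ, 0 < e ∧ ∀ i ∈ s, e ≤ δ i := by
  induction s, hs using Set.Finite.induction_on with
  | empty => exact ⟨1, one_pos, by simp⟩
  | @insert a t _ _ ih =>
    obtain ⟨e, he, h⟩ := ih
    refine ⟨min e (δ a), lt_min he (hδ a), fun i hi => ?_⟩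
    rcases hi with rfl | hi
    · exact min_le_right _ _
    · exact (min_le_left _ _).trans (h i hi)

theorem exists_mul_le {A t : ℝ≥0∞} (hA : A ≠ ⊤) (ht : t ≠ 0) : ∃ e : ℝ≥0∞, e ≠ 0 ∧ A * e ≤ t := by
  refine ⟨t / (A + 1), ENNReal.div_ne_zero.2 ⟨ht, ENNReal.add_ne_top.2 ⟨hA, ENNReal.one_ne_top⟩⟩, ?_⟩
  calc A * (t / (A + 1)) ≤ (A + 1) * (t / (A + 1)) := by gcongr; exact le_self_add
    _ ≤ t := ENNReal.mul_div_le

/-! ## the closed squares and their boundaries -/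

variable {Ω R : Set V}

/-- the closed square -/
def Cells.sq (W : Cells Ω R) (q : W.κ) : Set V :=
  {x | x (W.k q) = W.a q (W.k q) ∧ ∀ l, |x l - W.a q l| ≤ W.σ q}

/-- the union of the four edges -/
def Cells.bdry (W : Cells Ω R) (q : W.κ) : Set V :=
  {x | x (W.k q) = W.a q (W.k q) ∧ (∀ l, |x l - W.a q l| ≤ W.σ q) ∧
    ∃ l, l ≠ W.k q ∧ |x l - W.a q l| = W.σ q}

variable (W : Cells Ω R)

theorem sq_subset (q : W.κ) : W.sq q ⊆ Ω := fun _ hx => W.subκ q fun l => hx.2 l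

theorem sq_subset_cube {i : W.ι} {q : W.κ} (hq : q ∈ W.bd i) :
    W.sq q ⊆ cube (W.c i) (W.ρ i) := by
  intro x hx l
  obtain ⟨h1, h2⟩ := W.bd_sub i q hq
  by_cases hl : l = W.k q
  · subst hl
    rw [hx.1, h1]
  · have h3 := hx.2 l
    have h4 := h2 l hl
    calc |x l - W.c i l| = |(x l - W.a q l) + (W.a q l - W.c i l)| := by ring_nf
      _ ≤ |x l - W.a q l| + |W.a q l - W.c i l| := abs_add_le _ _
      _ ≤ W.ρ i := by linarith

theorem upd_mem_sq (q : W.κ) {x : V} (hx : x ∈ cube (W.a q) (W.σ q)) :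
    Function.update x (W.k q) (W.a q (W.k q)) ∈ W.sq q := by
  refine ⟨by simp, fun l => ?_⟩
  by_cases hl : l = W.k q
  · subst hl; simp [(W.σpos q).le]
  · rw [Function.update_of_ne hl]; exact hx l

theorem upd_mem_bdry (q : W.κ) {x : V} (hx : x ∈ cube (W.a q) (W.σ q)) {i : Fin 3}
    (hi : i ≠ W.k q) {t : ℝ} (ht : t ∈ ({1, -1} : Finset ℝ)) :
    Function.update (Function.update x (W.k q) (W.a q (W.k q))) i (W.a q i + t * W.σ q) ∈
      W.bdry q := by
  have habs : |W.a q i + t * W.σ q - W.a q i| = W.σ q := by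
    have h1 : |t| = 1 := by
      simp only [Finset.mem_insert, Finset.mem_singleton] at ht
      rcases ht with rfl | rfl <;> simp
    rw [add_sub_cancel_left, abs_mul, h1, one_mul, abs_of_pos (W.σpos q)]
  refine ⟨?_, fun l => ?_, i, hi, ?_⟩
  · rw [Function.update_of_ne (Ne.symm hi), Function.update_self]
  · by_cases hl : l = i
    · subst hl
      rw [Function.update_self, habs]
    · rw [Function.update_of_ne hl]
      exact (upd_mem_sq W q hx).2 l
  · rw [Function.update_self, habs]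

theorem bdry_nonempty (q : W.κ) : (W.bdry q).Nonempty := by
  obtain ⟨i, hi⟩ : ∃ i, i ≠ W.k q := exists_ne _
  exact ⟨_, upd_mem_bdry W q (x := W.a q) (fun l => by simp [(W.σpos q).le]) hi
    (t := 1) (by simp)⟩

theorem bdry_subset_net {i : W.ι} {q : W.κ} (hq : q ∈ W.bd i) : W.bdry q ⊆ W.net i :=
  fun _ hx => ⟨q, hq, hx.1, hx.2.1, Or.inr hx.2.2⟩

theorem sq_subset_net {i : W.ι} {q : W.κ} (hq : q ∈ W.bd i) (hc : q ∈ W.ctrl) :
    W.sq q ⊆ W.net i :=
  fun _ hx => ⟨q, hq, hx.1, hx.2, Or.inl hc⟩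

theorem bd_nonempty (i : W.ι) : (W.bd i).Nonempty := by
  have h : Function.update (W.c i) 0 (W.c i 0 + W.ρ i) ∈ cube (W.c i) (W.ρ i) := by
    intro l
    by_cases hl : l = 0
    · subst hl; simp [abs_of_pos (W.ρpos i)]
    · rw [Function.update_of_ne hl]; simp [(W.ρpos i).le]
  obtain ⟨q, hq, -⟩ := W.bd_cover i _ h ⟨0, by simp [abs_of_pos (W.ρpos i)]⟩
  exact ⟨q, hq⟩

theorem net_nonempty (i : W.ι) : (W.net i).Nonempty := by
  obtain ⟨q, hq⟩ := bd_nonempty W i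
  exact (bdry_nonempty W q).mono (bdry_subset_net W hq)

/-- the conclusion of the neighbourhood lemma -/
structure Nbhds (U : W.κ → Set V) : Prop where
  op : ∀ q, IsOpen (U q)
  mem : ∀ q, q ∉ W.ctrl → ∀ x : V, x (W.k q) = W.a q (W.k q) →
    (∀ l, l ≠ W.k q → |x l - W.a q l| < W.σ q) → x ∈ U q
  sub : ∀ q, U q ⊆ Ω
  dR : ∀ q, Disjoint (U q) R
  dU : ∀ q q', q ≠ q' → Disjoint (U q) (U q')
  dsq : ∀ q q', q ≠ q' → Disjoint (U q) (W.sq q')
  dcube : ∀ i q, q ∉ W.bd i → Disjoint (U q) (cube (W.c i) (W.ρ i))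
  fin : ∀ x ∈ Ω, ∃ N ∈ 𝓝 x, {q | (U q ∩ N).Nonempty}.Finite
  finbd : ∀ q, {i | q ∈ W.bd i}.Finite

end Vale.Agent.P073.SQ
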