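import Vale.Agent.P073.SQ.Spec

/-!
# Block SQ: gluing of diffeomorphisms with disjoint, locally finite supports (SQ5)
-/

namespace Vale.Agent.P073.SQ

open MeasureTheory Set Filter Topology Vale.Agent.P073.St
open scoped ContDiff ENNReal

namespace Glue

variable {ι : Type} {K : ι → Set V}

open Classical in
/-- the glued map -/
noncomputable def glue (K : ι → Set V) (s : ι → V → V) (x : V) : V :=
  if h : ∃ i, x ∈ K i then s h.choose x else x

theorem glue_mem (hd : ∀ i j, i ≠ j → Disjoint (K i) (K j)) (s : ι → V → V) {i : ι} {x : V}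
    (hx : x ∈ K i) : glue K s x = s i x := by
  have h : ∃ i, x ∈ K i := ⟨i, hx⟩
  have h1 : h.choose = i := by
    by_contra hne
    exact Set.disjoint_left.1 (hd _ _ hne) h.choose_spec hx
  rw [glue, dif_pos h, h1]

theorem glue_off (s : ι → V → V) {x : V} (hx : ∀ i, x ∉ K i) : glue K s x = x :=
  dif_neg fun ⟨i, hi⟩ => hx i hi

/-- near a point of `Ω` only finitely many supports are present, so one can avoid all supports
which do not contain the point -/
theorem eventually_notMem {Ω : Set V} (hK : ∀ i, IsCompact (K i))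
    (hfin : ∀ x ∈ Ω, ∃ N ∈ 𝓝 x, {i | (K i ∩ N).Nonempty}.Finite) {x : V} (hx : x ∈ Ω) (J : Set ι)
    (hJ : ∀ j ∈ J, x ∉ K j) : ∀ᶠ y in 𝓝 x, ∀ j ∈ J, y ∉ K j := by
  obtain ⟨N, hN, hf⟩ := hfin x hx
  have h1 : ∀ᶠ y in 𝓝 x, ∀ j ∈ J ∩ {i | (K i ∩ N).Nonempty}, y ∉ K j := by
    rw [(hf.inter_of_right J).eventually_all]
    intro j hj
    exact (hK j).isClosed.isOpen_compl.mem_nhds (hJ j hj.1)
  filter_upwards [h1, hN] with y hy hyN j hj hyj
  exact hy j ⟨hj, ⟨y, hyj, hyN⟩⟩ hyj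

theorem glue_eventuallyEq {Ω : Set V} (hd : ∀ i j, i ≠ j → Disjoint (K i) (K j))
    (hK : ∀ i, IsCompact (K i))
    (hfin : ∀ x ∈ Ω, ∃ N ∈ 𝓝 x, {i | (K i ∩ N).Nonempty}.Finite) (s : ι → V → V)
    (hs : ∀ i x, x ∉ K i → s i x = x) {i : ι} {x : V} (hx : x ∈ Ω) (hi : ∀ j, j ≠ i → x ∉ K j) :
    glue K s =ᶠ[𝓝 x] s i := by
  filter_upwards [eventually_notMem hK hfin hx {j | j ≠ i} hi] with y hy
  by_cases h : y ∈ K i
  · exact glue_mem hd s h
  · rw [hs i y h]
    refine glue_off s fun j => ?_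
    by_cases hj : j = i
    · rw [hj]; exact h
    · exact hy j hj

theorem glue_eventuallyEq_id {Ω : Set V} (hK : ∀ i, IsCompact (K i))
    (hfin : ∀ x ∈ Ω, ∃ N ∈ 𝓝 x, {i | (K i ∩ N).Nonempty}.Finite) (s : ι → V → V) {x : V}
    (hx : x ∈ Ω) (hi : ∀ j, x ∉ K j) : glue K s =ᶠ[𝓝 x] id := by
  filter_upwards [eventually_notMem hK hfin hx univ fun j _ => hi j] with y hy
  exact glue_off s fun j => hy j trivial

theorem glue_smooth {Ω : Set V} (hd : ∀ i j, i ≠ j → Disjoint (K i) (K j))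
    (hK : ∀ i, IsCompact (K i))
    (hfin : ∀ x ∈ Ω, ∃ N ∈ 𝓝 x, {i | (K i ∩ N).Nonempty}.Finite) (s : ι → V → V)
    (hs : ∀ i x, x ∉ K i → s i x = x) (hsm : ∀ i, ContDiff ℝ ∞ (s i)) (l : Fin 3) :
    Sm Ω (fun x => glue K s x l) := by
  intro x hx
  have h0 : ContDiffAt ℝ ∞ (glue K s) x := by
    by_cases h : ∃ i, x ∈ K i
    · obtain ⟨i, hi⟩ := h
      refine (hsm i).contDiffAt.congr_of_eventuallyEq
        (glue_eventuallyEq hd hK hfin s hs hx fun j hj hxj => ?_)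
      exact Set.disjoint_left.1 (hd _ _ hj) hxj hi
    · push Not at h
      exact contDiffAt_id.congr_of_eventuallyEq (glue_eventuallyEq_id hK hfin s hx h)
  exact ((contDiff_apply ℝ ℝ l).contDiffAt.comp x h0).contDiffWithinAt

end Glue

theorem SuppDiffeo.mapsTo {K : Set V} {s : V → V} (h : SuppDiffeo K s) {x : V} (hx : x ∈ K) :
    s x ∈ K := by
  obtain ⟨t, -, h1, -⟩ := h.inv
  by_contra hcon
  have h2 := h.supp _ hcon
  have h3 : s x = x := by rw [← h1 (s x), h2, h1]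
  rw [h3] at hcon
  exact hcon hx

/-- **(SQ5)** -/
theorem specGlue : SpecGlue := by
  intro Ω ι K s _ hs hKΩ hd hfin
  have hK : ∀ i, IsCompact (K i) := fun i => (hs i).compact
  choose t ht1 ht2 ht3 using fun i => (hs i).inv
  have htsupp : ∀ i x, x ∉ K i → t i x = x := fun i x hx => by
    conv_lhs => rw [← (hs i).supp x hx]
    exact ht2 i x
  have ht : ∀ i, SuppDiffeo (K i) (t i) := fun i =>
    ⟨hK i, ht1 i, ⟨s i, (hs i).smooth, ht3 i, ht2 i⟩, htsupp i⟩
  have key : ∀ (a b : ι → V → V), (∀ i, SuppDiffeo (K i) (a i)) → (∀ i x, b i (a i x) = x) →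
      ∀ x ∈ Ω, Glue.glue K a x ∈ Ω ∧ Glue.glue K b (Glue.glue K a x) = x := by
    intro a b ha hab x hx
    by_cases h : ∃ i, x ∈ K i
    · obtain ⟨i, hi⟩ := h
      rw [Glue.glue_mem hd a hi, Glue.glue_mem hd b ((ha i).mapsTo hi)]
      exact ⟨hKΩ i ((ha i).mapsTo hi), hab i x⟩
    · push Not at h
      rw [Glue.glue_off a h, Glue.glue_off b h]
      exact ⟨hx, rfl⟩
  refine ⟨Glue.glue K s, ⟨Glue.glue K t, ⟨key s t hs ht2, key t s ht ht3⟩, ?_, ?_⟩, ?_, ?_, ?_⟩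
  · exact Glue.glue_smooth hd hK hfin s (fun i => (hs i).supp) fun i => (hs i).smooth
  · exact Glue.glue_smooth hd hK hfin t htsupp ht1
  · exact fun i x hx => Glue.glue_mem hd s hx
  · exact fun x hx => Glue.glue_off s hx
  · exact fun i x hx hi => Glue.glue_eventuallyEq hd hK hfin s (fun i => (hs i).supp) hx hi

end Vale.Agent.P073.SQ
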