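import Vale.Agent.P073.SQ.Spec

/-!
# Block SQ: a criterion for compactly supported diffeomorphisms
-/

namespace Vale.Agent.P073.SQ

open MeasureTheory Set Filter Topology Vale.Agent.P073.St
open scoped ContDiff ENNReal

/-- A smooth injective map of `V` with injective derivatives, which is the identity off a compact
set, is a diffeomorphism. -/
theorem SuppDiffeo.of_injective {K : Set V} {s : V → V} (hK : IsCompact K)
    (hs : ContDiff ℝ ∞ s) (hinj : Function.Injective s)
    (hd : ∀ x v, fderiv ℝ s x v = 0 → v = 0) (hid : ∀ x, x ∉ K → s x = x) :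
    SuppDiffeo K s := by
  have hdiff : Differentiable ℝ s := hs.differentiable (by simp)
  have hker : ∀ x, LinearMap.ker (fderiv ℝ s x : V →ₗ[ℝ] V) = ⊥ := fun x =>
    LinearMap.ker_eq_bot'.2 fun v hv => hd x v hv
  let e : ∀ x : V, V ≃L[ℝ] V := fun x =>
    (LinearEquiv.ofInjectiveEndo (fderiv ℝ s x : V →ₗ[ℝ] V)
      (LinearMap.ker_eq_bot.1 (hker x))).toContinuousLinearEquiv
  have he : ∀ x, ((e x : V ≃L[ℝ] V) : V →L[ℝ] V) = fderiv ℝ s x := by
    intro x
    ext v i
    rfl
  have hstrict : ∀ x, HasStrictFDerivAt s ((e x : V ≃L[ℝ] V) : V →L[ℝ] V) x := by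
    intro x
    rw [he x]
    exact (hs.contDiffAt).hasStrictFDerivAt (by simp)
  have hopen : IsOpenMap s := isOpenMap_of_hasStrictFDerivAt_equiv hstrict
  have hclosed : IsClosed (range s) := by
    have hcl : closure Kᶜ ⊆ {x | s x = x} := by
      apply closure_minimal (fun x hx => hid x hx)
      exact isClosed_eq hs.continuous continuous_id
    have : range s = s '' K ∪ closure Kᶜ := by
      apply Subset.antisymm
      · rintro _ ⟨w, rfl⟩
        by_cases hw : w ∈ K
        · exact Or.inl ⟨w, hw, rfl⟩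
        · refine Or.inr ?_
          rw [hid w hw]
          exact subset_closure hw
      · rintro z (⟨w, _, rfl⟩ | hz)
        · exact ⟨w, rfl⟩
        · exact ⟨z, hcl hz⟩
    rw [this]
    exact ((hK.image hs.continuous).isClosed).union isClosed_closure
  have hsurj : Function.Surjective s := by
    have : range s = univ :=
      IsClopen.eq_univ ⟨hclosed, hopen.isOpen_range⟩ (range_nonempty s)
    exact range_eq_univ.1 this
  let E : V ≃ₜ V := (Equiv.ofBijective s ⟨hinj, hsurj⟩).toHomeomorphOfContinuousOpen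
    hs.continuous hopen
  have hE : ∀ x, E x = s x := fun x => rfl
  have hsymm : ContDiff ℝ ∞ E.symm :=
    E.contDiff_symm (f₀' := e) (fun x => (hstrict x).hasFDerivAt) hs
  exact ⟨hK, hs, ⟨E.symm, hsymm, fun x => by rw [← hE]; exact E.symm_apply_apply x,
    fun x => by rw [← hE]; exact E.apply_symm_apply x⟩, hid⟩

/-- conjugation of a compactly supported diffeomorphism by `x ↦ c + ρ x` -/
theorem SuppDiffeo.conj {K : Set V} {s : V → V} (h : SuppDiffeo K s) (c : V) {ρ : ℝ}
    (hρ : 0 < ρ) :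
    SuppDiffeo ((fun x : V => c + ρ • x) '' K) (fun x => c + ρ • s (ρ⁻¹ • (x - c))) := by
  obtain ⟨t, ht, hts, hst⟩ := h.inv
  refine ⟨h.compact.image (by fun_prop), ?_, ⟨fun x => c + ρ • t (ρ⁻¹ • (x - c)), ?_, ?_, ?_⟩, ?_⟩
  · have := h.smooth
    fun_prop
  · fun_prop
  · intro x
    simp [smul_smul, inv_mul_cancel₀ hρ.ne', mul_inv_cancel₀ hρ.ne', hts]
  · intro x
    simp [smul_smul, inv_mul_cancel₀ hρ.ne', mul_inv_cancel₀ hρ.ne', hst]
  · intro x hx
    have : ρ⁻¹ • (x - c) ∉ K := by
      intro hK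
      apply hx
      refine ⟨_, hK, ?_⟩
      simp [smul_smul, mul_inv_cancel₀ hρ.ne']
    rw [h.supp _ this]
    simp [smul_smul, mul_inv_cancel₀ hρ.ne']

end Vale.Agent.P073.SQ
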