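import Vale.Agent.P073.SQ.Spec

/-!
# SQ: the energy of `G ∘ s` for the radial diffeomorphisms `s`
-/

namespace Vale.Agent.P073.SQ

open MeasureTheory Set Filter Topology Vale.Agent.P073.St
open scoped ContDiff ENNReal

/-- projection onto the face `{x_l = c_l, l ∉ S}` -/
def pr (S : Finset (Fin 3)) (c x : V) : V := fun l => if l ∈ S then x l else c l

/-- the properties of the sequence of radial diffeomorphisms which are used here -/
structure RadSeq (C : ℝ) (S : Finset (Fin 3)) (c : V) (ρ : ℝ) (s : ℕ → V → V) : Prop where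
  cd : ∀ n, ContDiff ℝ ∞ (s n)
  fix : ∀ n x l, l ∉ S → s n x l = x l
  box : ∀ n x, (∀ l ∈ S, |x l - c l| ≤ ρ) → ∀ l ∈ S, |s n x l - c l| ≤ ρ
  bound : ∀ n x, (∀ l, l ∉ S → x l = c l) → (∀ l ∈ S, |x l - c l| ≤ ρ) → ∀ j ∈ S, ∀ i ∈ S,
    ‖fderiv ℝ (s n) x (ev j)‖ * |x i - c i| ≤ C * ρ
  lim : ∀ x, ∀ i ∈ S, (∀ l, l ∉ S → x l = c l) → (∀ j ∈ S, j ≠ i → |x j - c j| < |x i - c i|) →
    0 < |x i - c i| → |x i - c i| < ρ →
    Tendsto (fun n => s n x) atTop (𝓝 (rad S c ρ i x)) ∧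
    (∀ j ∈ S, j ≠ i → Tendsto (fun n => fderiv ℝ (s n) x (ev j)) atTop
      (𝓝 ((ρ / |x i - c i|) • ev j))) ∧
    Tendsto (fun n => fderiv ℝ (s n) x (ev i)) atTop
      (𝓝 (fun l => if l ∈ S ∧ l ≠ i then
        -(ρ / |x i - c i|) * ((x l - c l) / (x i - c i)) else 0))

/-- the closed sector where the coordinate `i` dominates -/
def sector (S : Finset (Fin 3)) (c : V) (i : Fin 3) : Set V :=
  {x | ∀ j ∈ S, |x j - c j| ≤ |x i - c i|}

theorem isClosed_sector (S : Finset (Fin 3)) (c : V) (i : Fin 3) : IsClosed (sector S c i) := by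
  have : sector S c i = ⋂ j, ⋂ (_ : j ∈ S), {x : V | |x j - c j| ≤ |x i - c i|} := by
    ext x; simp [sector]
  rw [this]
  refine isClosed_iInter fun j => isClosed_iInter fun _ => ?_
  exact isClosed_le ((continuous_apply j).sub continuous_const).abs
    ((continuous_apply i).sub continuous_const).abs

theorem isClosed_cube (c : V) (ρ : ℝ) : IsClosed (cube c ρ) := by
  have : cube c ρ = ⋂ j, {x : V | |x j - c j| ≤ ρ} := by ext x; simp [cube]
  rw [this]
  exact isClosed_iInter fun j => isClosed_le ((continuous_apply j).sub continuous_const).abs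
    continuous_const

theorem cube_eq (c : V) {ρ : ℝ} (hρ : 0 ≤ ρ) : cube c ρ = Metric.closedBall c ρ := by
  ext x
  rw [Metric.mem_closedBall, dist_pi_le_iff hρ]
  simp [cube, Real.dist_eq]

theorem isCompact_cube (c : V) {ρ : ℝ} (hρ : 0 ≤ ρ) : IsCompact (cube c ρ) := by
  rw [cube_eq c hρ]; exact isCompact_closedBall _ _

theorem continuous_pr (S : Finset (Fin 3)) (c : V) : Continuous (pr S c) := by
  refine continuous_pi fun l => ?_
  by_cases h : l ∈ S
  · simpa [pr, h] using continuous_apply l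
  · simpa [pr, h] using continuous_const

theorem measurable_dE {p : ℝ} (G : V → V) (j : Fin 3) : Measurable (dE p G j) := by
  unfold dE
  exact ((measurable_fderiv_apply_const ℝ G (ev j)).norm.pow_const p).ennreal_ofReal

/-- hyperplanes are null sets -/
theorem null_linear (ℓ : V →ₗ[ℝ] ℝ) (hℓ : ℓ ≠ 0) (t : ℝ) : volume {x : V | ℓ x = t} = 0 := by
  by_cases h : ∃ x0, ℓ x0 = t
  · obtain ⟨x0, hx0⟩ := h
    have e : {x : V | ℓ x = t} =
        (fun y => -x0 + y) ⁻¹' ((LinearMap.ker ℓ : Submodule ℝ V) : Set V) := by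
      ext x
      simp only [mem_ofPred_eq, mem_preimage, SetLike.mem_coe, LinearMap.mem_ker, map_add, map_neg,
        hx0]
      constructor <;> intro h <;> linarith
    rw [e, measure_preimage_add]
    exact Measure.addHaar_submodule _ _ fun h => hℓ (LinearMap.ker_eq_top.1 h)
  · push Not at h
    have : {x : V | ℓ x = t} = ∅ := by
      ext x; simp [h x]
    rw [this, measure_empty]

theorem ae_coord_ne (i : Fin 3) (t : ℝ) : ∀ᵐ x : V, x i ≠ t := by
  rw [ae_iff]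
  simp only [not_not]
  refine null_linear (LinearMap.proj i) (fun h => ?_) t
  have := congrArg (fun ℓ : V →ₗ[ℝ] ℝ => ℓ (Pi.single i 1)) h
  simp at this

theorem ae_coord_sub_ne {i j : Fin 3} (hij : i ≠ j) (t : ℝ) : ∀ᵐ x : V, x i - x j ≠ t := by
  rw [ae_iff]
  simp only [not_not]
  refine null_linear (LinearMap.proj (R := ℝ) (φ := fun _ : Fin 3 => ℝ) i - LinearMap.proj j) (fun h => ?_) t
  have := congrArg (fun ℓ : V →ₗ[ℝ] ℝ => ℓ (Pi.single i 1)) h
  simp [hij.symm] at this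

theorem ae_coord_add_ne {i j : Fin 3} (hij : i ≠ j) (t : ℝ) : ∀ᵐ x : V, x i + x j ≠ t := by
  rw [ae_iff]
  simp only [not_not]
  refine null_linear (LinearMap.proj (R := ℝ) (φ := fun _ : Fin 3 => ℝ) i + LinearMap.proj j) (fun h => ?_) t
  have := congrArg (fun ℓ : V →ₗ[ℝ] ℝ => ℓ (Pi.single i 1)) h
  simp [hij.symm] at this

/-- almost every point is generic -/
theorem ae_generic (c : V) (ρ : ℝ) : ∀ᵐ x : V, (∀ i, |x i - c i| ≠ 0 ∧ |x i - c i| ≠ ρ) ∧
    ∀ i j, i ≠ j → |x i - c i| ≠ |x j - c j| := by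
  have h1 : ∀ᵐ x : V, ∀ i, x i ≠ c i := ae_all_iff.2 fun i => ae_coord_ne i _
  have h2 : ∀ᵐ x : V, ∀ i, x i ≠ c i + ρ := ae_all_iff.2 fun i => ae_coord_ne i _
  have h3 : ∀ᵐ x : V, ∀ i, x i ≠ c i - ρ := ae_all_iff.2 fun i => ae_coord_ne i _
  have h4 : ∀ᵐ x : V, ∀ i j, i ≠ j → x i - x j ≠ c i - c j := by
    refine ae_all_iff.2 fun i => ae_all_iff.2 fun j => ?_
    by_cases hij : i = j
    · simp [hij]
    · filter_upwards [ae_coord_sub_ne hij (c i - c j)] with x hx _ using hx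
  have h5 : ∀ᵐ x : V, ∀ i j, i ≠ j → x i + x j ≠ c i + c j := by
    refine ae_all_iff.2 fun i => ae_all_iff.2 fun j => ?_
    by_cases hij : i = j
    · simp [hij]
    · filter_upwards [ae_coord_add_ne hij (c i + c j)] with x hx _ using hx
  filter_upwards [h1, h2, h3, h4, h5] with x a1 a2 a3 a4 a5
  refine ⟨fun i => ⟨fun h => a1 i ?_, fun h => ?_⟩, fun i j hij h => ?_⟩
  · rw [abs_eq_zero] at h; linarith
  · rcases eq_or_eq_neg_of_abs_eq h with h | h
    · exact a2 i (by linarith)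
    · exact a3 i (by linarith)
  · rcases abs_eq_abs.1 h with h | h
    · exact a4 i j hij (by linarith)
    · exact a5 i j hij (by linarith)

/-- a generic point lies in the interior of a sector -/
theorem exists_sector {S : Finset (Fin 3)} (hS : S.Nonempty) {c x : V}
    (hx : ∀ i j, i ≠ j → |x i - c i| ≠ |x j - c j|) :
    ∃ i ∈ S, ∀ j ∈ S, j ≠ i → |x j - c j| < |x i - c i| := by
  obtain ⟨i, hi, hmax⟩ := S.exists_max_image (fun i => |x i - c i|) hS
  exact ⟨i, hi, fun j hj hji => lt_of_le_of_ne (hmax j hj) (hx j i hji)⟩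

theorem pr_apply_of_mem {S : Finset (Fin 3)} {c x : V} {l : Fin 3} (h : l ∈ S) :
    pr S c x l = x l := by simp [pr, h]

theorem pr_apply_of_notMem {S : Finset (Fin 3)} {c x : V} {l : Fin 3} (h : l ∉ S) :
    pr S c x l = c l := by simp [pr, h]

theorem rad_pr {S : Finset (Fin 3)} {c x : V} {ρ : ℝ} {i : Fin 3} (hi : i ∈ S) :
    rad S c ρ i (pr S c x) = pr S c (rad S c ρ i x) := by
  funext l
  by_cases hl : l ∈ S
  · simp [rad, pr, hl, hi]
  · simp [rad, pr, hl]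

/-- the limit of the derivative in the dominating direction -/
noncomputable def wv (S : Finset (Fin 3)) (c : V) (ρ : ℝ) (i : Fin 3) (x : V) : V :=
  fun l => if l ∈ S ∧ l ≠ i then -(ρ / |x i - c i|) * ((x l - c l) / (x i - c i)) else 0

theorem wv_eq (S : Finset (Fin 3)) (c : V) (ρ : ℝ) (i : Fin 3) (x : V) :
    wv S c ρ i x = ∑ l ∈ S.erase i, (-(ρ / |x i - c i|) * ((x l - c l) / (x i - c i))) • ev l := by
  funext k
  simp only [wv, ev, Finset.sum_apply, Pi.smul_apply, smul_eq_mul, Pi.single_apply, mul_ite,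
    mul_one, mul_zero, Finset.sum_ite_eq, Finset.mem_erase]
  by_cases h : k ∈ S ∧ k ≠ i
  · simp [h]
  · rw [if_neg h, if_neg (fun h' => h ⟨h'.2, h'.1⟩)]

theorem sum_rpow_le {T : Finset (Fin 3)} {a : Fin 3 → ℝ} (ha : ∀ l, 0 ≤ a l) {p : ℝ} (hp : 1 ≤ p) :
    (∑ l ∈ T, a l) ^ p ≤ 3 ^ p * ∑ l ∈ T, a l ^ p := by
  rcases T.eq_empty_or_nonempty with rfl | hT
  · simp [Real.zero_rpow (by linarith : p ≠ 0)]
  obtain ⟨m, hm, hmax⟩ := T.exists_max_image a hT
  have h1 : ∑ l ∈ T, a l ≤ 3 * a m := by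
    calc ∑ l ∈ T, a l ≤ ∑ _l ∈ T, a m := Finset.sum_le_sum hmax
      _ = T.card * a m := by rw [Finset.sum_const, nsmul_eq_mul]
      _ ≤ 3 * a m := by
        have : (T.card : ℝ) ≤ 3 := by exact_mod_cast (Finset.card_le_univ T).trans (by simp)
        exact mul_le_mul_of_nonneg_right this (ha m)
  calc (∑ l ∈ T, a l) ^ p ≤ (3 * a m) ^ p :=
        Real.rpow_le_rpow (Finset.sum_nonneg fun l _ => ha l) h1 (by linarith)
    _ = 3 ^ p * a m ^ p := Real.mul_rpow (by norm_num) (ha m)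
    _ ≤ _ := by
      gcongr
      exact Finset.single_le_sum (f := fun l => a l ^ p) (fun l _ => Real.rpow_nonneg (ha l) p) hm

/-- bound of the limit -/
theorem limit_bound {S : Finset (Fin 3)} {c : V} {ρ : ℝ} (hρ : 0 < ρ) {i : Fin 3} {x : V}
    (hx : ∀ j ∈ S, j ≠ i → |x j - c j| < |x i - c i|) {p : ℝ}
    (hp : 1 ≤ p) (D : V →L[ℝ] V) :
    (∑ j ∈ S.erase i, ‖D ((ρ / |x i - c i|) • ev j)‖ ^ p) + ‖D (wv S c ρ i x)‖ ^ p ≤
      (ρ / |x i - c i|) ^ p * ((1 + 3 ^ p) * ∑ l ∈ S.erase i, ‖D (ev l)‖ ^ p) := by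
  have hr : 0 ≤ ρ / |x i - c i| := by positivity
  have h1 : (∑ j ∈ S.erase i, ‖D ((ρ / |x i - c i|) • ev j)‖ ^ p) =
      (ρ / |x i - c i|) ^ p * ∑ l ∈ S.erase i, ‖D (ev l)‖ ^ p := by
    rw [Finset.mul_sum]
    refine Finset.sum_congr rfl fun j _ => ?_
    rw [map_smul, norm_smul, Real.norm_of_nonneg hr, Real.mul_rpow hr (norm_nonneg _)]
  have h2 : ‖D (wv S c ρ i x)‖ ≤ (ρ / |x i - c i|) * ∑ l ∈ S.erase i, ‖D (ev l)‖ := by
    rw [wv_eq, map_sum, Finset.mul_sum]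
    refine (norm_sum_le _ _).trans (Finset.sum_le_sum fun l hl => ?_)
    obtain ⟨hli, hlS⟩ := Finset.mem_erase.1 hl
    rw [map_smul, norm_smul]
    refine mul_le_mul_of_nonneg_right ?_ (norm_nonneg _)
    rw [norm_mul, norm_neg, Real.norm_of_nonneg hr, Real.norm_eq_abs, abs_div]
    refine mul_le_of_le_one_right hr ?_
    have := hx l hlS hli
    rw [div_le_one (lt_of_le_of_lt (abs_nonneg _) this)]
    exact this.le
  have h3 : ‖D (wv S c ρ i x)‖ ^ p ≤
      (ρ / |x i - c i|) ^ p * (3 ^ p * ∑ l ∈ S.erase i, ‖D (ev l)‖ ^ p) := by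
    calc ‖D (wv S c ρ i x)‖ ^ p ≤ ((ρ / |x i - c i|) * ∑ l ∈ S.erase i, ‖D (ev l)‖) ^ p :=
          Real.rpow_le_rpow (norm_nonneg _) h2 (by linarith)
      _ = (ρ / |x i - c i|) ^ p * (∑ l ∈ S.erase i, ‖D (ev l)‖) ^ p :=
          Real.mul_rpow hr (Finset.sum_nonneg fun _ _ => norm_nonneg _)
      _ ≤ _ := by
          gcongr
          exact sum_rpow_le (fun _ => norm_nonneg _) hp
  calc _ ≤ (ρ / |x i - c i|) ^ p * ∑ l ∈ S.erase i, ‖D (ev l)‖ ^ p +
        (ρ / |x i - c i|) ^ p * (3 ^ p * ∑ l ∈ S.erase i, ‖D (ev l)‖ ^ p) := by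
        rw [h1]; gcongr
    _ = _ := by ring

/-- the closed face -/
def face (S : Finset (Fin 3)) (c : V) (ρ : ℝ) : Set V :=
  {x | (∀ l, l ∉ S → x l = c l) ∧ ∀ l ∈ S, |x l - c l| ≤ ρ}

theorem pr_mem_face {S : Finset (Fin 3)} {c x : V} {ρ : ℝ} (hx : x ∈ cube c ρ) :
    pr S c x ∈ face S c ρ :=
  ⟨fun _ hl => pr_apply_of_notMem hl, fun l hl => by rw [pr_apply_of_mem hl]; exact hx l⟩

theorem isCompact_face (S : Finset (Fin 3)) (c : V) {ρ : ℝ} (hρ : 0 ≤ ρ) :
    IsCompact (face S c ρ) := by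
  refine (isCompact_cube c hρ).of_isClosed_subset ?_ ?_
  · have : face S c ρ = (⋂ l, ⋂ (_ : l ∉ S), {x : V | x l = c l}) ∩
        ⋂ l, ⋂ (_ : l ∈ S), {x : V | |x l - c l| ≤ ρ} := by
      ext x; simp [face]
    rw [this]
    refine IsClosed.inter ?_ ?_
    · exact isClosed_iInter fun l => isClosed_iInter fun _ =>
        isClosed_eq (continuous_apply l) continuous_const
    · exact isClosed_iInter fun l => isClosed_iInter fun _ =>
        isClosed_le ((continuous_apply l).sub continuous_const).abs continuous_const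
  · intro x hx l
    by_cases hl : l ∈ S
    · exact hx.2 l hl
    · rw [hx.1 l hl, sub_self, abs_zero]; exact hρ

section energy

variable {C : ℝ} {S : Finset (Fin 3)} {c : V} {ρ : ℝ} {s : ℕ → V → V} {G : V → V} {W : Set V}

theorem RadSeq.mem_face (h : RadSeq C S c ρ s) (n : ℕ) {y : V} (hy : y ∈ face S c ρ) :
    s n y ∈ face S c ρ :=
  ⟨fun l hl => by rw [h.fix n y l hl, hy.1 l hl], h.box n y hy.2⟩

theorem RadSeq.fderiv_comp (h : RadSeq C S c ρ s) (hW : IsOpen W) (hG : ContDiffOn ℝ 1 G W)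
    (hsub : face S c ρ ⊆ W) (n : ℕ) {y : V} (hy : y ∈ face S c ρ) (v : V) :
    fderiv ℝ (G ∘ s n) y v = fderiv ℝ G (s n y) (fderiv ℝ (s n) y v) := by
  have h1 : DifferentiableAt ℝ G (s n y) :=
    (hG.contDiffAt (hW.mem_nhds (hsub (h.mem_face n hy)))).differentiableAt (by simp)
  have h2 : DifferentiableAt ℝ (s n) y := (h.cd n).contDiffAt.differentiableAt (by simp)
  rw [_root_.fderiv_comp y h1 h2]
  rfl

theorem continuousAt_fderiv (hW : IsOpen W) (hG : ContDiffOn ℝ 1 G W) {y : V} (hy : y ∈ W) :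
    ContinuousAt (fderiv ℝ G) y :=
  (hG.continuousOn_fderiv_of_isOpen hW le_rfl).continuousAt (hW.mem_nhds hy)

theorem exists_bound (hW : IsOpen W) (hG : ContDiffOn ℝ 1 G W) (hsub : face S c ρ ⊆ W)
    (hρ : 0 ≤ ρ) : ∃ B, 0 ≤ B ∧ ∀ y ∈ face S c ρ, ‖fderiv ℝ G y‖ ≤ B := by
  obtain ⟨B, hB⟩ := (isCompact_face S c hρ).exists_bound_of_continuousOn
    ((hG.continuousOn_fderiv_of_isOpen hW le_rfl).mono hsub)
  exact ⟨max B 0, le_max_right _ _, fun y hy => (hB y hy).trans (le_max_left _ _)⟩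

end energy

end Vale.Agent.P073.SQ
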