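import Vale.Agent.P073.SQ.Core

/-!
# SQ: the energy estimate for the radial diffeomorphisms
-/

namespace Vale.Agent.P073.SQ

open MeasureTheory Set Filter Topology Vale.Agent.P073.St
open scoped ContDiff ENNReal

section energy

variable {C : ℝ} {S : Finset (Fin 3)} {c : V} {ρ : ℝ} {s : ℕ → V → V} {G : V → V} {W : Set V}
  {p : ℝ}

/-- the limit of the energy density -/
theorem tendsto_dE (h : RadSeq C S c ρ s) (hρ : 0 < ρ) (hp : 1 ≤ p) (hW : IsOpen W)
    (hG : ContDiffOn ℝ 1 G W) (hsub : face S c ρ ⊆ W) {x : V} (hxc : x ∈ cube c ρ) {i : Fin 3}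
    (hi : i ∈ S) (hx : ∀ j ∈ S, j ≠ i → |x j - c j| < |x i - c i|) (h0 : 0 < |x i - c i|)
    (h1 : |x i - c i| < ρ) :
    Tendsto (fun n => ∑ j ∈ S, dE p (G ∘ s n) j (pr S c x)) atTop
      (𝓝 (ENNReal.ofReal ((∑ j ∈ S.erase i,
        ‖fderiv ℝ G (pr S c (rad S c ρ i x)) ((ρ / |x i - c i|) • ev j)‖ ^ p) +
        ‖fderiv ℝ G (pr S c (rad S c ρ i x)) (wv S c ρ i x)‖ ^ p))) := by
  have hp0 : 0 < p := by linarith
  have hy : pr S c x ∈ face S c ρ := pr_mem_face hxc
  have hyi : ∀ j ∈ S, pr S c x j = x j := fun j hj => pr_apply_of_mem hj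
  obtain ⟨l1, l2, l3⟩ := h.lim (pr S c x) i hi hy.1
    (fun j hj hji => by rw [hyi j hj, hyi i hi]; exact hx j hj hji)
    (by rw [hyi i hi]; exact h0) (by rw [hyi i hi]; exact h1)
  rw [rad_pr hi] at l1
  rw [hyi i hi] at l2 l3
  have hw : (fun l => if l ∈ S ∧ l ≠ i then
      -(ρ / |x i - c i|) * ((pr S c x l - c l) / (x i - c i)) else 0) = wv S c ρ i x := by
    funext l
    by_cases hl : l ∈ S ∧ l ≠ i
    · simp [wv, hl, hyi l hl.1]
    · simp only [wv, hl, if_false]
  rw [hw] at l3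
  have hR : pr S c (rad S c ρ i x) ∈ face S c ρ := by
    refine ⟨fun _ hl => pr_apply_of_notMem hl, fun l hl => ?_⟩
    rw [pr_apply_of_mem hl]
    simp only [rad, hl, if_true, add_sub_cancel_left]
    rw [abs_div, abs_mul, abs_abs, abs_of_pos hρ]
    rw [div_le_iff₀ h0]
    refine mul_le_mul_of_nonneg_left ?_ hρ.le
    by_cases hli : l = i
    · rw [hli]
    · exact (hx l hl hli).le
  have hD : Tendsto (fun n => fderiv ℝ G (s n (pr S c x))) atTop
      (𝓝 (fderiv ℝ G (pr S c (rad S c ρ i x)))) :=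
    (continuousAt_fderiv hW hG (hsub hR)).tendsto.comp l1
  have key : ∀ j ∈ S, ∀ w : V, Tendsto (fun n => fderiv ℝ (s n) (pr S c x) (ev j)) atTop (𝓝 w) →
      Tendsto (fun n => dE p (G ∘ s n) j (pr S c x)) atTop
        (𝓝 (ENNReal.ofReal (‖fderiv ℝ G (pr S c (rad S c ρ i x)) w‖ ^ p))) := by
    intro j _ w hw
    have e : ∀ n, dE p (G ∘ s n) j (pr S c x) = ENNReal.ofReal
        (‖fderiv ℝ G (s n (pr S c x)) (fderiv ℝ (s n) (pr S c x) (ev j))‖ ^ p) := by
      intro n
      rw [dE, h.fderiv_comp hW hG hsub n hy]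
    simp only [e]
    refine ENNReal.tendsto_ofReal ?_
    have hDw : Tendsto (fun n => fderiv ℝ G (s n (pr S c x)) (fderiv ℝ (s n) (pr S c x) (ev j)))
        atTop (𝓝 (fderiv ℝ G (pr S c (rad S c ρ i x)) w)) :=
      ((isBoundedBilinearMap_apply (𝕜 := ℝ) (E := V) (F := V)).continuous.tendsto
        (fderiv ℝ G (pr S c (rad S c ρ i x)), w)).comp (hD.prodMk_nhds hw)
    exact hDw.norm.rpow_const (Or.inr hp0.le)
  have hsum : ∀ n, ∑ j ∈ S, dE p (G ∘ s n) j (pr S c x) =
      (∑ j ∈ S.erase i, dE p (G ∘ s n) j (pr S c x)) + dE p (G ∘ s n) i (pr S c x) := fun n =>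
    (Finset.sum_erase_add S _ hi).symm
  simp only [hsum]
  rw [ENNReal.ofReal_add (Finset.sum_nonneg fun _ _ => by positivity) (by positivity),
    ENNReal.ofReal_sum_of_nonneg fun _ _ => by positivity]
  refine Tendsto.add (tendsto_finsetSum _ fun j hj => ?_) (key i hi _ l3)
  obtain ⟨hji, hjS⟩ := Finset.mem_erase.1 hj
  exact key j hjS _ (l2 j hjS hji)

/-- the density of the tangential energy -/
noncomputable def dens (p : ℝ) (G : V → V) (S : Finset (Fin 3)) (c : V) (i : Fin 3) (y : V) :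
    ℝ≥0∞ := ∑ l ∈ S.erase i, dE p G l (pr S c y)

theorem measurable_dens {i : Fin 3} : Measurable (dens p G S c i) := by
  unfold dens
  exact Finset.measurable_sum _ fun l _ => (measurable_dE G l).comp (continuous_pr S c).measurable

theorem limit_le {i : Fin 3} {x : V} (hρ : 0 < ρ) (hp : 1 ≤ p)
    (hx : ∀ j ∈ S, j ≠ i → |x j - c j| < |x i - c i|) :
    ENNReal.ofReal ((∑ j ∈ S.erase i,
        ‖fderiv ℝ G (pr S c (rad S c ρ i x)) ((ρ / |x i - c i|) • ev j)‖ ^ p) +
        ‖fderiv ℝ G (pr S c (rad S c ρ i x)) (wv S c ρ i x)‖ ^ p) ≤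
      ENNReal.ofReal (1 + 3 ^ p) *
        (ENNReal.ofReal ((ρ / |x i - c i|) ^ p) * dens p G S c i (rad S c ρ i x)) := by
  refine (ENNReal.ofReal_le_ofReal (limit_bound hρ hx hp
    (fderiv ℝ G (pr S c (rad S c ρ i x))))).trans_eq ?_
  rw [ENNReal.ofReal_mul (by positivity), ENNReal.ofReal_mul (by positivity),
    ENNReal.ofReal_sum_of_nonneg fun _ _ => by positivity]
  simp only [dens, dE]
  ring

/-- the dominating function -/
noncomputable def dom (S : Finset (Fin 3)) (c : V) (ρ p : ℝ) (x : V) : ℝ≥0∞ :=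
  ∑ i ∈ S, (sector S c i).indicator (fun x => ENNReal.ofReal ((ρ / |x i - c i|) ^ p)) x

theorem measurable_dom : Measurable (dom S c ρ p) := by
  unfold dom
  refine Finset.measurable_sum _ fun i _ => ?_
  refine Measurable.indicator ?_ (isClosed_sector S c i).measurableSet
  have h : Measurable fun x : V => |x i - c i| :=
    (((continuous_apply i).sub continuous_const).abs).measurable
  exact ((measurable_const.div h).pow_const p).ennreal_ofReal

theorem dE_le (h : RadSeq C S c ρ s) (hρ : 0 < ρ) (hC : 0 < C) (hp : 1 ≤ p) (hW : IsOpen W)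
    (hG : ContDiffOn ℝ 1 G W) (hsub : face S c ρ ⊆ W) {B : ℝ} (hB : 0 ≤ B)
    (hBd : ∀ y ∈ face S c ρ, ‖fderiv ℝ G y‖ ≤ B) {x : V} (hxc : x ∈ cube c ρ)
    (hgen : (∀ i, |x i - c i| ≠ 0 ∧ |x i - c i| ≠ ρ) ∧ ∀ i j, i ≠ j → |x i - c i| ≠ |x j - c j|)
    (hS : S.Nonempty) (n : ℕ) :
    ∑ j ∈ S, dE p (G ∘ s n) j (pr S c x) ≤ 3 * ENNReal.ofReal ((B * C) ^ p) * dom S c ρ p x := by
  obtain ⟨i, hi, hx⟩ := exists_sector hS hgen.2
  have hxi : 0 < |x i - c i| := lt_of_le_of_ne (abs_nonneg _) (Ne.symm (hgen.1 i).1)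
  have hy : pr S c x ∈ face S c ρ := pr_mem_face hxc
  have hyi : ∀ j ∈ S, pr S c x j = x j := fun j hj => pr_apply_of_mem hj
  have h1 : ∀ j ∈ S, dE p (G ∘ s n) j (pr S c x) ≤
      ENNReal.ofReal ((B * C) ^ p) * ENNReal.ofReal ((ρ / |x i - c i|) ^ p) := by
    intro j hj
    rw [dE, h.fderiv_comp hW hG hsub n hy, ← ENNReal.ofReal_mul (by positivity),
      ← Real.mul_rpow (by positivity) (by positivity)]
    refine ENNReal.ofReal_le_ofReal (Real.rpow_le_rpow (norm_nonneg _) ?_ (by linarith))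
    have h2 := h.bound n (pr S c x) hy.1 hy.2 j hj i hi
    rw [hyi i hi] at h2
    have h3 : ‖fderiv ℝ (s n) (pr S c x) (ev j)‖ ≤ C * ρ / |x i - c i| := by
      rwa [le_div_iff₀ hxi]
    calc _ ≤ ‖fderiv ℝ G (s n (pr S c x))‖ * ‖fderiv ℝ (s n) (pr S c x) (ev j)‖ :=
          ContinuousLinearMap.le_opNorm _ _
      _ ≤ B * (C * ρ / |x i - c i|) :=
          mul_le_mul (hBd _ (h.mem_face n hy)) h3 (norm_nonneg _) hB
      _ = _ := by ring
  have h2 : ENNReal.ofReal ((ρ / |x i - c i|) ^ p) ≤ dom S c ρ p x := by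
    have h3 : x ∈ sector S c i := fun j hj => by
      by_cases hji : j = i
      · rw [hji]
      · exact (hx j hj hji).le
    have h4 : (sector S c i).indicator (fun x => ENNReal.ofReal ((ρ / |x i - c i|) ^ p)) x =
        ENNReal.ofReal ((ρ / |x i - c i|) ^ p) := indicator_of_mem h3 _
    rw [← h4]
    exact Finset.single_le_sum
      (f := fun i => (sector S c i).indicator (fun x => ENNReal.ofReal ((ρ / |x i - c i|) ^ p)) x)
      (fun _ _ => zero_le) hi
  calc ∑ j ∈ S, dE p (G ∘ s n) j (pr S c x)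
      ≤ ∑ _j ∈ S, ENNReal.ofReal ((B * C) ^ p) * ENNReal.ofReal ((ρ / |x i - c i|) ^ p) :=
        Finset.sum_le_sum h1
    _ = S.card * (ENNReal.ofReal ((B * C) ^ p) * ENNReal.ofReal ((ρ / |x i - c i|) ^ p)) := by
        rw [Finset.sum_const, nsmul_eq_mul]
    _ ≤ 3 * (ENNReal.ofReal ((B * C) ^ p) * dom S c ρ p x) := by
        gcongr
        exact_mod_cast (Finset.card_le_univ S).trans (by simp)
    _ = _ := by ring

/-- the polar inequality for the exponent `p`, on `S` -/
def PolarIneq (p : ℝ) (Cp : ℝ≥0∞) (S : Finset (Fin 3)) (c : V) (ρ : ℝ) : Prop :=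
  ∀ i ∈ S, ∀ H : V → ℝ≥0∞, Measurable H →
    ∫⁻ x in cube c ρ ∩ sector S c i, ENNReal.ofReal ((ρ / |x i - c i|) ^ p) * H (rad S c ρ i x) ≤
      Cp * ((∫⁻ x in cube c ρ, H (Function.update x i (c i + ρ))) +
        (∫⁻ x in cube c ρ, H (Function.update x i (c i - ρ))))

theorem lintegral_dom_ne_top {Cp : ℝ≥0∞} (hCp : Cp ≠ ⊤) (hpol : PolarIneq p Cp S c ρ)
    (hρ : 0 ≤ ρ) : ∫⁻ x in cube c ρ, dom S c ρ p x ≠ ⊤ := by
  have hvol : volume (cube c ρ) ≠ ⊤ := (isCompact_cube c hρ).measure_lt_top.ne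
  unfold dom
  rw [lintegral_finsetSum' _ fun i _ => ?_]
  · refine ENNReal.sum_ne_top.2 fun i hi => ?_
    rw [lintegral_indicator (isClosed_sector S c i).measurableSet,
      Measure.restrict_restrict (isClosed_sector S c i).measurableSet, inter_comm]
    have h1 := hpol i hi (fun _ => 1) measurable_const
    simp only [mul_one, lintegral_const, one_mul, Measure.restrict_apply_univ] at h1
    exact ne_top_of_le_ne_top (ENNReal.mul_ne_top hCp (ENNReal.add_ne_top.2 ⟨hvol, hvol⟩)) h1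
  · refine (Measurable.indicator ?_ (isClosed_sector S c i).measurableSet).aemeasurable
    have h : Measurable fun x : V => |x i - c i| :=
      (((continuous_apply i).sub continuous_const).abs).measurable
    exact ((measurable_const.div h).pow_const p).ennreal_ofReal

theorem measurable_rad (S : Finset (Fin 3)) (c : V) (ρ : ℝ) (i : Fin 3) :
    Measurable (rad S c ρ i) := by
  have h : Measurable fun x : V => |x i - c i| :=
    (((continuous_apply i).sub continuous_const).abs).measurable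
  refine measurable_pi_iff.2 fun l => ?_
  by_cases hl : l ∈ S
  · simp only [rad, hl, if_true]
    exact measurable_const.add ((measurable_const.mul
      ((measurable_pi_apply l).sub measurable_const)).div h)
  · simp only [rad, hl, if_false]
    exact measurable_pi_apply l

theorem measurable_weight (c : V) (ρ p : ℝ) (i : Fin 3) :
    Measurable fun x : V => ENNReal.ofReal ((ρ / |x i - c i|) ^ p) := by
  have h : Measurable fun x : V => |x i - c i| :=
    (((continuous_apply i).sub continuous_const).abs).measurable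
  exact ((measurable_const.div h).pow_const p).ennreal_ofReal

theorem lintegral_sectors_le {Cp : ℝ≥0∞} (hpol : PolarIneq p Cp S c ρ)
    {H : Fin 3 → V → ℝ≥0∞} (hH : ∀ i, Measurable (H i)) {Fl : V → ℝ≥0∞} {κ : ℝ≥0∞}
    (hS : S.Nonempty) (hκ : κ ≠ ⊤)
    (hFl : ∀ᵐ x ∂(volume.restrict (cube c ρ)), ∀ i ∈ S, (∀ j ∈ S, j ≠ i → |x j - c j| < |x i - c i|) →
      Fl x ≤ κ * (ENNReal.ofReal ((ρ / |x i - c i|) ^ p) * H i (rad S c ρ i x))) :
    ∫⁻ x in cube c ρ, Fl x ≤ κ * Cp * ∑ i ∈ S, ((∫⁻ x in cube c ρ, H i (Function.update x i (c i + ρ))) +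
        (∫⁻ x in cube c ρ, H i (Function.update x i (c i - ρ)))) := by
  have hgen : ∀ᵐ x ∂(volume.restrict (cube c ρ)), ∀ i j, i ≠ j → |x i - c i| ≠ |x j - c j| :=
    ae_restrict_of_ae ((ae_generic c ρ).mono fun x hx => hx.2)
  calc ∫⁻ x in cube c ρ, Fl x
      ≤ ∫⁻ x in cube c ρ, ∑ i ∈ S, (sector S c i).indicator (fun x =>
        κ * (ENNReal.ofReal ((ρ / |x i - c i|) ^ p) * H i (rad S c ρ i x))) x := by
        refine lintegral_mono_ae ?_
        filter_upwards [hFl, hgen] with x hx hg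
        obtain ⟨i, hi, hdom⟩ := exists_sector hS hg
        have h3 : x ∈ sector S c i := fun j hj => by
          by_cases hji : j = i
          · rw [hji]
          · exact (hdom j hj hji).le
        refine (hx i hi hdom).trans ?_
        refine le_trans (le_of_eq ?_) (Finset.single_le_sum
          (f := fun i => (sector S c i).indicator (fun x =>
            κ * (ENNReal.ofReal ((ρ / |x i - c i|) ^ p) * H i (rad S c ρ i x))) x)
          (fun _ _ => zero_le) hi)
        exact (indicator_of_mem h3 (fun x =>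
            κ * (ENNReal.ofReal ((ρ / |x i - c i|) ^ p) * H i (rad S c ρ i x)))).symm
    _ ≤ ∑ i ∈ S, ∫⁻ x in cube c ρ, (sector S c i).indicator (fun x =>
        κ * (ENNReal.ofReal ((ρ / |x i - c i|) ^ p) * H i (rad S c ρ i x))) x := by
        refine (lintegral_finsetSum' _ fun i _ => ?_).le
        exact (Measurable.indicator (((measurable_weight c ρ p i).mul
          ((hH i).comp (measurable_rad S c ρ i))).const_mul κ)
          (isClosed_sector S c i).measurableSet).aemeasurable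
    _ ≤ ∑ i ∈ S, κ * (Cp * ((∫⁻ x in cube c ρ, H i (Function.update x i (c i + ρ))) +
        (∫⁻ x in cube c ρ, H i (Function.update x i (c i - ρ))))) := by
        refine Finset.sum_le_sum fun i hi => ?_
        rw [lintegral_indicator (isClosed_sector S c i).measurableSet,
          Measure.restrict_restrict (isClosed_sector S c i).measurableSet, inter_comm,
          lintegral_const_mul' _ _ hκ]
        gcongr
        exact hpol i hi (H i) (hH i)
    _ = _ := by
        rw [Finset.mul_sum]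
        refine Finset.sum_congr rfl fun i _ => ?_
        ring

/-- **The energy estimate.** -/
theorem energy_le (h : RadSeq C S c ρ s) (hρ : 0 < ρ) (hC : 0 < C) (hp : 1 ≤ p) (hW : IsOpen W)
    (hG : ContDiffOn ℝ 1 G W) (hsub : face S c ρ ⊆ W) (hS : S.Nonempty) {Cp : ℝ≥0∞}
    (hCp : Cp ≠ ⊤) (hpol : PolarIneq p Cp S c ρ) {ε : ℝ≥0∞} (hε : ε ≠ 0) :
    ∀ᶠ n in atTop, ∫⁻ x in cube c ρ, ∑ j ∈ S, dE p (G ∘ s n) j (pr S c x) ≤
      ENNReal.ofReal (1 + 3 ^ p) * Cp * ∑ i ∈ S,
        ((∫⁻ x in cube c ρ, dens p G S c i (Function.update x i (c i + ρ))) +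
        (∫⁻ x in cube c ρ, dens p G S c i (Function.update x i (c i - ρ)))) + ε := by
  obtain ⟨B, hB, hBd⟩ := exists_bound hW hG hsub hρ.le
  have hgen : ∀ᵐ x ∂(volume.restrict (cube c ρ)), (∀ i, |x i - c i| ≠ 0 ∧ |x i - c i| ≠ ρ) ∧
      ∀ i j, i ≠ j → |x i - c i| ≠ |x j - c j| := ae_restrict_of_ae (ae_generic c ρ)
  have hmem : ∀ᵐ x ∂(volume.restrict (cube c ρ)), x ∈ cube c ρ :=
    ae_restrict_mem (isClosed_cube c ρ).measurableSet
  set A := ENNReal.ofReal (1 + 3 ^ p) * Cp * ∑ i ∈ S,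
        ((∫⁻ x in cube c ρ, dens p G S c i (Function.update x i (c i + ρ))) +
        (∫⁻ x in cube c ρ, dens p G S c i (Function.update x i (c i - ρ)))) with hA
  by_cases hAtop : A = ⊤
  · exact Eventually.of_forall fun n => by rw [hAtop, top_add]; exact le_top
  have hlim : limsup (fun n => ∫⁻ x in cube c ρ, ∑ j ∈ S, dE p (G ∘ s n) j (pr S c x)) atTop ≤
      ∫⁻ x in cube c ρ, limsup (fun n => ∑ j ∈ S, dE p (G ∘ s n) j (pr S c x)) atTop := by
    refine limsup_lintegral_le (fun x => 3 * ENNReal.ofReal ((B * C) ^ p) * dom S c ρ p x)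
      (fun n => ?_) (fun n => ?_) ?_
    · exact Finset.measurable_sum _ fun j _ =>
        (measurable_dE (G ∘ s n) j).comp (continuous_pr S c).measurable
    · filter_upwards [hgen, hmem] with x hx hxc
      exact dE_le h hρ hC hp hW hG hsub hB hBd hxc hx hS n
    · rw [lintegral_const_mul _ measurable_dom]
      exact ENNReal.mul_ne_top (ENNReal.mul_ne_top (by simp) ENNReal.ofReal_ne_top)
        (lintegral_dom_ne_top hCp hpol hρ.le)
  have hle : ∫⁻ x in cube c ρ, limsup (fun n => ∑ j ∈ S, dE p (G ∘ s n) j (pr S c x)) atTop ≤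
      A := by
    refine lintegral_sectors_le hpol (H := fun i => dens p G S c i) (fun i => measurable_dens) hS
      ENNReal.ofReal_ne_top ?_
    filter_upwards [hgen, hmem] with x hx hxc i hi hdom
    have hxi : 0 < |x i - c i| := lt_of_le_of_ne (abs_nonneg _) (Ne.symm (hx.1 i).1)
    have hxi' : |x i - c i| < ρ := lt_of_le_of_ne (hxc i) (hx.1 i).2
    rw [(tendsto_dE h hρ hp hW hG hsub hxc hi hdom hxi hxi').limsup_eq]
    exact limit_le hρ hp hdom
  have hlt : limsup (fun n => ∫⁻ x in cube c ρ, ∑ j ∈ S, dE p (G ∘ s n) j (pr S c x)) atTop <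
      A + ε := (hlim.trans hle).trans_lt (ENNReal.lt_add_right hAtop hε)
  exact (eventually_lt_of_limsup_lt hlt).mono fun n hn => hn.le

/-- **The zero order estimate.** -/
theorem zero_le' (h : RadSeq C S c ρ s) (hρ : 0 < ρ) (hp : 1 ≤ p) {Z : V → ℝ≥0∞}
    (hZ : Continuous Z) (hZ1 : ∀ x, Z x ≤ 1) (hS : S.Nonempty) {Cp : ℝ≥0∞}
    (hpol : PolarIneq p Cp S c ρ) {ε : ℝ≥0∞} (hε : ε ≠ 0) :
    ∀ᶠ n in atTop, ∫⁻ x in cube c ρ, Z (s n (pr S c x)) ≤
      Cp * ∑ i ∈ S,
        ((∫⁻ x in cube c ρ, Z (pr S c (Function.update x i (c i + ρ)))) +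
        (∫⁻ x in cube c ρ, Z (pr S c (Function.update x i (c i - ρ))))) + ε := by
  have hgen : ∀ᵐ x ∂(volume.restrict (cube c ρ)), (∀ i, |x i - c i| ≠ 0 ∧ |x i - c i| ≠ ρ) ∧
      ∀ i j, i ≠ j → |x i - c i| ≠ |x j - c j| := ae_restrict_of_ae (ae_generic c ρ)
  have hmem : ∀ᵐ x ∂(volume.restrict (cube c ρ)), x ∈ cube c ρ :=
    ae_restrict_mem (isClosed_cube c ρ).measurableSet
  set A := Cp * ∑ i ∈ S,
        ((∫⁻ x in cube c ρ, Z (pr S c (Function.update x i (c i + ρ)))) +
        (∫⁻ x in cube c ρ, Z (pr S c (Function.update x i (c i - ρ))))) with hA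
  by_cases hAtop : A = ⊤
  · exact Eventually.of_forall fun n => by rw [hAtop, top_add]; exact le_top
  have hlim : limsup (fun n => ∫⁻ x in cube c ρ, Z (s n (pr S c x))) atTop ≤
      ∫⁻ x in cube c ρ, limsup (fun n => Z (s n (pr S c x))) atTop := by
    refine limsup_lintegral_le (fun _ => 1) (fun n => ?_) (fun n => ?_) ?_
    · exact hZ.measurable.comp ((h.cd n).continuous.measurable.comp (continuous_pr S c).measurable)
    · exact Eventually.of_forall fun x => hZ1 _
    · rw [lintegral_one, Measure.restrict_apply_univ]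
      exact (isCompact_cube c hρ.le).measure_lt_top.ne
  have hle : ∫⁻ x in cube c ρ, limsup (fun n => Z (s n (pr S c x))) atTop ≤ A := by
    have h1 := lintegral_sectors_le hpol (H := fun _ x => Z (pr S c x))
      (Fl := fun x => limsup (fun n => Z (s n (pr S c x))) atTop) (κ := 1)
      (fun i => hZ.measurable.comp (continuous_pr S c).measurable) hS ENNReal.one_ne_top ?_
    · rwa [one_mul] at h1
    filter_upwards [hgen, hmem] with x hx hxc i hi hdom
    have hxi : 0 < |x i - c i| := lt_of_le_of_ne (abs_nonneg _) (Ne.symm (hx.1 i).1)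
    have hxi' : |x i - c i| < ρ := lt_of_le_of_ne (hxc i) (hx.1 i).2
    have hy : pr S c x ∈ face S c ρ := pr_mem_face hxc
    have hyi : ∀ j ∈ S, pr S c x j = x j := fun j hj => pr_apply_of_mem hj
    obtain ⟨l1, -, -⟩ := h.lim (pr S c x) i hi hy.1
      (fun j hj hji => by rw [hyi j hj, hyi i hi]; exact hdom j hj hji)
      (by rw [hyi i hi]; exact hxi) (by rw [hyi i hi]; exact hxi')
    rw [rad_pr hi] at l1
    have l2 : Tendsto (fun n => Z (s n (pr S c x))) atTop (𝓝 (Z (pr S c (rad S c ρ i x)))) :=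
      (hZ.tendsto _).comp l1
    rw [l2.limsup_eq, one_mul]
    have h2 : (1 : ℝ≥0∞) ≤ ENNReal.ofReal ((ρ / |x i - c i|) ^ p) := by
      rw [← ENNReal.ofReal_one]
      refine ENNReal.ofReal_le_ofReal (Real.one_le_rpow ?_ (by linarith))
      rw [one_le_div hxi]; exact hxi'.le
    calc Z (pr S c (rad S c ρ i x)) = 1 * Z (pr S c (rad S c ρ i x)) := (one_mul _).symm
      _ ≤ _ := by gcongr
  have hlt : limsup (fun n => ∫⁻ x in cube c ρ, Z (s n (pr S c x))) atTop <
      A + ε := (hlim.trans hle).trans_lt (ENNReal.lt_add_right hAtop hε)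
  exact (eventually_lt_of_limsup_lt hlt).mono fun n hn => hn.le

end energy

end Vale.Agent.P073.SQ
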