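import Vale.Agent.P073.SQ.Edge

/-!
# P073, block SQ (helper489): integration in a sector
-/

namespace Vale.Agent.P073.SQ

open MeasureTheory Set Filter Topology Vale.Agent.P073.St
open scoped ContDiff ENNReal

namespace Polar

open Edge

/-! ### the one-dimensional integral -/

theorem int_half {ρ p : ℝ} (hρ : 0 < ρ) (hp : p < 2) :
    ∫⁻ u in Ioc 0 ρ, ENNReal.ofReal ((ρ / u) ^ (p - 1)) = ENNReal.ofReal (ρ / (2 - p)) := by
  have h0 : ∀ u ∈ Ioc (0:ℝ) ρ, (ρ / u) ^ (p - 1) = ρ ^ (p - 1) * u ^ (1 - p) := by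
    intro u hu
    rw [Real.div_rpow hρ.le hu.1.le, div_eq_mul_inv, ← Real.rpow_neg hu.1.le, neg_sub]
  have hint : IntervalIntegrable (fun u : ℝ => ρ ^ (p - 1) * u ^ (1 - p)) volume 0 ρ :=
    (intervalIntegral.intervalIntegrable_rpow' (by linarith)).const_mul _
  have hI : IntegrableOn (fun u : ℝ => ρ ^ (p - 1) * u ^ (1 - p)) (Ioc 0 ρ) :=
    (intervalIntegrable_iff_integrableOn_Ioc_of_le hρ.le).1 hint
  rw [setLIntegral_congr_fun measurableSet_Ioc (fun u hu => by simp only [h0 u hu] :
    EqOn (fun u => ENNReal.ofReal ((ρ / u) ^ (p - 1)))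
      (fun u => ENNReal.ofReal (ρ ^ (p - 1) * u ^ (1 - p))) (Ioc 0 ρ)),
    ← ofReal_integral_eq_lintegral_ofReal hI]
  · rw [← intervalIntegral.integral_of_le hρ.le, intervalIntegral.integral_const_mul,
      integral_rpow (Or.inl (by linarith))]
    congr 1
    have h1 : (0:ℝ) ^ (1 - p + 1) = 0 := Real.zero_rpow (by linarith)
    have h2 : ρ ^ (p - 1) * ρ ^ (1 - p + 1) = ρ := by
      rw [← Real.rpow_add hρ, show p - 1 + (1 - p + 1) = 1 by ring, Real.rpow_one]
    rw [h1, sub_zero, ← mul_div_assoc, h2, show 1 - p + 1 = 2 - p by ring]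
  · rw [EventuallyLE, ae_restrict_iff' measurableSet_Ioc]
    refine Eventually.of_forall fun u hu => ?_
    have h1 := hu.1
    simp only [Pi.zero_apply]
    positivity

theorem int_full (c : ℝ) {ρ p : ℝ} (hρ : 0 < ρ) (hp : p < 2) :
    ∫⁻ u in Icc (c - ρ) (c + ρ), ENNReal.ofReal ((ρ / |u - c|) ^ (p - 1)) ≤
      2 * ENNReal.ofReal (ρ / (2 - p)) := by
  set g : ℝ → ℝ≥0∞ := fun u => ENNReal.ofReal ((ρ / |u - c|) ^ (p - 1)) with hg
  have hp1 : ∫⁻ u in Icc c (c + ρ), g u = ENNReal.ofReal (ρ / (2 - p)) := by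
    rw [← int_half hρ hp, ← restrict_Ioc_eq_restrict_Icc]
    have h1 := (measurePreserving_add_right (volume : Measure ℝ) c).setLIntegral_comp_preimage_emb
      (measurableEmbedding_addRight c) g (Ioc c (c + ρ))
    rw [← h1]
    have h2 : (fun x : ℝ => x + c) ⁻¹' Ioc c (c + ρ) = Ioc 0 ρ := by
      ext x
      simp only [mem_preimage, mem_Ioc]
      constructor
      · rintro ⟨h1, h2⟩; exact ⟨by linarith, by linarith⟩
      · rintro ⟨h1, h2⟩; exact ⟨by linarith, by linarith⟩
    rw [h2]
    refine setLIntegral_congr_fun measurableSet_Ioc fun u hu => ?_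
    simp only [hg, add_sub_cancel_right, abs_of_pos hu.1]
  have hp2 : ∫⁻ u in Icc (c - ρ) c, g u = ENNReal.ofReal (ρ / (2 - p)) := by
    rw [← hp1]
    have h1 := (Measure.measurePreserving_sub_left (volume : Measure ℝ) (2 * c)
      ).setLIntegral_comp_preimage_emb (measurableEmbedding_subLeft (2 * c)) g (Icc c (c + ρ))
    rw [← h1]
    have h2 : (fun x : ℝ => 2 * c - x) ⁻¹' Icc c (c + ρ) = Icc (c - ρ) c := by
      ext x
      simp only [mem_preimage, mem_Icc]
      constructor
      · rintro ⟨h1, h2⟩; exact ⟨by linarith, by linarith⟩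
      · rintro ⟨h1, h2⟩; exact ⟨by linarith, by linarith⟩
    rw [h2]
    refine lintegral_congr fun u => ?_
    simp only [hg]
    rw [show 2 * c - u - c = -(u - c) by ring, abs_neg]
  have h3 : Icc (c - ρ) (c + ρ) = Icc (c - ρ) c ∪ Icc c (c + ρ) :=
    (Icc_union_Icc_eq_Icc (by linarith) (by linarith)).symm
  rw [h3]
  refine (lintegral_union_le _ _ _).trans (le_of_eq ?_)
  rw [hp1, hp2, two_mul]

/-! ### diagonal maps of the plane -/

theorem int_diag {d : Fin 2 → ℝ} (hd : ∀ l, 0 < d l) (c : Fin 2 → ℝ) {h : (Fin 2 → ℝ) → ℝ≥0∞}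
    (hh : Measurable h) :
    ENNReal.ofReal (∏ l, d l) * ∫⁻ y : Fin 2 → ℝ, h (fun l => c l + d l * (y l - c l)) =
      ∫⁻ z, h z := by
  have hdet : (Matrix.diagonal d).det = ∏ l, d l := Matrix.det_diagonal
  have hpos : 0 < ∏ l, d l := Finset.prod_pos fun l _ => hd l
  have h1 := Real.smul_map_diagonal_volume_pi (D := d) (by rw [hdet]; exact hpos.ne')
  have h2 : ∫⁻ z, h z = ∫⁻ z, h (z + c) := (lintegral_add_right_eq_self h c).symm
  have h3 : ∫⁻ z, h (z + c) = ENNReal.ofReal (∏ l, d l) *
      ∫⁻ y, h (Matrix.toLin' (Matrix.diagonal d) y + c) := by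
    conv_lhs => rw [← h1]
    have h5 : Measurable fun z : Fin 2 → ℝ => h (z + c) := hh.comp (measurable_id.add_const c)
    rw [lintegral_smul_measure, lintegral_map h5
      (LinearMap.continuous_of_finiteDimensional _).measurable, hdet, abs_of_pos hpos, smul_eq_mul]
  have h4 : ∫⁻ y : Fin 2 → ℝ, h (fun l => c l + d l * (y l - c l)) =
      ∫⁻ y, h (Matrix.toLin' (Matrix.diagonal d) y + c) := by
    rw [← lintegral_add_right_eq_self (μ := (volume : Measure (Fin 2 → ℝ)))
      (fun y : Fin 2 → ℝ => h (fun l => c l + d l * (y l - c l))) c]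
    refine lintegral_congr fun y => ?_
    congr 1
    funext l
    simp only [Pi.add_apply, add_sub_cancel_right, Matrix.toLin'_apply, Matrix.mulVec_diagonal]
    ring
  rw [h2, h3, h4]

/-- the scale factors -/
noncomputable def df (S : Finset (Fin 3)) (i : Fin 3) (r : ℝ) (l : Fin 2) : ℝ :=
  if i.succAbove l ∈ S then r else 1

theorem df_pos (S : Finset (Fin 3)) (i : Fin 3) {r : ℝ} (hr : 0 < r) (l : Fin 2) :
    0 < df S i r l := by
  unfold df
  split_ifs
  · exact hr
  · exact one_pos

theorem le_prod_df {S : Finset (Fin 3)} {i : Fin 3} {r : ℝ} (hr : 1 ≤ r) (hS : 2 ≤ S.card) :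
    r ≤ ∏ l, df S i r l := by
  obtain ⟨j, hj, hji⟩ := Finset.exists_mem_ne (show 1 < S.card from hS) i
  obtain ⟨m, rfl⟩ := Fin.exists_succAbove_eq hji
  have h1 : ∀ l, 1 ≤ df S i r l := by
    intro l
    unfold df
    split_ifs
    · exact hr
    · exact le_rfl
  have h2 : df S i r m = r := by
    unfold df
    rw [if_pos hj]
  rw [Fin.prod_univ_two]
  fin_cases m
  · simp only [Fin.zero_eta] at h2
    rw [h2]
    have := h1 1
    nlinarith
  · simp only [Fin.mk_one] at h2
    rw [h2]
    have := h1 0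
    nlinarith

/-- the majorant -/
noncomputable def hh (c : V) (ρ : ℝ) (i : Fin 3) (H : V → ℝ≥0∞) : (Fin 2 → ℝ) → ℝ≥0∞ :=
  (sq (i.removeNth c) ρ).indicator fun z =>
    H (i.insertNth (c i + ρ) z) + H (i.insertNth (c i - ρ) z)

theorem measurable_hh (c : V) (ρ : ℝ) (i : Fin 3) {H : V → ℝ≥0∞} (hH : Measurable H) :
    Measurable (hh c ρ i H) :=
  ((hH.comp (measurable_ins _ _)).add (hH.comp (measurable_ins _ _))).indicator
    (measurableSet_sq _ _)

/-- the scaled point -/
noncomputable def dd (S : Finset (Fin 3)) (c : V) (ρ : ℝ) (i : Fin 3) (q : ℝ × (Fin 2 → ℝ)) :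
    Fin 2 → ℝ :=
  fun l => i.removeNth c l + df S i (ρ / |q.1 - c i|) l * (q.2 l - i.removeNth c l)

theorem measurable_dd (S : Finset (Fin 3)) (c : V) (ρ : ℝ) (i : Fin 3) :
    Measurable (dd S c ρ i) := by
  rw [measurable_pi_iff]
  intro l
  unfold dd df
  by_cases h : i.succAbove l ∈ S
  · simp only [if_pos h]
    have h1 : Measurable fun q : ℝ × (Fin 2 → ℝ) => q.2 l := (measurable_pi_apply l).comp measurable_snd
    have h2 : Measurable fun q : ℝ × (Fin 2 → ℝ) => |q.1 - c i| := by
      exact (measurable_fst.sub_const _).norm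
    exact ((measurable_const.div h2).mul (h1.sub_const _)).const_add _
  · simp only [if_neg h]
    have h1 : Measurable fun q : ℝ × (Fin 2 → ℝ) => q.2 l := (measurable_pi_apply l).comp measurable_snd
    exact ((h1.sub_const _).const_mul _).const_add _

theorem pointwise {S : Finset (Fin 3)} {c : V} {ρ p : ℝ} {i : Fin 3} (H : V → ℝ≥0∞) (hi : i ∈ S)
    (hρ : 0 < ρ) (hp : 1 ≤ p) {x : V} (hx : x ∈ cube c ρ)
    (hx' : ∀ j ∈ S, |x j - c j| ≤ |x i - c i|) :
    ENNReal.ofReal ((ρ / |x i - c i|) ^ p) * H (rad S c ρ i x) ≤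
      ENNReal.ofReal ((ρ / |x i - c i|) ^ p) * hh c ρ i H (dd S c ρ i (x i, i.removeNth x)) := by
  rcases eq_or_ne (x i - c i) 0 with h0 | h0
  · rw [h0, abs_zero, div_zero, Real.zero_rpow (by linarith), ENNReal.ofReal_zero, zero_mul]
    exact bot_le
  · gcongr
    have habs : 0 < |x i - c i| := abs_pos.2 h0
    have hsq : dd S c ρ i (x i, i.removeNth x) ∈ sq (i.removeNth c) ρ := by
      intro l
      simp only [dd, add_sub_cancel_left, abs_mul]
      unfold df
      by_cases h : i.succAbove l ∈ S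
      · rw [if_pos h, abs_of_pos (by positivity)]
        have h1 : |i.removeNth x l - i.removeNth c l| ≤ |x i - c i| := hx' _ h
        calc ρ / |x i - c i| * |i.removeNth x l - i.removeNth c l|
            ≤ ρ / |x i - c i| * |x i - c i| := by gcongr
          _ = ρ := by field_simp
      · rw [if_neg h, abs_one, one_mul]
        exact hx _
    rw [hh, indicator_of_mem hsq]
    have hrad : ∀ l, rad S c ρ i x (i.succAbove l) = dd S c ρ i (x i, i.removeNth x) l := by
      intro l
      unfold rad dd df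
      by_cases h : i.succAbove l ∈ S
      · rw [if_pos h, if_pos h]
        simp only [Fin.removeNth]
        ring
      · rw [if_neg h, if_neg h]
        simp only [Fin.removeNth]
        ring
    rcases lt_or_gt_of_ne h0 with hneg | hpos
    · have h1 : rad S c ρ i x = i.insertNth (c i - ρ) (dd S c ρ i (x i, i.removeNth x)) := by
        funext l
        rcases Fin.eq_self_or_eq_succAbove i l with rfl | ⟨m, rfl⟩
        · simp only [Fin.insertNth_apply_same]
          unfold rad
          rw [if_pos hi, abs_of_neg hneg]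
          have : -(x l - c l) ≠ 0 := neg_ne_zero.2 h0
          field_simp
          ring
        · rw [Fin.insertNth_apply_succAbove]
          exact hrad m
      rw [h1]
      exact le_add_self
    · have h1 : rad S c ρ i x = i.insertNth (c i + ρ) (dd S c ρ i (x i, i.removeNth x)) := by
        funext l
        rcases Fin.eq_self_or_eq_succAbove i l with rfl | ⟨m, rfl⟩
        · simp only [Fin.insertNth_apply_same]
          unfold rad
          rw [if_pos hi, abs_of_pos hpos]
          field_simp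
        · rw [Fin.insertNth_apply_succAbove]
          exact hrad m
      rw [h1]
      exact le_self_add

theorem inner_le {S : Finset (Fin 3)} {c : V} {ρ p : ℝ} {i : Fin 3} {H : V → ℝ≥0∞}
    (hS : 2 ≤ S.card) (hρ : 0 < ρ) (hp : 1 ≤ p) (hH : Measurable H) {u : ℝ}
    (hu : |u - c i| ≤ ρ) :
    ∫⁻ y, ENNReal.ofReal ((ρ / |u - c i|) ^ p) * hh c ρ i H (dd S c ρ i (u, y)) ≤
      ENNReal.ofReal ((ρ / |u - c i|) ^ (p - 1)) * ∫⁻ z, hh c ρ i H z := by
  rcases eq_or_ne (u - c i) 0 with h0 | h0
  · rw [h0, abs_zero, div_zero, Real.zero_rpow (by linarith), ENNReal.ofReal_zero]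
    simp
  · have habs : 0 < |u - c i| := abs_pos.2 h0
    set r := ρ / |u - c i| with hr
    have hr0 : 0 < r := by positivity
    have hr1 : 1 ≤ r := (one_le_div habs).2 hu
    have h1 := int_diag (d := df S i r) (df_pos S i hr0) (i.removeNth c) (measurable_hh c ρ i hH)
    rw [lintegral_const_mul' _ _ ENNReal.ofReal_ne_top, ← h1, ← mul_assoc]
    have h2 : ENNReal.ofReal (r ^ p) ≤
        ENNReal.ofReal (r ^ (p - 1)) * ENNReal.ofReal (∏ l, df S i r l) := by
      rw [← ENNReal.ofReal_mul (by positivity)]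
      refine ENNReal.ofReal_le_ofReal ?_
      calc r ^ p = r ^ (p - 1) * r := by
            rw [← Real.rpow_add_one hr0.ne']
            congr 1
            ring
        _ ≤ r ^ (p - 1) * ∏ l, df S i r l := by
            gcongr
            exact le_prod_df hr1 hS
    exact mul_le_mul' h2 le_rfl

end Polar

/-- (SQ2) with the parentheses in the right place -/
def SpecPolar' : Prop :=
  ∀ p : ℝ, 1 ≤ p → p < 2 → ∃ C : ℝ≥0∞, C ≠ ⊤ ∧
    ∀ (S : Finset (Fin 3)) (c : V) (ρ : ℝ) (i : Fin 3) (H : V → ℝ≥0∞), 2 ≤ S.card → i ∈ S →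
      0 < ρ → Measurable H →
      ∫⁻ x in cube c ρ ∩ {x | ∀ j ∈ S, |x j - c j| ≤ |x i - c i|},
          ENNReal.ofReal ((ρ / |x i - c i|) ^ p) * H (rad S c ρ i x) ≤
        C * ((∫⁻ x in cube c ρ, H (Function.update x i (c i + ρ))) +
          ∫⁻ x in cube c ρ, H (Function.update x i (c i - ρ)))

open Edge Polar in
theorem specPolar' : SpecPolar' := by
  intro p hp1 hp2
  refine ⟨ENNReal.ofReal (1 / (2 - p)), ENNReal.ofReal_ne_top, ?_⟩
  intro S c ρ i H hS hi hρ hH
  have hR : ∀ b, ∫⁻ x in cube c ρ, H (Function.update x i b) =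
      ENNReal.ofReal (2 * ρ) * ∫⁻ y in sq (i.removeNth c) ρ, H (i.insertNth b y) := by
    intro b
    rw [cube_eq i c ρ, fubini_const i b measurableSet_Icc (measurableSet_sq _ _) hH,
      Real.volume_Icc]
    congr 2
    ring
  have hI : ∫⁻ z, hh c ρ i H z = (∫⁻ y in sq (i.removeNth c) ρ, H (i.insertNth (c i + ρ) y)) +
      ∫⁻ y in sq (i.removeNth c) ρ, H (i.insertNth (c i - ρ) y) := by
    have m1 : Measurable fun y : Fin 2 → ℝ => H (i.insertNth (c i + ρ) y) :=
      hH.comp (measurable_ins _ _)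
    unfold hh
    rw [lintegral_indicator (measurableSet_sq _ _), lintegral_add_left m1]
  have hΦ : Measurable fun q : ℝ × (Fin 2 → ℝ) =>
      ENNReal.ofReal ((ρ / |q.1 - c i|) ^ p) * hh c ρ i H (dd S c ρ i q) := by
    refine Measurable.mul ?_ ((measurable_hh c ρ i hH).comp (measurable_dd S c ρ i))
    refine ENNReal.measurable_ofReal.comp ?_
    have h2 : Measurable fun q : ℝ × (Fin 2 → ℝ) => |q.1 - c i| :=
      (measurable_fst.sub_const _).norm
    exact (measurable_const.div h2).pow_const p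
  calc ∫⁻ x in cube c ρ ∩ {x | ∀ j ∈ S, |x j - c j| ≤ |x i - c i|},
          ENNReal.ofReal ((ρ / |x i - c i|) ^ p) * H (rad S c ρ i x)
      ≤ ∫⁻ x in cube c ρ ∩ {x | ∀ j ∈ S, |x j - c j| ≤ |x i - c i|},
          ENNReal.ofReal ((ρ / |x i - c i|) ^ p) *
            hh c ρ i H (dd S c ρ i (x i, i.removeNth x)) := by
        refine setLIntegral_mono' ?_ ?_
        · refine MeasurableSet.inter ?_ ?_
          · rw [cube_eq i c ρ]
            have : {x : V | x i ∈ Icc (c i - ρ) (c i + ρ) ∧ i.removeNth x ∈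
                sq (i.removeNth c) ρ} = eq i ⁻¹' (Icc (c i - ρ) (c i + ρ) ×ˢ
                sq (i.removeNth c) ρ) := rfl
            rw [this]
            exact (eq i).measurable (measurableSet_Icc.prod (measurableSet_sq _ _))
          · refine IsClosed.measurableSet ?_
            have : {x : V | ∀ j ∈ S, |x j - c j| ≤ |x i - c i|} =
                ⋂ j ∈ S, {x : V | |x j - c j| ≤ |x i - c i|} := by
              ext x
              simp
            rw [this]
            refine isClosed_biInter fun j _ => isClosed_le ?_ ?_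
            · exact ((continuous_apply j).sub continuous_const).abs
            · exact ((continuous_apply i).sub continuous_const).abs
        · rintro x ⟨hx, hx'⟩
          exact pointwise H hi hρ hp1 hx hx'
    _ ≤ ∫⁻ x in {x : V | x i ∈ Icc (c i - ρ) (c i + ρ) ∧ i.removeNth x ∈ univ},
          ENNReal.ofReal ((ρ / |x i - c i|) ^ p) *
            hh c ρ i H (dd S c ρ i (x i, i.removeNth x)) := by
        refine lintegral_mono_set ?_
        rintro x ⟨hx, -⟩
        rw [cube_eq i c ρ] at hx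
        exact ⟨hx.1, mem_univ _⟩
    _ = ∫⁻ u in Icc (c i - ρ) (c i + ρ), ∫⁻ y in univ,
          ENNReal.ofReal ((ρ / |u - c i|) ^ p) * hh c ρ i H (dd S c ρ i (u, y)) :=
        fubini i measurableSet_Icc MeasurableSet.univ hΦ
    _ ≤ ∫⁻ u in Icc (c i - ρ) (c i + ρ),
          ENNReal.ofReal ((ρ / |u - c i|) ^ (p - 1)) * ∫⁻ z, hh c ρ i H z := by
        refine setLIntegral_mono' measurableSet_Icc fun u hu => ?_
        rw [Measure.restrict_univ]
        exact inner_le hS hρ hp1 hH (abs_le.2 ⟨by linarith [hu.1], by linarith [hu.2]⟩)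
    _ = (∫⁻ u in Icc (c i - ρ) (c i + ρ), ENNReal.ofReal ((ρ / |u - c i|) ^ (p - 1))) *
          ∫⁻ z, hh c ρ i H z := by
        rw [lintegral_mul_const]
        refine ENNReal.measurable_ofReal.comp ?_
        have h2 : Measurable fun u : ℝ => |u - c i| := (measurable_id.sub_const _).norm
        exact (measurable_const.div h2).pow_const _
    _ ≤ 2 * ENNReal.ofReal (ρ / (2 - p)) * ∫⁻ z, hh c ρ i H z := by
        gcongr
        exact int_full (c i) hρ hp2
    _ = ENNReal.ofReal (1 / (2 - p)) * ((∫⁻ x in cube c ρ, H (Function.update x i (c i + ρ))) +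
          ∫⁻ x in cube c ρ, H (Function.update x i (c i - ρ))) := by
        rw [hR, hR, hI, ← mul_add, ← mul_assoc]
        congr 1
        rw [← ENNReal.ofReal_mul (by
          have : 0 < 2 - p := by linarith
          positivity), show (2:ℝ≥0∞) = ENNReal.ofReal 2 by simp,
          ← ENNReal.ofReal_mul (by norm_num)]
        congr 1
        ring

end Vale.Agent.P073.SQ
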