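import Vale.Agent.P073.SQ.RadMap

/-!
# Block SQ: the radial diffeomorphisms (SQ1)
-/

namespace Vale.Agent.P073.SQ

open MeasureTheory Set Filter Topology Vale.Agent.P073.St
open scoped ContDiff ENNReal

variable {S : Finset (Fin 3)} {n : ℕ} {Φ : ℝ → ℝ} {C ε δ : ℝ}

theorem PS_norm_le {x : V} : ‖PS S x‖ ≤ gg S n x := by
  rw [pi_norm_le_iff_of_nonneg (gg_nonneg S n x)]
  intro l
  rw [PS_apply]
  split_ifs with h
  · exact abs_le_gg h
  · simpa using gg_nonneg S n x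

theorem PS_ev {j : Fin 3} (hj : j ∈ S) : PS S (ev j) = ev j := by
  funext l
  rw [PS_apply, ev]
  by_cases h : l = j
  · subst h; simp [hj]
  · simp [h]

theorem ev_norm (j : Fin 3) : ‖ev j‖ = 1 := by
  unfold ev
  rw [Pi.norm_single]
  simp

/-- the derivative in the directions of `S`, on the plane -/
theorem sm_fderiv_ev (hΦ : Prof C ε Φ) {x : V} (hx : ∀ l, l ∉ S → x l = 0)
    (hg : gg S n x ≠ 0) {j : Fin 3} (hj : j ∈ S) :
    fderiv ℝ (sm S n Φ δ) x (ev j) = Φ (gg S n x) • ev j +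
      (deriv Φ (gg S n x) * (x j / gg S n x) ^ (2 * n + 1)) • PS S x := by
  have hv : ∀ l, l ∉ S → (ev j) l = 0 := by
    intro l hl
    have : l ≠ j := fun h => hl (h ▸ hj)
    simp [ev, this]
  have h1 : ∑ i ∈ S, (x i / gg S n x) ^ (2 * n + 1) * (ev j) i =
      (x j / gg S n x) ^ (2 * n + 1) := by
    rw [Finset.sum_eq_single j]
    · simp [ev]
    · intro i _ hij
      simp [ev, hij]
    · intro h; exact absurd hj h
  rw [sm_fderiv hΦ, hh_fderiv hΦ hg hv, h1, PS_ev hj, hh, cut_eq_one hx]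
  module

/-- the radial derivative, on the plane -/
theorem sm_fderiv_self (hΦ : Prof C ε Φ) {x : V} (hx : ∀ l, l ∉ S → x l = 0)
    (hg : gg S n x ≠ 0) :
    fderiv ℝ (sm S n Φ δ) x x = (Φ (gg S n x) + gg S n x * deriv Φ (gg S n x)) • x := by
  have hP : PS S x = x := by
    funext l
    rw [PS_apply]
    by_cases hl : l ∈ S
    · simp [hl]
    · simp [hl, hx l hl]
  rw [sm_fderiv hΦ, hh_fderiv hΦ hg hx, gg_euler hg, hP, hh, cut_eq_one hx]
  module

theorem sm_bound (hΦ : Prof C ε Φ) (hε : 0 < ε) {x : V} (hx : ∀ l, l ∉ S → x l = 0)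
    (hx1 : ∀ l ∈ S, |x l| ≤ 1) {i j : Fin 3} (hj : j ∈ S) (hi : i ∈ S) (hC : 0 ≤ C) :
    ‖fderiv ℝ (sm S n Φ δ) x (ev j)‖ * |x i| ≤ C + 3 := by
  by_cases hg : gg S n x = 0
  · rw [gg_eq_zero hg hi]
    simp
    linarith
  have hg0 : 0 < gg S n x := lt_of_le_of_ne (gg_nonneg S n x) (Ne.symm hg)
  obtain ⟨g, hgdef⟩ : ∃ g, g = gg S n x := ⟨_, rfl⟩
  have hg0' : 0 < g := hgdef ▸ hg0
  have h1 : ‖fderiv ℝ (sm S n Φ δ) x (ev j)‖ ≤ Φ g + |deriv Φ g| * g := by
    rw [sm_fderiv_ev hΦ hx hg hj, ← hgdef]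
    refine (norm_add_le _ _).trans ?_
    rw [norm_smul, norm_smul, ev_norm, mul_one, Real.norm_eq_abs, Real.norm_eq_abs,
      abs_of_pos (hΦ.pos g), abs_mul, abs_pow]
    have h2 : |x j / g| ^ (2 * n + 1) ≤ 1 := by
      apply pow_le_one₀ (abs_nonneg _)
      rw [abs_div, abs_of_pos hg0', div_le_one hg0', hgdef]
      exact abs_le_gg hj
    have h3 : ‖PS S x‖ ≤ g := hgdef ▸ PS_norm_le
    have h4 : |deriv Φ g| * |x j / g| ^ (2 * n + 1) * ‖PS S x‖ ≤ |deriv Φ g| * 1 * g := by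
      gcongr
    linarith
  have h5 : |x i| ≤ g := hgdef ▸ abs_le_gg hi
  rw [← hgdef] at hg0
  have h6 : 0 ≤ Φ g + |deriv Φ g| * g := by
    have := (hΦ.pos g).le
    positivity
  have h7 : ‖fderiv ℝ (sm S n Φ δ) x (ev j)‖ * |x i| ≤ (Φ g + |deriv Φ g| * g) * g :=
    mul_le_mul h1 h5 (abs_nonneg _) h6
  refine h7.trans ?_
  rcases le_or_gt g 1 with hg1 | hg1
  · have h8 := hΦ.le_one g hg0.le hg1
    have h9 := hΦ.bdd g hg0.le hg1
    have h10 := hΦ.mono g hg0.le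
    have h11 : |deriv Φ g| * g ≤ (Φ g + g * deriv Φ g) + Φ g := by
      have : |deriv Φ g| * g = |g * deriv Φ g| := by
        rw [abs_mul, abs_of_pos hg0, mul_comm]
      rw [this, abs_le]
      have := hΦ.pos g
      constructor <;> linarith
    have h12 : (Φ g + |deriv Φ g| * g) * g ≤ (Φ g + ((Φ g + g * deriv Φ g) + Φ g)) * g := by
      gcongr
    nlinarith
  · have h8 : Φ g = 1 := hΦ.one g (by linarith)
    have h9 : deriv Φ g = 0 := by
      have : Φ =ᶠ[𝓝 g] fun _ => 1 := by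
        filter_upwards [Ioi_mem_nhds hg1] with y hy
        exact hΦ.one y (by have : (1 : ℝ) < y := hy; linarith)
      rw [this.deriv_eq]
      simp
    have h10 : g ≤ 3 := hgdef ▸ gg_le_three hx1
    rw [h8, h9]
    simp
    linarith

/-! ### limits -/

/-- limit of the values of the profile -/
theorem tendsto_prof {ε : ℕ → ℝ} {Φ : ℕ → ℝ → ℝ} (hΦ : ∀ n, Prof C (ε n) (Φ n))
    (hε : Tendsto ε atTop (𝓝 0)) {g : ℕ → ℝ} {r : ℝ} (hg : Tendsto g atTop (𝓝 r)) (hr0 : 0 < r)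
    (hr1 : r < 1) : Tendsto (fun n => Φ n (g n)) atTop (𝓝 (1 / r)) ∧
      Tendsto (fun n => deriv (Φ n) (g n)) atTop (𝓝 (-(1 / r ^ 2))) := by
  have he1 : ∀ᶠ n in atTop, ε n < g n := by
    exact hε.eventually_lt hg hr0
  have he2 : ∀ᶠ n in atTop, g n < 1 - 2 * ε n := by
    have h : Tendsto (fun n => 1 - 2 * ε n) atTop (𝓝 (1 - 2 * 0)) :=
      (hε.const_mul 2).const_sub 1
    exact hg.eventually_lt h (by simpa using hr1)
  have he3 : ∀ᶠ n in atTop, 0 < g n := hg.eventually_const_lt hr0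
  have h1 : Tendsto (fun n => Φ n (g n)) atTop (𝓝 (1 / r)) := by
    have h2 : Tendsto (fun n => ((1 - ε n) * (1 - 2 * ε n) + ε n * g n) / g n) atTop
        (𝓝 (((1 - 0) * (1 - 2 * 0) + 0 * r) / r)) :=
      ((((hε.const_sub 1).mul ((hε.const_mul 2).const_sub 1))).add (hε.mul hg)).div hg hr0.ne'
    have h3 : ((1 - 0) * (1 - 2 * 0) + 0 * r) / r = 1 / r := by ring
    rw [h3] at h2
    refine h2.congr' ?_
    filter_upwards [he1, he2, he3] with n a1 a2 a3
    rw [← ((hΦ n).mid _ a1 a2).1]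
    field_simp
  refine ⟨h1, ?_⟩
  have h2 : Tendsto (fun n => (ε n - Φ n (g n)) / g n) atTop (𝓝 ((0 - 1 / r) / r)) :=
    (hε.sub h1).div hg hr0.ne'
  have h3 : (0 - 1 / r) / r = -(1 / r ^ 2) := by field_simp; ring
  rw [h3] at h2
  refine h2.congr' ?_
  filter_upwards [he1, he2, he3] with n a1 a2 a3
  have h4 := ((hΦ n).mid _ a1 a2).2
  have h5 : ε n - Φ n (g n) = g n * deriv (Φ n) (g n) := by linarith
  rw [h5]
  field_simp

/-- SQ1 for the cube with centre `0` and half side `1`, with the limit of the radial derivative -/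
theorem rad_unit : ∃ C : ℝ, 0 < C ∧ ∀ (S : Finset (Fin 3)) (U : Set V), S.Nonempty →
    IsOpen U → (∀ x : V, (∀ l, l ∉ S → x l = 0) → (∀ l ∈ S, |x l| < 1) → x ∈ U) →
    ∃ (K : ℕ → Set V) (s : ℕ → V → V),
      (∀ n, SuppDiffeo (K n) (s n)) ∧
      (∀ n, K n ⊆ U ∩ {x | ∀ l ∈ S, |x l| < 1}) ∧
      (∀ n x l, l ∉ S → s n x l = x l) ∧
      (∀ n x, (∀ l, l ∉ S → x l = 0) → (∀ l ∈ S, |x l| ≤ 1) → ∀ j ∈ S, ∀ i ∈ S,
        ‖fderiv ℝ (s n) x (ev j)‖ * |x i| ≤ C) ∧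
      (∀ x, ∀ i ∈ S, (∀ l, l ∉ S → x l = 0) → (∀ j ∈ S, |x j| ≤ |x i|) →
        0 < |x i| → |x i| < 1 → Tendsto (fun n => fderiv ℝ (s n) x x) atTop (𝓝 0)) ∧
      ∀ x, ∀ i ∈ S, (∀ l, l ∉ S → x l = 0) → (∀ j ∈ S, j ≠ i → |x j| < |x i|) →
        0 < |x i| → |x i| < 1 →
        Tendsto (fun n => s n x) atTop (𝓝 (fun l => if l ∈ S then x l / |x i| else x l)) ∧
        (∀ j ∈ S, j ≠ i → Tendsto (fun n => fderiv ℝ (s n) x (ev j)) atTop
          (𝓝 ((1 / |x i|) • ev j))) ∧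
        Tendsto (fun n => fderiv ℝ (s n) x (ev i)) atTop
          (𝓝 (fun l => if l ∈ S ∧ l ≠ i then -(1 / |x i|) * (x l / x i) else 0)) := by
  obtain ⟨C, hC, hprof⟩ := exists_prof
  refine ⟨C + 3, by linarith, fun S U _ hU hSU => ?_⟩
  obtain ⟨ε, hεdef⟩ : ∃ ε : ℕ → ℝ, ε = fun n : ℕ => 1 / ((n : ℝ) + 4) := ⟨_, rfl⟩
  have hε0 : ∀ n, 0 < ε n := fun n => by rw [hεdef]; positivity
  have hε4 : ∀ n, ε n ≤ 1 / 4 := fun n => by
    rw [hεdef]
    apply one_div_le_one_div_of_le (by norm_num)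
    have : (0 : ℝ) ≤ n := Nat.cast_nonneg n
    linarith
  have hεlim : Tendsto ε atTop (𝓝 0) := by
    rw [hεdef]
    have : Tendsto (fun n : ℕ => (n : ℝ) + 4) atTop atTop :=
      tendsto_atTop_add_const_right _ _ tendsto_natCast_atTop_atTop
    simp_rw [one_div]
    exact this.inv_tendsto_atTop
  choose Φ hΦ using fun n => hprof (ε n) (hε0 n) (hε4 n)
  -- the thickness
  have hδ : ∀ n, ∃ δ : ℝ, 0 < δ ∧ KS S (ε n) δ ⊆ U := by
    intro n
    have hK0 : IsCompact (KS S (ε n) 0) := KS_compact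
    have hK0U : KS S (ε n) 0 ⊆ U := by
      intro x hx
      refine hSU x (fun l hl => ?_) fun l hl => ?_
      · exact abs_nonpos_iff.1 (hx.2 l hl)
      · exact (hx.1 l hl).trans_lt (by linarith [hε0 n])
    obtain ⟨δ, hδ, hδU⟩ := hK0.exists_cthickening_subset_open hU hK0U
    refine ⟨δ, hδ, fun x hx => hδU ?_⟩
    refine Metric.mem_cthickening_of_dist_le x (PS S x) δ _ ⟨fun l hl => ?_, fun l hl => ?_⟩ ?_
    · rw [PS_apply, if_pos hl]; exact hx.1 l hl
    · rw [PS_apply, if_neg hl]; simp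
    · rw [dist_pi_le_iff hδ.le]
      intro l
      rw [PS_apply]
      split_ifs with h
      · simpa using hδ.le
      · simpa [Real.dist_eq] using hx.2 l h
  choose δ hδ0 hδU using hδ
  refine ⟨fun n => KS S (ε n) (δ n), fun n => sm S n (Φ n) (δ n), fun n => ?_, fun n => ?_,
    fun n x l hl => ?_, fun n x hx hx1 j hj i hi => ?_, fun x i hi hx hd h0 h1 => ?_,
    fun x i hi hx hd h0 h1 => ?_⟩
  · exact sm_suppDiffeo (hΦ n) (hδ0 n)
  · intro x hx
    exact ⟨hδU n hx, fun l hl => (hx.1 l hl).trans_lt (by linarith [hε0 n])⟩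
  · show sm S n (Φ n) (δ n) x l = x l
    rw [sm_apply, if_neg hl]
  · exact sm_bound (hΦ n) (hε0 n) hx hx1 hj hi hC.le
  · have hg := tendsto_gg_le hi hd
    have hgne : ∀ n, gg S n x ≠ 0 := fun n => (h0.trans_le (abs_le_gg hi)).ne'
    obtain ⟨hp1, hp2⟩ := tendsto_prof hΦ hεlim hg h0 h1
    have h2 : Tendsto (fun n => (Φ n (gg S n x) + gg S n x * deriv (Φ n) (gg S n x)) • x) atTop
        (𝓝 ((1 / |x i| + |x i| * -(1 / |x i| ^ 2)) • x)) :=
      (hp1.add (hg.mul hp2)).smul_const x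
    have h3 : (1 / |x i| + |x i| * -(1 / |x i| ^ 2)) • x = 0 := by
      have : 1 / |x i| + |x i| * -(1 / |x i| ^ 2) = 0 := by
        field_simp
        ring
      rw [this, zero_smul]
    rw [h3] at h2
    refine h2.congr fun n => ?_
    rw [sm_fderiv_self (hΦ n) hx (hgne n)]
  have hg := tendsto_gg hi hd
  have hgne : ∀ n, gg S n x ≠ 0 := fun n => (h0.trans_le (abs_le_gg hi)).ne'
  obtain ⟨hp1, hp2⟩ := tendsto_prof hΦ hεlim hg h0 h1
  have hxi : x i ≠ 0 := by intro h; rw [h] at h0; simp at h0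
  refine ⟨?_, ?_, ?_⟩
  · rw [tendsto_pi_nhds]
    intro l
    by_cases hl : l ∈ S
    · simp only [sm_apply, if_pos hl, hh, cut_eq_one hx]
      have h2 : Tendsto (fun n => (1 + 1 * (Φ n (gg S n x) - 1)) * x l) atTop
          (𝓝 ((1 + 1 * (1 / |x i| - 1)) * x l)) :=
        ((((hp1.sub_const 1).const_mul 1).const_add 1).mul_const _)
      have h3 : (1 + 1 * (1 / |x i| - 1)) * x l = x l / |x i| := by ring
      rwa [h3] at h2
    · simp only [sm_apply, if_neg hl]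
      exact tendsto_const_nhds
  · intro j hj hji
    have h2 : Tendsto (fun n => Φ n (gg S n x) • ev j +
        (deriv (Φ n) (gg S n x) * (x j / gg S n x) ^ (2 * n + 1)) • PS S x) atTop
        (𝓝 ((1 / |x i|) • ev j + (-(1 / |x i| ^ 2) * 0) • PS S x)) :=
      (hp1.smul_const _).add ((hp2.mul (tendsto_ratio_ne hi h0 (hd j hj hji)
        (fun n => by omega))).smul_const _)
    have h3 : (1 / |x i|) • ev j + (-(1 / |x i| ^ 2) * 0) • PS S x = (1 / |x i|) • ev j := by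
      simp
    rw [h3] at h2
    refine h2.congr fun n => ?_
    rw [sm_fderiv_ev (hΦ n) hx (hgne n) hj]
  · have h2 : Tendsto (fun n => Φ n (gg S n x) • ev i +
        (deriv (Φ n) (gg S n x) * (x i / gg S n x) ^ (2 * n + 1)) • PS S x) atTop
        (𝓝 ((1 / |x i|) • ev i + (-(1 / |x i| ^ 2) * (|x i| / x i)) • PS S x)) :=
      (hp1.smul_const _).add ((hp2.mul (tendsto_ratio_eq hi hd h0)).smul_const _)
    have h3 : (1 / |x i|) • ev i + (-(1 / |x i| ^ 2) * (|x i| / x i)) • PS S x =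
        fun l => if l ∈ S ∧ l ≠ i then -(1 / |x i|) * (x l / x i) else 0 := by
      funext l
      rw [Pi.add_apply, Pi.smul_apply, Pi.smul_apply, PS_apply, ev]
      have h0' := h0.ne'
      by_cases hl : l ∈ S
      · by_cases hli : l = i
        · subst hli
          simp only [hl, Pi.single_eq_same, if_true, ne_eq, not_true_eq_false, and_false,
            if_false, smul_eq_mul]
          field_simp
          ring
        · simp only [hl, hli, Pi.single_eq_of_ne (Ne.symm (Ne.symm hli)), if_true, ne_eq,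
            not_false_eq_true, and_self, smul_eq_mul, mul_zero, zero_add]
          field_simp
      · have hli : l ≠ i := fun h => hl (h ▸ hi)
        simp [hl, hli]
    rw [h3] at h2
    refine h2.congr fun n => ?_
    rw [sm_fderiv_ev (hΦ n) hx (hgne n) hi]

/-- `SpecRad` with the limit of the radial derivative -/
def SpecRadR : Prop :=
  ∃ C : ℝ, 0 < C ∧ ∀ (S : Finset (Fin 3)) (c : V) (ρ : ℝ) (U : Set V), S.Nonempty → 0 < ρ →
    IsOpen U → (∀ x : V, (∀ l, l ∉ S → x l = c l) → (∀ l ∈ S, |x l - c l| < ρ) → x ∈ U) →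
    ∃ (K : ℕ → Set V) (s : ℕ → V → V),
      (∀ n, SuppDiffeo (K n) (s n)) ∧
      (∀ n, K n ⊆ U ∩ {x | ∀ l ∈ S, |x l - c l| < ρ}) ∧
      (∀ n x l, l ∉ S → s n x l = x l) ∧
      (∀ n x, (∀ l, l ∉ S → x l = c l) → (∀ l ∈ S, |x l - c l| ≤ ρ) → ∀ j ∈ S, ∀ i ∈ S,
        ‖fderiv ℝ (s n) x (ev j)‖ * |x i - c i| ≤ C * ρ) ∧
      (∀ x, ∀ i ∈ S, (∀ l, l ∉ S → x l = c l) → (∀ j ∈ S, |x j - c j| ≤ |x i - c i|) →
        0 < |x i - c i| → |x i - c i| < ρ →
        Tendsto (fun n => fderiv ℝ (s n) x (x - c)) atTop (𝓝 0)) ∧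
      ∀ x, ∀ i ∈ S, (∀ l, l ∉ S → x l = c l) → (∀ j ∈ S, j ≠ i → |x j - c j| < |x i - c i|) →
        0 < |x i - c i| → |x i - c i| < ρ →
        Tendsto (fun n => s n x) atTop (𝓝 (rad S c ρ i x)) ∧
        (∀ j ∈ S, j ≠ i → Tendsto (fun n => fderiv ℝ (s n) x (ev j)) atTop
          (𝓝 ((ρ / |x i - c i|) • ev j))) ∧
        Tendsto (fun n => fderiv ℝ (s n) x (ev i)) atTop
          (𝓝 (fun l => if l ∈ S ∧ l ≠ i then
            -(ρ / |x i - c i|) * ((x l - c l) / (x i - c i)) else 0))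

theorem specRadR : SpecRadR := by
  obtain ⟨C, hC, hmain⟩ := rad_unit
  refine ⟨C, hC, fun S c ρ U hS hρ hU hSU => ?_⟩
  have hρ' : ρ ≠ 0 := hρ.ne'
  -- rescaling
  let A : V → V := fun y => c + ρ • y
  have hA : Continuous A := by fun_prop
  obtain ⟨K, s, h1, h2, h3, h4, h45, h5⟩ := hmain S (A ⁻¹' U) hS (hU.preimage hA) (by
    intro y hy hy1
    refine hSU (A y) (fun l hl => ?_) fun l hl => ?_
    · simp [A, hy l hl]
    · simp only [A, Pi.add_apply, Pi.smul_apply, smul_eq_mul, add_sub_cancel_left, abs_mul,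
        abs_of_pos hρ]
      calc ρ * |y l| < ρ * 1 := by gcongr; exact hy1 l hl
        _ = ρ := mul_one ρ)
  have hfd : ∀ n x v, fderiv ℝ (fun x => c + ρ • s n (ρ⁻¹ • (x - c))) x v =
      fderiv ℝ (s n) (ρ⁻¹ • (x - c)) v := by
    intro n x v
    have e1 : HasFDerivAt (s n) (fderiv ℝ (s n) (ρ⁻¹ • (x - c))) (ρ⁻¹ • (x - c)) :=
      ((h1 n).smooth.differentiable (by simp) _).hasFDerivAt
    have e2 : HasFDerivAt (fun x : V => ρ⁻¹ • (x - c)) (ρ⁻¹ • ContinuousLinearMap.id ℝ V) x :=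
      ((hasFDerivAt_id x).sub_const c).const_smul ρ⁻¹
    have e3 := ((e1.comp x e2).const_smul ρ).const_add c
    have e4 : HasFDerivAt (fun x => c + ρ • s n (ρ⁻¹ • (x - c))) _ x := e3
    rw [e4.fderiv]
    simp [smul_smul, mul_inv_cancel₀ hρ']
  have hsub : ∀ x : V, ∀ l, (ρ⁻¹ • (x - c)) l = ρ⁻¹ * (x l - c l) := fun x l => by simp
  have habs : ∀ x : V, ∀ l, |(ρ⁻¹ • (x - c)) l| = ρ⁻¹ * |x l - c l| := fun x l => by
    rw [hsub, abs_mul, abs_of_pos (inv_pos.2 hρ)]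
  refine ⟨fun n => A '' K n, fun n x => c + ρ • s n (ρ⁻¹ • (x - c)), fun n => ?_, fun n => ?_,
    fun n x l hl => ?_, fun n x hx hx1 j hj i hi => ?_, fun x i hi hx hd h0 h1' => ?_,
    fun x i hi hx hd h0 h1' => ?_⟩
  · exact (h1 n).conj c hρ
  · rintro _ ⟨y, hy, rfl⟩
    refine ⟨(h2 n hy).1, fun l hl => ?_⟩
    have := (h2 n hy).2 l hl
    simp only [A, Pi.add_apply, Pi.smul_apply, smul_eq_mul, add_sub_cancel_left, abs_mul,
      abs_of_pos hρ]
    calc ρ * |y l| < ρ * 1 := by gcongr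
      _ = ρ := mul_one ρ
  · simp only [Pi.add_apply, Pi.smul_apply, h3 n _ l hl, smul_eq_mul, Pi.sub_apply]
    field_simp
    ring
  · simp only [hfd]
    have h6 := h4 n (ρ⁻¹ • (x - c)) (fun l hl => by rw [hsub, hx l hl]; ring)
      (fun l hl => by
        rw [habs, inv_mul_le_iff₀ hρ, mul_one]; exact hx1 l hl) j hj i hi
    rw [habs] at h6
    have h7 : ‖fderiv ℝ (s n) (ρ⁻¹ • (x - c)) (ev j)‖ * |x i - c i| =
        (‖fderiv ℝ (s n) (ρ⁻¹ • (x - c)) (ev j)‖ * (ρ⁻¹ * |x i - c i|)) * ρ := by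
      field_simp
    rw [h7]
    exact mul_le_mul_of_nonneg_right h6 hρ.le
  · have l0 := h45 (ρ⁻¹ • (x - c)) i hi (fun l hl => by rw [hsub, hx l hl]; ring)
      (fun j hj => by
        rw [habs, habs]
        have := hd j hj
        gcongr)
      (by rw [habs]; positivity)
      (by rw [habs, inv_mul_lt_iff₀ hρ, mul_one]; exact h1')
    simp only [hfd]
    have e := l0.const_smul ρ
    rw [smul_zero] at e
    refine e.congr fun n => ?_
    rw [← map_smul, smul_smul, mul_inv_cancel₀ hρ', one_smul]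
  · obtain ⟨l1, l2, l3⟩ := h5 (ρ⁻¹ • (x - c)) i hi (fun l hl => by rw [hsub, hx l hl]; ring)
      (fun j hj hji => by
        rw [habs, habs]
        have := hd j hj hji
        gcongr)
      (by rw [habs]; positivity)
      (by rw [habs, inv_mul_lt_iff₀ hρ, mul_one]; exact h1')
    have hxi : |x i - c i| ≠ 0 := h0.ne'
    have hxi' : x i - c i ≠ 0 := abs_ne_zero.1 hxi
    refine ⟨?_, ?_, ?_⟩
    · have e := (l1.const_smul ρ).const_add c
      convert e using 2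
      funext l
      simp only [rad, Pi.add_apply, Pi.smul_apply, smul_eq_mul, Pi.sub_apply, abs_mul,
        abs_of_pos (inv_pos.2 hρ)]
      split_ifs
      · field_simp
      · field_simp
        ring
    · intro j hj hji
      simp only [hfd]
      convert l2 j hj hji using 3
      rw [habs]
      field_simp
    · simp only [hfd]
      convert l3 using 2
      funext l
      rw [habs, hsub, hsub]
      split_ifs
      · field_simp
      · rfl

/-- **SQ1** -/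
theorem specRad : SpecRad := by
  obtain ⟨C, hC, h⟩ := specRadR
  refine ⟨C, hC, fun S c ρ U hS hρ hU hSU => ?_⟩
  obtain ⟨K, s, h1, h2, h3, h4, -, h5⟩ := h S c ρ U hS hρ hU hSU
  exact ⟨K, s, h1, h2, h3, h4, h5⟩

end Vale.Agent.P073.SQ
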