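import Vale.Agent.P073.SQ.Energy
import Vale.Agent.P073.SQ.Glue
import Vale.Agent.P073.SQ.Rad
import Vale.Agent.P073.SQ.Polar

/-!
# SQ: cubes and squares
-/

namespace Vale.Agent.P073.SQ

open MeasureTheory Set Filter Topology Vale.Agent.P073.St
open scoped ContDiff ENNReal

theorem polarIneq_of (h : SpecPolar) {p : ℝ} (hp : 1 ≤ p) (hp2 : p < 2) :
    ∃ C : ℝ≥0∞, C ≠ ⊤ ∧ ∀ (S : Finset (Fin 3)) (c : V) (ρ : ℝ), 2 ≤ S.card → 0 < ρ →
      PolarIneq p C S c ρ := by
  obtain ⟨C, hC, h1⟩ := h p hp hp2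
  refine ⟨C, hC, fun S c ρ hS hρ i hi H hH => ?_⟩
  exact h1 S c ρ i H hS hi hρ hH

/-- the sequence of radial diffeomorphisms -/
theorem exists_radSeq (h : SpecRad) : ∃ C : ℝ, 0 < C ∧ ∀ (S : Finset (Fin 3)) (c : V) (ρ : ℝ)
    (U : Set V), S.Nonempty → 0 < ρ → IsOpen U →
    (∀ x : V, (∀ l, l ∉ S → x l = c l) → (∀ l ∈ S, |x l - c l| < ρ) → x ∈ U) →
    ∃ (K : ℕ → Set V) (s : ℕ → V → V), RadSeq C S c ρ s ∧ (∀ n, SuppDiffeo (K n) (s n)) ∧
      ∀ n, K n ⊆ U ∩ {x | ∀ l ∈ S, |x l - c l| < ρ} := by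
  obtain ⟨C, hC, h1⟩ := h
  refine ⟨C, hC, fun S c ρ U hS hρ hU hUS => ?_⟩
  obtain ⟨K, s, a1, a2, a3, a4, a5⟩ := h1 S c ρ U hS hρ hU hUS
  refine ⟨K, s, ⟨fun n => (a1 n).smooth, a3, ?_, a4, a5⟩, a1, a2⟩
  intro n x hx l hl
  by_cases hxK : x ∈ K n
  · have h2 := (a2 n ((a1 n).mapsTo hxK)).2
    exact (h2 l hl).le
  · rw [(a1 n).supp x hxK]; exact hx l hl

theorem pr_univ (c : V) : pr Finset.univ c = id := by
  funext x l; simp [pr]

theorem pr_erase (c : V) (k : Fin 3) (x : V) :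
    pr (Finset.univ.erase k) c x = Function.update x k (c k) := by
  funext l
  by_cases h : l = k
  · subst h; simp [pr]
  · simp [pr, h]

theorem sum_sign (f : ℝ → ℝ≥0∞) : ∑ σ ∈ ({1, -1} : Finset ℝ), f σ = f 1 + f (-1) := by
  rw [Finset.sum_pair (by norm_num)]

theorem Cle {p : ℝ} (Cp : ℝ≥0∞) : Cp ≤ ENNReal.ofReal (1 + 3 ^ p) * Cp := by
  have h : (1 : ℝ≥0∞) ≤ ENNReal.ofReal (1 + 3 ^ p) := by
    rw [← ENNReal.ofReal_one]
    refine ENNReal.ofReal_le_ofReal ?_
    have : (0 : ℝ) ≤ 3 ^ p := by positivity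
    linarith
  calc Cp = 1 * Cp := (one_mul _).symm
    _ ≤ _ := by gcongr

theorem measurable_upd (i : Fin 3) (b : ℝ) : Measurable fun x : V => Function.update x i b :=
  (continuous_id.update i continuous_const).measurable

theorem lint_dE {p : ℝ} (μ : Measure V) (T : Finset (Fin 3)) (G : V → V) {φ : V → V}
    (hφ : Measurable φ) :
    ∫⁻ x, ∑ j ∈ T, dE p G j (φ x) ∂μ = ∑ j ∈ T, ∫⁻ x, dE p G j (φ x) ∂μ :=
  lintegral_finsetSum' _ fun j _ => ((measurable_dE G j).comp hφ).aemeasurable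

theorem specCube_of (hR : SpecRad) (hP : SpecPolar) : SpecCube := by
  intro p hp hp2
  obtain ⟨Cp, hCp, hpol⟩ := polarIneq_of hP hp hp2
  obtain ⟨CR, hCR, hrad⟩ := exists_radSeq hR
  refine ⟨ENNReal.ofReal (1 + 3 ^ p) * Cp, ENNReal.mul_ne_top ENNReal.ofReal_ne_top hCp, ?_⟩
  intro c ρ W G Z ε hρ hW hcW hG hZ hZ1 hε
  obtain ⟨K, s, h1, h2, h3⟩ := hrad Finset.univ c ρ univ Finset.univ_nonempty hρ isOpen_univ
    (fun _ _ _ => mem_univ _)
  have hpol' := hpol Finset.univ c ρ (by simp) hρ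
  have hsub : face Finset.univ c ρ ⊆ W := fun x hx => hcW fun l => hx.2 l (Finset.mem_univ l)
  have e1 := energy_le h1 hρ hCR hp hW hG hsub Finset.univ_nonempty hCp hpol' hε
  have e2 := zero_le' h1 hρ hp hZ hZ1 Finset.univ_nonempty hpol' hε
  obtain ⟨n, hn1, hn2⟩ := (e1.and e2).exists
  refine ⟨K n, s n, h2 n, ?_, ?_, ?_⟩
  · intro x hx l
    exact (h3 n hx).2 l (Finset.mem_univ l)
  · simp only [pr_univ, id] at hn1
    rw [lint_dE _ _ _ measurable_id'] at hn1
    refine hn1.trans_eq ?_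
    have hm : ∀ (i : Fin 3) (b : ℝ), ∫⁻ x in cube c ρ, dens p G Finset.univ c i
        (Function.update x i b) =
        ∑ j ∈ Finset.univ.erase i, ∫⁻ x in cube c ρ, dE p G j (Function.update x i b) := by
      intro i b
      simp only [dens, pr_univ, id]
      exact lint_dE _ _ _ (measurable_upd i b)
    simp only [sum_sign, one_mul, neg_one_mul, ← sub_eq_add_neg, hm]
  · simp only [pr_univ, id] at hn2
    refine hn2.trans ?_
    have : ∀ i, ((∫⁻ x in cube c ρ, Z (Function.update x i (c i + ρ))) +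
        (∫⁻ x in cube c ρ, Z (Function.update x i (c i - ρ)))) =
        ∑ σ ∈ ({1, -1} : Finset ℝ), ∫⁻ x in cube c ρ, Z (Function.update x i (c i + σ * ρ)) := by
      intro i
      rw [sum_sign, one_mul, neg_one_mul, ← sub_eq_add_neg]
    simp only [this]
    gcongr
    exact Cle Cp

theorem specFace_of (hR : SpecRad) (hP : SpecPolar) : SpecFace := by
  intro p hp hp2
  obtain ⟨Cp, hCp, hpol⟩ := polarIneq_of hP hp hp2
  obtain ⟨CR, hCR, hrad⟩ := exists_radSeq hR
  refine ⟨ENNReal.ofReal (1 + 3 ^ p) * Cp, ENNReal.mul_ne_top ENNReal.ofReal_ne_top hCp, ?_⟩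
  intro a k ρ U W G Z ε hρ hU hUf hW hWf hG hZ hZ1 hε
  set S := (Finset.univ : Finset (Fin 3)).erase k with hS
  have hmem : ∀ l, l ∈ S ↔ l ≠ k := fun l => by simp [hS]
  have hcard : 2 ≤ S.card := by
    rw [hS, Finset.card_erase_of_mem (Finset.mem_univ k)]; simp
  have hSne : S.Nonempty := Finset.card_pos.1 (by omega)
  obtain ⟨K, s, h1, h2, h3⟩ := hrad S a ρ U hSne hρ hU
    (fun x hx hx' => hUf x (hx k (by simp [hS])) fun l hl => hx' l ((hmem l).2 hl))
  have hpol' := hpol S a ρ hcard hρ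
  have hsub : face S a ρ ⊆ W := fun x hx =>
    hWf x (hx.1 k (by simp [hS])) fun l hl => hx.2 l ((hmem l).2 hl)
  have e1 := energy_le h1 hρ hCR hp hW hG hsub hSne hCp hpol' hε
  have e2 := zero_le' h1 hρ hp hZ hZ1 hSne hpol' hε
  obtain ⟨n, hn1, hn2⟩ := (e1.and e2).exists
  have hupd : ∀ i ∈ S, ∀ (b : ℝ) (x : V), pr S a (Function.update x i b) =
      Function.update (Function.update x k (a k)) i b := by
    intro i hi b x
    rw [hS, pr_erase, Function.update_comm ((hmem i).1 hi)]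
  refine ⟨K n, s n, h2 n, ?_, ?_, ?_, ?_⟩
  · intro x hx
    exact ⟨(h3 n hx).1, fun l hl => (h3 n hx).2 l ((hmem l).2 hl)⟩
  · intro x
    exact h1.fix n x k (by simp [hS])
  · have hpr : ∀ x, pr S a x = Function.update x k (a k) := fun x => by rw [hS, pr_erase]
    have l1 : faceE p (G ∘ s n) a k ρ = ∫⁻ x in cube a ρ, ∑ j ∈ S, dE p (G ∘ s n) j (pr S a x) := by
      simp only [hpr]
      exact (lint_dE _ _ _ (measurable_upd k (a k))).symm
    rw [l1]
    refine hn1.trans_eq ?_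
    congr 2
    unfold edgesE
    refine Finset.sum_congr rfl fun i hi => ?_
    have hm : ∀ b : ℝ, ∫⁻ x in cube a ρ, dens p G S a i (Function.update x i b) =
        ∑ j ∈ S.erase i, ∫⁻ x in cube a ρ,
          dE p G j (Function.update (Function.update x k (a k)) i b) := by
      intro b
      simp only [dens, hupd i hi]
      exact lint_dE _ _ _ ((measurable_upd i b).comp (measurable_upd k (a k)))
    rw [hm, hm, ← Finset.sum_add_distrib]
    refine Finset.sum_congr rfl fun j _ => ?_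
    rw [sum_sign, one_mul, neg_one_mul, ← sub_eq_add_neg]
  · have hpr : ∀ x, pr S a x = Function.update x k (a k) := fun x => by rw [hS, pr_erase]
    simp only [hpr] at hn2
    refine hn2.trans ?_
    have : ∀ i ∈ S, ((∫⁻ x in cube a ρ, Z (Function.update (Function.update x i (a i + ρ)) k (a k))) +
        (∫⁻ x in cube a ρ, Z (Function.update (Function.update x i (a i - ρ)) k (a k)))) =
        ∑ σ ∈ ({1, -1} : Finset ℝ), ∫⁻ x in cube a ρ,
          Z (Function.update (Function.update x k (a k)) i (a i + σ * ρ)) := by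
      intro i hi
      have hik : i ≠ k := (hmem i).1 hi
      rw [sum_sign, one_mul, neg_one_mul, ← sub_eq_add_neg]
      simp only [Function.update_comm hik]
    rw [Finset.sum_congr rfl this]
    gcongr
    exact Cle Cp

/-- **(SQ2)** -/
theorem specPolar : SpecPolar := specPolar'

/-- **(SQ4)** -/
theorem specCube : SpecCube := specCube_of specRad specPolar

/-- **(SQ3)** -/
theorem specFace : SpecFace := specFace_of specRad specPolar

end Vale.Agent.P073.SQ
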