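import Vale.Agent.P073.SQ.Spec

/-!
# Block SQ: the gauge `(∑_{i ∈ S} x_i^(2(n+1)))^(1/(2(n+1)))`
-/

namespace Vale.Agent.P073.SQ

open MeasureTheory Set Filter Topology Vale.Agent.P073.St
open scoped ContDiff ENNReal

/-- the polynomial -/
noncomputable def gq (S : Finset (Fin 3)) (n : ℕ) (x : V) : ℝ := ∑ i ∈ S, x i ^ (2 * (n + 1))

/-- the gauge -/
noncomputable def gg (S : Finset (Fin 3)) (n : ℕ) (x : V) : ℝ :=
  (gq S n x) ^ ((1 : ℝ) / ((2 * (n + 1) : ℕ) : ℝ))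

variable (S : Finset (Fin 3)) (n : ℕ)

theorem gq_nonneg (x : V) : 0 ≤ gq S n x :=
  Finset.sum_nonneg fun i _ => by rw [pow_mul]; positivity

theorem gg_nonneg (x : V) : 0 ≤ gg S n x := Real.rpow_nonneg (gq_nonneg S n x) _

theorem gg_pow (x : V) : gg S n x ^ (2 * (n + 1)) = gq S n x := by
  unfold gg
  rw [← Real.rpow_natCast, ← Real.rpow_mul (gq_nonneg S n x), one_div,
    inv_mul_cancel₀ (by positivity), Real.rpow_one]

theorem gq_contDiff : ContDiff ℝ ∞ (gq S n) := by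
  unfold gq
  fun_prop

theorem gg_continuous : Continuous (gg S n) := by
  unfold gg
  exact (gq_contDiff S n).continuous.rpow_const fun x => Or.inr (by positivity)

variable {S n}

theorem abs_le_gg {x : V} {i : Fin 3} (hi : i ∈ S) : |x i| ≤ gg S n x := by
  have h1 : |x i| ^ (2 * (n + 1)) ≤ gg S n x ^ (2 * (n + 1)) := by
    rw [gg_pow, gq]
    have h2 : |x i| ^ (2 * (n + 1)) = x i ^ (2 * (n + 1)) := by
      rw [pow_mul, pow_mul, sq_abs]
    rw [h2]
    exact Finset.single_le_sum (f := fun i => x i ^ (2 * (n + 1)))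
      (fun j _ => by show 0 ≤ x j ^ (2 * (n + 1)); rw [pow_mul]; positivity) hi
  exact le_of_pow_le_pow_left₀ (by omega) (gg_nonneg S n x) h1

theorem gq_pos_of {x : V} (h : gg S n x ≠ 0) : 0 < gq S n x := by
  rw [← gg_pow]
  have := lt_of_le_of_ne (gg_nonneg S n x) h.symm
  positivity

theorem gg_eq_zero {x : V} (h : gg S n x = 0) {i : Fin 3} (hi : i ∈ S) : x i = 0 := by
  have := abs_le_gg (n := n) (x := x) hi
  rw [h] at this
  exact abs_nonpos_iff.1 this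

theorem gg_le_of {x : V} {a : ℝ} (ha : 0 ≤ a) (h : ∀ i ∈ S, |x i| ≤ a) :
    gg S n x ≤ (3 : ℝ) ^ ((1 : ℝ) / ((2 * (n + 1) : ℕ) : ℝ)) * a := by
  have h1 : gq S n x ≤ 3 * a ^ (2 * (n + 1)) := by
    unfold gq
    calc ∑ i ∈ S, x i ^ (2 * (n + 1)) ≤ ∑ i ∈ S, a ^ (2 * (n + 1)) := by
          refine Finset.sum_le_sum fun i hi => ?_
          have h2 : |x i| ^ (2 * (n + 1)) = x i ^ (2 * (n + 1)) := by
            rw [pow_mul, pow_mul, sq_abs]
          rw [← h2]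
          exact pow_le_pow_left₀ (abs_nonneg _) (h i hi) _
      _ = S.card * a ^ (2 * (n + 1)) := by simp
      _ ≤ 3 * a ^ (2 * (n + 1)) := by
          have : (S.card : ℝ) ≤ 3 := by
            have := S.card_le_univ
            simp at this
            exact_mod_cast this
          gcongr
  unfold gg
  calc gq S n x ^ ((1 : ℝ) / ((2 * (n + 1) : ℕ) : ℝ))
      ≤ (3 * a ^ (2 * (n + 1))) ^ ((1 : ℝ) / ((2 * (n + 1) : ℕ) : ℝ)) :=
        Real.rpow_le_rpow (gq_nonneg S n x) h1 (by positivity)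
    _ = _ := by
        rw [Real.mul_rpow (by norm_num) (by positivity), ← Real.rpow_natCast a,
          ← Real.rpow_mul ha, mul_one_div_cancel (by positivity), Real.rpow_one]

theorem gg_le_three {x : V} (h : ∀ i ∈ S, |x i| ≤ 1) : gg S n x ≤ 3 := by
  refine (gg_le_of zero_le_one h).trans ?_
  rw [mul_one]
  calc (3 : ℝ) ^ ((1 : ℝ) / ((2 * (n + 1) : ℕ) : ℝ)) ≤ (3 : ℝ) ^ (1 : ℝ) := by
        apply Real.rpow_le_rpow_of_exponent_le (by norm_num)
        rw [div_le_one (by positivity)]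
        have : 1 ≤ 2 * (n + 1) := by omega
        exact_mod_cast this
    _ = 3 := by simp

/-- homogeneity -/
theorem gg_smul {x y : V} {t : ℝ} (ht : 0 ≤ t) (h : ∀ i ∈ S, y i = t * x i) :
    gg S n y = t * gg S n x := by
  have h1 : gg S n y ^ (2 * (n + 1)) = (t * gg S n x) ^ (2 * (n + 1)) := by
    rw [mul_pow, gg_pow, gg_pow, gq, gq, Finset.mul_sum]
    refine Finset.sum_congr rfl fun i hi => ?_
    rw [h i hi, mul_pow]
  exact (pow_left_inj₀ (gg_nonneg S n y) (mul_nonneg ht (gg_nonneg S n x)) (by omega)).1 h1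

theorem gg_contDiffAt {x : V} (h : gg S n x ≠ 0) : ContDiffAt ℝ ∞ (gg S n) x := by
  unfold gg
  exact (gq_contDiff S n).contDiffAt.rpow_const_of_ne (gq_pos_of h).ne'

/-- derivative of the gauge -/
theorem gg_hasFDerivAt {x : V} (h : gg S n x ≠ 0) :
    HasFDerivAt (gg S n) (∑ i ∈ S, ((x i / gg S n x) ^ (2 * n + 1)) •
      (ContinuousLinearMap.proj i : V →L[ℝ] ℝ)) x := by
  have hq : HasFDerivAt (gq S n) (∑ i ∈ S, (((2 * (n + 1) : ℕ) : ℝ) * x i ^ (2 * n + 1)) •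
      (ContinuousLinearMap.proj i : V →L[ℝ] ℝ)) x := by
    unfold gq
    refine HasFDerivAt.fun_sum fun i _ => ?_
    have h1 : HasFDerivAt (fun y : V => y i) (ContinuousLinearMap.proj i : V →L[ℝ] ℝ) x :=
      (ContinuousLinearMap.proj i : V →L[ℝ] ℝ).hasFDerivAt
    have h2 := h1.pow (2 * (n + 1))
    refine h2.congr_fderiv ?_
    have : 2 * (n + 1) - 1 = 2 * n + 1 := by omega
    rw [this]
    simp
  have h3 := hq.rpow_const (p := (1 : ℝ) / ((2 * (n + 1) : ℕ) : ℝ)) (Or.inl (gq_pos_of h).ne')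
  refine h3.congr_fderiv ?_
  have hg : 0 < gg S n x := lt_of_le_of_ne (gg_nonneg S n x) h.symm
  have h4 : gq S n x ^ ((1 : ℝ) / ((2 * (n + 1) : ℕ) : ℝ) - 1) =
      gg S n x / gg S n x ^ (2 * (n + 1)) := by
    rw [Real.rpow_sub_one (gq_pos_of h).ne', gg_pow]
    rfl
  rw [h4, Finset.smul_sum]
  refine Finset.sum_congr rfl fun i _ => ?_
  rw [smul_smul]
  congr 1
  have h5 : 2 * (n + 1) = (2 * n + 1) + 1 := by ring
  have h6 : ((2 * (n + 1) : ℕ) : ℝ) ≠ 0 := by positivity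
  rw [div_pow]
  rw [show gg S n x ^ (2 * (n + 1)) = gg S n x ^ (2 * n + 1) * gg S n x by rw [h5, pow_succ]]
  field_simp

/-- Euler's identity, and the sum of the powers -/
theorem gg_euler {x : V} (h : gg S n x ≠ 0) : ∑ i ∈ S, (x i / gg S n x) ^ (2 * n + 1) * x i =
    gg S n x := by
  have h1 : ∑ i ∈ S, (x i / gg S n x) ^ (2 * n + 1) * x i =
      gq S n x / gg S n x ^ (2 * n + 1) := by
    rw [gq, Finset.sum_div]
    refine Finset.sum_congr rfl fun i _ => ?_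
    rw [div_pow, show 2 * (n + 1) = (2 * n + 1) + 1 by ring, pow_succ]
    ring
  rw [h1, ← gg_pow, show 2 * (n + 1) = (2 * n + 1) + 1 by ring, pow_succ]
  field_simp

theorem gg_sum_pow {x : V} (h : gg S n x ≠ 0) :
    ∑ i ∈ S, (x i / gg S n x) ^ (2 * (n + 1)) = 1 := by
  simp_rw [div_pow]
  rw [← Finset.sum_div]
  change gq S n x / _ = 1
  rw [gg_pow, div_self (gq_pos_of h).ne']

/-! ### limits -/

variable {x : V} {i : Fin 3}

theorem tendsto_gg_le (hi : i ∈ S) (hd : ∀ j ∈ S, |x j| ≤ |x i|) :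
    Tendsto (fun n => gg S n x) atTop (𝓝 |x i|) := by
  have hup : ∀ n, gg S n x ≤ (3 : ℝ) ^ ((1 : ℝ) / ((2 * (n + 1) : ℕ) : ℝ)) * |x i| :=
    fun n => gg_le_of (abs_nonneg _) hd
  have h1 : Tendsto (fun n : ℕ => (1 : ℝ) / ((2 * (n + 1) : ℕ) : ℝ)) atTop (𝓝 0) := by
    have h2 : Tendsto (fun n : ℕ => (2 * (n + 1) : ℕ)) atTop atTop :=
      tendsto_atTop_mono (fun n => by show n ≤ 2 * (n + 1); omega) tendsto_id
    have h3 : Tendsto (fun n : ℕ => (((2 * (n + 1) : ℕ) : ℝ))) atTop atTop :=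
      tendsto_natCast_atTop_atTop.comp h2
    simp_rw [one_div]
    exact h3.inv_tendsto_atTop
  have h2 : Tendsto (fun n : ℕ => (3 : ℝ) ^ ((1 : ℝ) / ((2 * (n + 1) : ℕ) : ℝ)) * |x i|) atTop
      (𝓝 |x i|) := by
    have h3 : Tendsto (fun n : ℕ => (3 : ℝ) ^ ((1 : ℝ) / ((2 * (n + 1) : ℕ) : ℝ))) atTop
        (𝓝 ((3 : ℝ) ^ (0 : ℝ))) :=
      (Real.continuousAt_const_rpow (by norm_num : (3 : ℝ) ≠ 0)).tendsto.comp h1
    rw [Real.rpow_zero] at h3
    simpa using h3.mul_const |x i|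
  exact tendsto_of_tendsto_of_tendsto_of_le_of_le tendsto_const_nhds h2
    (fun n => abs_le_gg hi) hup

theorem tendsto_gg (hi : i ∈ S) (hd : ∀ j ∈ S, j ≠ i → |x j| < |x i|) :
    Tendsto (fun n => gg S n x) atTop (𝓝 |x i|) := by
  refine tendsto_gg_le hi fun j hj => ?_
  rcases eq_or_ne j i with rfl | hji
  · exact le_rfl
  · exact (hd j hj hji).le

theorem tendsto_ratio_ne (hi : i ∈ S) (h0 : 0 < |x i|) {j : Fin 3} (hj : |x j| < |x i|)
    {k : ℕ → ℕ} (hk : ∀ n, n ≤ k n) :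
    Tendsto (fun n => (x j / gg S n x) ^ (k n)) atTop (𝓝 0) := by
  have h1 : Tendsto (fun n : ℕ => (|x j| / |x i|) ^ n) atTop (𝓝 0) :=
    tendsto_pow_atTop_nhds_zero_of_lt_one (by positivity) ((div_lt_one h0).2 hj)
  refine squeeze_zero_norm (fun n => ?_) h1
  rw [norm_pow, Real.norm_eq_abs, abs_div, abs_of_nonneg (gg_nonneg S n x)]
  have h2 : |x j| / gg S n x ≤ |x j| / |x i| :=
    div_le_div_of_nonneg_left (abs_nonneg _) h0 (abs_le_gg hi)
  have h3 : 0 ≤ |x j| / gg S n x := div_nonneg (abs_nonneg _) (gg_nonneg S n x)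
  have h4 : |x j| / |x i| ≤ 1 := ((div_lt_one h0).2 hj).le
  calc (|x j| / gg S n x) ^ (k n) ≤ (|x j| / |x i|) ^ (k n) := pow_le_pow_left₀ h3 h2 _
    _ ≤ (|x j| / |x i|) ^ n := pow_le_pow_of_le_one (by positivity) h4 (hk n)

theorem tendsto_ratio_eq (hi : i ∈ S) (hd : ∀ j ∈ S, j ≠ i → |x j| < |x i|) (h0 : 0 < |x i|) :
    Tendsto (fun n => (x i / gg S n x) ^ (2 * n + 1)) atTop (𝓝 (|x i| / x i)) := by
  have hg : ∀ n, 0 < gg S n x := fun n => h0.trans_le (abs_le_gg hi)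
  have hx : x i ≠ 0 := by
    intro h; rw [h] at h0; simp at h0
  have h1 : Tendsto (fun n => (x i / gg S n x) ^ (2 * (n + 1))) atTop (𝓝 1) := by
    have h2 : ∀ n, (x i / gg S n x) ^ (2 * (n + 1)) =
        1 - ∑ j ∈ S.erase i, (x j / gg S n x) ^ (2 * (n + 1)) := by
      intro n
      rw [← gg_sum_pow (hg n).ne', ← Finset.add_sum_erase S _ hi]
      ring
    simp_rw [h2]
    have h3 : Tendsto (fun n => ∑ j ∈ S.erase i, (x j / gg S n x) ^ (2 * (n + 1))) atTop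
        (𝓝 (∑ j ∈ S.erase i, 0)) := by
      refine tendsto_finsetSum _ fun j hj => ?_
      rw [Finset.mem_erase] at hj
      exact tendsto_ratio_ne hi h0 (hd j hj.2 hj.1) (fun n => by omega)
    simpa using h3.const_sub 1
  have h4 : Tendsto (fun n => gg S n x / x i) atTop (𝓝 (|x i| / x i)) :=
    (tendsto_gg hi hd).div_const _
  have h5 := h1.mul h4
  rw [one_mul] at h5
  refine h5.congr fun n => ?_
  have := (hg n).ne'
  rw [show 2 * (n + 1) = (2 * n + 1) + 1 by ring, pow_succ]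
  field_simp

end Vale.Agent.P073.SQ
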