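import Vale.Agent.P073.SQ.RadProfile
import Vale.Agent.P073.SQ.RadGauge
import Vale.Agent.P073.SQ.RadDiffeo

/-!
# Block SQ: the normalised radial diffeomorphism
-/

namespace Vale.Agent.P073.SQ

open MeasureTheory Set Filter Topology Vale.Agent.P073.St
open scoped ContDiff ENNReal

/-- the properties of the radial profile -/
structure Prof (C ε : ℝ) (Φ : ℝ → ℝ) : Prop where
  smooth : ContDiff ℝ ∞ Φ
  const : ∃ A u0 : ℝ, 0 < u0 ∧ ∀ u, u ≤ u0 → Φ u = A
  one : ∀ u, 1 - ε ≤ u → Φ u = 1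
  pos : ∀ u, 0 < Φ u
  mono : ∀ u, 0 ≤ u → 0 < Φ u + u * deriv Φ u
  le_one : ∀ u, 0 ≤ u → u ≤ 1 → u * Φ u ≤ 1
  bdd : ∀ u, 0 ≤ u → u ≤ 1 → u * (Φ u + u * deriv Φ u) ≤ C
  mid : ∀ u, ε < u → u < 1 - 2 * ε →
    u * Φ u = (1 - ε) * (1 - 2 * ε) + ε * u ∧ Φ u + u * deriv Φ u = ε

theorem exists_prof : ∃ C : ℝ, 0 < C ∧ ∀ ε : ℝ, 0 < ε → ε ≤ 1 / 4 →
    ∃ Φ : ℝ → ℝ, Prof C ε Φ := by
  obtain ⟨C, hC, h⟩ := exists_profile
  refine ⟨C, hC, fun ε h1 h2 => ?_⟩
  obtain ⟨Φ, a1, a2, a3, a4, a5, a6, a7, a8⟩ := h ε h1 h2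
  exact ⟨Φ, a1, a2, a3, a4, a5, a6, a7, a8⟩

/-- the projection on the coordinates of `S` -/
noncomputable def PS (S : Finset (Fin 3)) : V →L[ℝ] V :=
  ContinuousLinearMap.pi fun l => if l ∈ S then ContinuousLinearMap.proj l else 0

theorem PS_apply (S : Finset (Fin 3)) (x : V) (l : Fin 3) :
    PS S x l = if l ∈ S then x l else 0 := by
  unfold PS
  rw [ContinuousLinearMap.pi_apply]
  split_ifs <;> simp

/-- the cut-off in the coordinates not in `S` -/
noncomputable def cut (S : Finset (Fin 3)) (δ : ℝ) (x : V) : ℝ :=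
  Real.smoothTransition (1 - ∑ l ∈ Sᶜ, (x l / δ) ^ 2)

/-- the scalar factor -/
noncomputable def hh (S : Finset (Fin 3)) (n : ℕ) (Φ : ℝ → ℝ) (δ : ℝ) (x : V) : ℝ :=
  cut S δ x * (Φ (gg S n x) - 1)

/-- the map -/
noncomputable def sm (S : Finset (Fin 3)) (n : ℕ) (Φ : ℝ → ℝ) (δ : ℝ) (x : V) : V :=
  x + hh S n Φ δ x • PS S x

variable {S : Finset (Fin 3)} {n : ℕ} {Φ : ℝ → ℝ} {C ε δ : ℝ}

theorem cut_contDiff : ContDiff ℝ ∞ (cut S δ) := by
  have h : ContDiff ℝ ∞ fun x : V => 1 - ∑ l ∈ Sᶜ, (x l / δ) ^ 2 := by fun_prop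
  exact (Real.smoothTransition.contDiff (n := ⊤)).comp h

theorem cut_eq_one {x : V} (hx : ∀ l, l ∉ S → x l = 0) : cut S δ x = 1 := by
  unfold cut
  rw [Finset.sum_eq_zero (fun l hl => by rw [hx l (by simpa using hl)]; simp)]
  simp

theorem cut_eq_zero (hδ : 0 < δ) {x : V} {l : Fin 3} (hl : l ∉ S) (hx : δ < |x l|) :
    cut S δ x = 0 := by
  unfold cut
  apply Real.smoothTransition.zero_of_nonpos
  have h1 : 1 ≤ (x l / δ) ^ 2 := by
    rw [div_pow, one_le_div (by positivity), ← sq_abs (x l)]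
    exact pow_le_pow_left₀ hδ.le hx.le 2
  have h2 : (x l / δ) ^ 2 ≤ ∑ l ∈ Sᶜ, (x l / δ) ^ 2 :=
    Finset.single_le_sum (f := fun l => (x l / δ) ^ 2) (fun _ _ => sq_nonneg _) (by simpa using hl)
  linarith

theorem cut_congr {x y : V} (h : ∀ l, l ∉ S → x l = y l) : cut S δ x = cut S δ y := by
  unfold cut
  congr 2
  exact Finset.sum_congr rfl fun l hl => by rw [h l (by simpa using hl)]

theorem cut_fderiv {x v : V} (h : ∀ l, l ∉ S → v l = 0) : fderiv ℝ (cut S δ) x v = 0 := by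
  have h1 : HasFDerivAt (cut S δ) (fderiv ℝ (cut S δ) x) x :=
    (cut_contDiff.differentiable (by simp) x).hasFDerivAt
  have h2 : HasDerivAt (fun t : ℝ => x + t • v) v 0 := by
    have := ((hasDerivAt_id (0 : ℝ)).smul_const v).const_add x
    simpa using this
  have h3 : HasDerivAt (fun t : ℝ => cut S δ (x + t • v)) (fderiv ℝ (cut S δ) x v) 0 := by
    have h1' : HasFDerivAt (cut S δ) (fderiv ℝ (cut S δ) x) (x + (0 : ℝ) • v) := by simpa using h1
    exact h1'.comp_hasDerivAt (0 : ℝ) h2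
  have h4 : (fun t : ℝ => cut S δ (x + t • v)) = fun _ => cut S δ x := by
    funext t
    exact cut_congr fun l hl => by simp [h l hl]
  rw [h4] at h3
  exact h3.unique (hasDerivAt_const _ _)

theorem phi_gg_contDiff (hΦ : Prof C ε Φ) : ContDiff ℝ ∞ fun x : V => Φ (gg S n x) := by
  rw [contDiff_iff_contDiffAt]
  intro x
  by_cases h : gg S n x = 0
  · obtain ⟨A, u0, hu0, hA⟩ := hΦ.const
    have : (fun x : V => Φ (gg S n x)) =ᶠ[𝓝 x] fun _ => A := by
      have h1 : ∀ᶠ y in 𝓝 x, gg S n y < u0 :=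
        (gg_continuous S n).continuousAt.eventually_lt_const (by rw [h]; exact hu0)
      filter_upwards [h1] with y hy using hA _ hy.le
    exact contDiffAt_const.congr_of_eventuallyEq this
  · exact (hΦ.smooth.contDiffAt).comp x (gg_contDiffAt h)

theorem hh_contDiff (hΦ : Prof C ε Φ) : ContDiff ℝ ∞ (hh S n Φ δ) := by
  unfold hh
  exact cut_contDiff.mul ((phi_gg_contDiff hΦ).sub contDiff_const)

theorem sm_contDiff (hΦ : Prof C ε Φ) : ContDiff ℝ ∞ (sm S n Φ δ) := by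
  unfold sm
  exact contDiff_id.add ((hh_contDiff hΦ).smul (PS S).contDiff)

theorem sm_fderiv (hΦ : Prof C ε Φ) (x v : V) : fderiv ℝ (sm S n Φ δ) x v =
    v + (hh S n Φ δ x • PS S v + fderiv ℝ (hh S n Φ δ) x v • PS S x) := by
  have h1 : HasFDerivAt (hh S n Φ δ) (fderiv ℝ (hh S n Φ δ) x) x :=
    ((hh_contDiff hΦ).differentiable (by simp) x).hasFDerivAt
  have h2 : HasFDerivAt (sm S n Φ δ) (ContinuousLinearMap.id ℝ V +
      (hh S n Φ δ x • PS S + (fderiv ℝ (hh S n Φ δ) x).smulRight (PS S x))) x := by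
    unfold sm
    exact (hasFDerivAt_id x).add (h1.smul (PS S).hasFDerivAt)
  rw [h2.fderiv]
  simp

theorem hh_fderiv (hΦ : Prof C ε Φ) {x v : V} (hg : gg S n x ≠ 0) (hv : ∀ l, l ∉ S → v l = 0) :
    fderiv ℝ (hh S n Φ δ) x v =
      cut S δ x * (deriv Φ (gg S n x) * ∑ i ∈ S, (x i / gg S n x) ^ (2 * n + 1) * v i) := by
  have h1 : HasFDerivAt (cut S δ) (fderiv ℝ (cut S δ) x) x :=
    (cut_contDiff.differentiable (by simp) x).hasFDerivAt
  have h2 : HasDerivAt Φ (deriv Φ (gg S n x)) (gg S n x) :=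
    (hΦ.smooth.differentiable (by simp) _).hasDerivAt
  have h3 := (h2.comp_hasFDerivAt x (gg_hasFDerivAt hg)).sub_const 1
  have h4 : HasFDerivAt (hh S n Φ δ) _ x := h1.mul h3
  rw [h4.fderiv]
  simp [cut_fderiv hv]

theorem sm_apply (x : V) (l : Fin 3) :
    sm S n Φ δ x l = if l ∈ S then (1 + hh S n Φ δ x) * x l else x l := by
  unfold sm
  rw [Pi.add_apply, Pi.smul_apply, PS_apply]
  split_ifs <;> simp
  ring

theorem cut_nonneg (x : V) : 0 ≤ cut S δ x := Real.smoothTransition.nonneg _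
theorem cut_le_one (x : V) : cut S δ x ≤ 1 := Real.smoothTransition.le_one _

theorem one_add_pos {t b : ℝ} (ht0 : 0 ≤ t) (ht1 : t ≤ 1) (hb : 0 < b) : 0 < 1 + t * (b - 1) := by
  rcases eq_or_lt_of_le ht1 with rfl | h
  · linarith
  · nlinarith [mul_nonneg ht0 hb.le]

theorem one_add_hh_pos (hΦ : Prof C ε Φ) (x : V) : 0 < 1 + hh S n Φ δ x :=
  one_add_pos (cut_nonneg x) (cut_le_one x) (hΦ.pos _)

/-- the radial function is strictly increasing -/
theorem psi_strictMono (hΦ : Prof C ε Φ) {t : ℝ} (ht0 : 0 ≤ t) (ht1 : t ≤ 1) :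
    StrictMonoOn (fun u : ℝ => (1 + t * (Φ u - 1)) * u) (Ici 0) := by
  have hd : ∀ u, HasDerivAt (fun u : ℝ => (1 + t * (Φ u - 1)) * u)
      (t * deriv Φ u * u + (1 + t * (Φ u - 1)) * 1) u := by
    intro u
    have h2 : HasDerivAt Φ (deriv Φ u) u := (hΦ.smooth.differentiable (by simp) _).hasDerivAt
    exact (((h2.sub_const 1).const_mul t).const_add 1).mul (hasDerivAt_id u)
  apply strictMonoOn_of_deriv_pos (convex_Ici 0)
  · exact fun u _ => (hd u).continuousAt.continuousWithinAt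
  · intro u hu
    rw [interior_Ici] at hu
    rw [(hd u).deriv]
    have h1 := one_add_pos ht0 ht1 (hΦ.mono u (le_of_lt hu))
    linarith

theorem gg_sm (hΦ : Prof C ε Φ) (x : V) :
    gg S n (sm S n Φ δ x) = (1 + hh S n Φ δ x) * gg S n x :=
  gg_smul (one_add_hh_pos hΦ x).le fun i hi => by rw [sm_apply, if_pos hi]

theorem sm_injective (hΦ : Prof C ε Φ) : Function.Injective (sm S n Φ δ) := by
  intro x y hxy
  have h1 : ∀ l, l ∉ S → x l = y l := by
    intro l hl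
    have := congrFun hxy l
    rwa [sm_apply, sm_apply, if_neg hl, if_neg hl] at this
  have hc : cut S δ x = cut S δ y := cut_congr h1
  have h2 : gg S n x = gg S n y := by
    have h3 : gg S n (sm S n Φ δ x) = gg S n (sm S n Φ δ y) := by rw [hxy]
    rw [gg_sm hΦ, gg_sm hΦ, hh, hh, ← hc] at h3
    exact (psi_strictMono hΦ (cut_nonneg x) (cut_le_one x)).injOn (gg_nonneg S n x)
      (gg_nonneg S n y) h3
  have h4 : hh S n Φ δ x = hh S n Φ δ y := by rw [hh, hh, hc, h2]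
  funext l
  by_cases hl : l ∈ S
  · have := congrFun hxy l
    rw [sm_apply, sm_apply, if_pos hl, if_pos hl, ← h4] at this
    exact mul_left_cancel₀ (one_add_hh_pos hΦ x).ne' this
  · exact h1 l hl

theorem sm_fderiv_injective (hΦ : Prof C ε Φ) (x v : V)
    (h : fderiv ℝ (sm S n Φ δ) x v = 0) : v = 0 := by
  rw [sm_fderiv hΦ] at h
  have h1 : ∀ l, l ∉ S → v l = 0 := by
    intro l hl
    have := congrFun h l
    simpa [PS_apply, hl] using this
  have h2 : ∀ l ∈ S, (1 + hh S n Φ δ x) * v l + fderiv ℝ (hh S n Φ δ) x v * x l = 0 := by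
    intro l hl
    have := congrFun h l
    simp only [Pi.add_apply, Pi.smul_apply, PS_apply, hl, if_true, smul_eq_mul,
      Pi.zero_apply] at this
    linarith
  have h3 : ∀ l ∈ S, fderiv ℝ (hh S n Φ δ) x v * x l = 0 := by
    by_cases hg : gg S n x = 0
    · intro l hl
      rw [gg_eq_zero hg hl, mul_zero]
    · obtain ⟨μ, hμ⟩ : ∃ μ : ℝ, μ = ∑ i ∈ S, (x i / gg S n x) ^ (2 * n + 1) * v i := ⟨_, rfl⟩
      have h4 := hh_fderiv (δ := δ) hΦ hg h1
      rw [← hμ] at h4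
      have h5 : ∑ l ∈ S, (x l / gg S n x) ^ (2 * n + 1) *
          ((1 + hh S n Φ δ x) * v l + fderiv ℝ (hh S n Φ δ) x v * x l) = 0 :=
        Finset.sum_eq_zero fun l hl => by rw [h2 l hl, mul_zero]
      have h6 : ∑ l ∈ S, (x l / gg S n x) ^ (2 * n + 1) *
          ((1 + hh S n Φ δ x) * v l + fderiv ℝ (hh S n Φ δ) x v * x l) =
          (1 + hh S n Φ δ x) * μ + fderiv ℝ (hh S n Φ δ) x v * gg S n x := by
        have e := congrArg (fun r => fderiv ℝ (hh S n Φ δ) x v * r) (gg_euler hg)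
        rw [hμ, ← e, Finset.mul_sum, Finset.mul_sum, ← Finset.sum_add_distrib]
        exact Finset.sum_congr rfl fun l _ => by ring
      rw [h6, h4] at h5
      have h7 : (1 + cut S δ x * ((Φ (gg S n x) + gg S n x * deriv Φ (gg S n x)) - 1)) * μ = 0 := by
        rw [hh] at h5
        linarith
      have h8 := one_add_pos (cut_nonneg (S := S) (δ := δ) x) (cut_le_one x)
        (hΦ.mono _ (gg_nonneg S n x))
      have h9 : μ = 0 := by
        rcases mul_eq_zero.1 h7 with h | h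
        · exact absurd h h8.ne'
        · exact h
      intro l _
      rw [h4, h9]
      simp
  funext l
  by_cases hl : l ∈ S
  · have h4 := h2 l hl
    rw [h3 l hl, add_zero] at h4
    rcases mul_eq_zero.1 h4 with h | h
    · exact absurd h (one_add_hh_pos hΦ x).ne'
    · exact h
  · exact h1 l hl

/-- the support -/
def KS (S : Finset (Fin 3)) (ε δ : ℝ) : Set V :=
  {x | (∀ l ∈ S, |x l| ≤ 1 - ε) ∧ ∀ l, l ∉ S → |x l| ≤ δ}

theorem KS_compact : IsCompact (KS S ε δ) := by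
  apply Metric.isCompact_of_isClosed_isBounded
  · have : KS S ε δ = (⋂ l ∈ S, {x : V | |x l| ≤ 1 - ε}) ∩ ⋂ l ∈ (Sᶜ : Finset (Fin 3)),
        {x : V | |x l| ≤ δ} := by
      ext x
      simp [KS]
    rw [this]
    refine IsClosed.inter ?_ ?_
    · exact isClosed_biInter fun l _ => isClosed_le (by fun_prop) continuous_const
    · exact isClosed_biInter fun l _ => isClosed_le (by fun_prop) continuous_const
  · refine (Metric.isBounded_closedBall (x := (0 : V)) (r := max (1 - ε) δ ⊔ 0)).subset ?_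
    intro x hx
    rw [mem_closedBall_zero_iff, pi_norm_le_iff_of_nonneg (by positivity)]
    intro l
    rw [Real.norm_eq_abs]
    by_cases hl : l ∈ S
    · exact (hx.1 l hl).trans ((le_max_left _ _).trans (le_max_left _ _))
    · exact (hx.2 l hl).trans ((le_max_right _ _).trans (le_max_left _ _))

theorem sm_suppDiffeo (hΦ : Prof C ε Φ) (hδ : 0 < δ) :
    SuppDiffeo (KS S ε δ) (sm S n Φ δ) := by
  refine SuppDiffeo.of_injective KS_compact (sm_contDiff hΦ) (sm_injective hΦ)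
    (sm_fderiv_injective hΦ) fun x hx => ?_
  have h : hh S n Φ δ x = 0 := by
    unfold hh
    by_cases h1 : ∀ l ∈ S, |x l| ≤ 1 - ε
    · have h2 : ¬ ∀ l, l ∉ S → |x l| ≤ δ := fun h2 => hx ⟨h1, h2⟩
      push Not at h2
      obtain ⟨l, hl, hlx⟩ := h2
      rw [cut_eq_zero hδ hl hlx, zero_mul]
    · push Not at h1
      obtain ⟨l, hl, hlx⟩ := h1
      rw [hΦ.one _ (hlx.le.trans (abs_le_gg hl)), sub_self, mul_zero]
  unfold sm
  rw [h]
  simp

end Vale.Agent.P073.SQ
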