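import Vale.Agent.P073.SQ.Spec

/-!
# Block SQ: the radial profile
-/

namespace Vale.Agent.P073.SQ

open Set Filter Topology
open scoped ContDiff

theorem st_deriv_nonneg (x : ℝ) : 0 ≤ deriv Real.smoothTransition x :=
  Real.smoothTransition.monotone.deriv_nonneg

theorem st_deriv_of_neg {x : ℝ} (hx : x < 0) : deriv Real.smoothTransition x = 0 := by
  have : Real.smoothTransition =ᶠ[𝓝 x] fun _ => 0 := by
    filter_upwards [Iio_mem_nhds hx] with y hy
    exact Real.smoothTransition.zero_of_nonpos (le_of_lt hy)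
  rw [this.deriv_eq]
  simp

theorem st_deriv_of_one_lt {x : ℝ} (hx : 1 < x) : deriv Real.smoothTransition x = 0 := by
  have : Real.smoothTransition =ᶠ[𝓝 x] fun _ => 1 := by
    filter_upwards [Ioi_mem_nhds hx] with y hy
    exact Real.smoothTransition.one_of_one_le (le_of_lt hy)
  rw [this.deriv_eq]
  simp

theorem st_deriv_cont : Continuous (deriv Real.smoothTransition) :=
  (Real.smoothTransition.contDiff (n := 1)).continuous_deriv (by simp)

theorem st_deriv_zero : deriv Real.smoothTransition 0 = 0 := by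
  have h1 : Tendsto (deriv Real.smoothTransition) (𝓝[<] 0) (𝓝 (deriv Real.smoothTransition 0)) :=
    st_deriv_cont.continuousAt.mono_left nhdsWithin_le_nhds
  have h2 : Tendsto (deriv Real.smoothTransition) (𝓝[<] 0) (𝓝 0) := by
    refine tendsto_const_nhds.congr' ?_
    filter_upwards [self_mem_nhdsWithin] with y hy
    exact (st_deriv_of_neg hy).symm
  exact tendsto_nhds_unique h1 h2

theorem st_deriv_one : deriv Real.smoothTransition 1 = 0 := by
  have h1 : Tendsto (deriv Real.smoothTransition) (𝓝[>] 1) (𝓝 (deriv Real.smoothTransition 1)) :=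
    st_deriv_cont.continuousAt.mono_left nhdsWithin_le_nhds
  have h2 : Tendsto (deriv Real.smoothTransition) (𝓝[>] 1) (𝓝 0) := by
    refine tendsto_const_nhds.congr' ?_
    filter_upwards [self_mem_nhdsWithin] with y hy
    exact (st_deriv_of_one_lt hy).symm
  exact tendsto_nhds_unique h1 h2

theorem st_deriv_bdd : ∃ C : ℝ, 0 < C ∧ ∀ x, deriv Real.smoothTransition x ≤ C := by
  obtain ⟨C, hC⟩ := (isCompact_Icc (a := (0 : ℝ)) (b := 1)).exists_bound_of_continuousOn
    st_deriv_cont.continuousOn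
  refine ⟨max C 1, by positivity, fun x => ?_⟩
  rcases lt_or_ge x 0 with h0 | h0
  · rw [st_deriv_of_neg h0]; positivity
  rcases lt_or_ge 1 x with h1 | h1
  · rw [st_deriv_of_one_lt h1]; positivity
  exact ((le_abs_self _).trans (hC x ⟨h0, h1⟩)).trans (le_max_left _ _)

/-- a transition function from `a` to `a + h` -/
noncomputable def tr (a h u : ℝ) : ℝ := Real.smoothTransition ((u - a) / h)

theorem tr_contDiff (a h : ℝ) : ContDiff ℝ ∞ (tr a h) := by
  have : ContDiff ℝ ∞ fun u : ℝ => (u - a) / h := by fun_prop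
  exact (Real.smoothTransition.contDiff (n := ⊤)).comp this

theorem tr_nonneg (a h u : ℝ) : 0 ≤ tr a h u := Real.smoothTransition.nonneg _
theorem tr_le_one (a h u : ℝ) : tr a h u ≤ 1 := Real.smoothTransition.le_one _

theorem tr_zero {a h u : ℝ} (hh : 0 < h) (hu : u ≤ a) : tr a h u = 0 :=
  Real.smoothTransition.zero_of_nonpos (div_nonpos_of_nonpos_of_nonneg (by linarith) hh.le)

theorem tr_one {a h u : ℝ} (hh : 0 < h) (hu : a + h ≤ u) : tr a h u = 1 :=
  Real.smoothTransition.one_of_one_le ((one_le_div hh).2 (by linarith))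

/-- derivative of the transition function -/
noncomputable def tr' (a h u : ℝ) : ℝ := deriv Real.smoothTransition ((u - a) / h) / h

theorem tr_hasDerivAt (a h u : ℝ) : HasDerivAt (tr a h) (tr' a h u) u := by
  have h1 : HasDerivAt (fun u : ℝ => (u - a) / h) (1 / h) u :=
    ((hasDerivAt_id u).sub_const a).div_const h
  have h2 : HasDerivAt Real.smoothTransition (deriv Real.smoothTransition ((u - a) / h))
      ((u - a) / h) :=
    ((Real.smoothTransition.contDiff (n := 1)).differentiable (by simp) _).hasDerivAt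
  have h3 : HasDerivAt (fun u => tr a h u) (deriv Real.smoothTransition ((u - a) / h) * (1 / h))
      u := h2.comp u h1
  refine h3.congr_deriv ?_
  simp [tr', div_eq_mul_inv]

theorem tr'_nonneg {a h : ℝ} (hh : 0 < h) (u : ℝ) : 0 ≤ tr' a h u :=
  div_nonneg (st_deriv_nonneg _) hh.le

theorem tr'_zero_left {a h u : ℝ} (hh : 0 < h) (hu : u ≤ a) : tr' a h u = 0 := by
  unfold tr'
  rcases eq_or_lt_of_le hu with rfl | hu
  · simp [st_deriv_zero]
  · rw [st_deriv_of_neg (div_neg_of_neg_of_pos (by linarith) hh)]; simp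

theorem tr'_zero_right {a h u : ℝ} (hh : 0 < h) (hu : a + h ≤ u) : tr' a h u = 0 := by
  unfold tr'
  rcases eq_or_lt_of_le hu with rfl | hu
  · simp [hh.ne', st_deriv_one]
  · rw [st_deriv_of_one_lt ((one_lt_div hh).2 (by linarith))]; simp

/-- The radial profile `Φ`; the radial map is `u ↦ u Φ(u)`. -/
theorem exists_profile : ∃ C : ℝ, 0 < C ∧ ∀ ε : ℝ, 0 < ε → ε ≤ 1 / 4 →
    ∃ Φ : ℝ → ℝ, ContDiff ℝ ∞ Φ ∧ (∃ A u0 : ℝ, 0 < u0 ∧ ∀ u, u ≤ u0 → Φ u = A) ∧
      (∀ u, 1 - ε ≤ u → Φ u = 1) ∧ (∀ u, 0 < Φ u) ∧ (∀ u, 0 ≤ u → 0 < Φ u + u * deriv Φ u) ∧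
      (∀ u, 0 ≤ u → u ≤ 1 → u * Φ u ≤ 1) ∧
      (∀ u, 0 ≤ u → u ≤ 1 → u * (Φ u + u * deriv Φ u) ≤ C) ∧
      ∀ u, ε < u → u < 1 - 2 * ε →
        u * Φ u = (1 - ε) * (1 - 2 * ε) + ε * u ∧ Φ u + u * deriv Φ u = ε := by
  obtain ⟨C1, hC1, hst⟩ := st_deriv_bdd
  refine ⟨2 + 4 * C1, by positivity, fun ε hε hε4 => ?_⟩
  obtain ⟨u0, hu0⟩ : ∃ u0 : ℝ, u0 = ε / 2 := ⟨_, rfl⟩
  obtain ⟨c0, hc0⟩ : ∃ c0 : ℝ, c0 = (1 - ε) * (1 - 2 * ε) := ⟨_, rfl⟩
  have hu0pos : 0 < u0 := by rw [hu0]; positivity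
  have hc0pos : 0 < c0 := by rw [hc0]; apply mul_pos <;> linarith
  have hc01 : c0 + ε ≤ 1 := by rw [hc0]; nlinarith
  obtain ⟨A, hA⟩ : ∃ A : ℝ, A = c0 / ε := ⟨_, rfl⟩
  have hApos : 0 < A := by rw [hA]; positivity
  have hAε : A * ε = c0 := by rw [hA]; field_simp
  set T1 := tr u0 u0 with hT1
  set T2 := tr (1 - 2 * ε) ε with hT2
  let Φ : ℝ → ℝ := fun u => (1 - T1 u) * A + T1 u * ((1 - T2 u) * (c0 / u + ε) + T2 u)
  let ψ : ℝ → ℝ := fun u => (1 - T1 u) * (A * u) + T1 u * ((1 - T2 u) * (c0 + ε * u) + T2 u * u)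
  let ψ' : ℝ → ℝ := fun u => (1 - T1 u) * A + T1 u * ((1 - T2 u) * ε + T2 u)
    + tr' u0 u0 u * ((1 - T2 u) * (c0 + ε * u) + T2 u * u - A * u)
    + T1 u * tr' (1 - 2 * ε) ε u * (u - c0 - ε * u)
  have hψ : ∀ u, HasDerivAt ψ (ψ' u) u := by
    intro u
    have h1 : HasDerivAt T1 (tr' u0 u0 u) u := tr_hasDerivAt _ _ _
    have h2 : HasDerivAt T2 (tr' (1 - 2 * ε) ε u) u := tr_hasDerivAt _ _ _
    have hid := hasDerivAt_id u
    have := ((h1.const_sub 1).mul (hid.const_mul A)).add
      (h1.mul (((h2.const_sub 1).mul ((hid.const_mul ε).const_add c0)).add (h2.mul hid)))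
    refine this.congr_deriv ?_
    simp only [ψ', id]
    simp
    ring
  have hΦψ : ∀ u, 0 < u → ψ u = u * Φ u := by
    intro u hu
    simp only [ψ, Φ]
    field_simp
  have hT1z : ∀ u, u ≤ u0 → T1 u = 0 := fun u hu => tr_zero hu0pos hu
  have hT1o : ∀ u, ε ≤ u → T1 u = 1 := fun u hu => tr_one hu0pos (by rw [hu0]; linarith)
  have hT2z : ∀ u, u ≤ 1 - 2 * ε → T2 u = 0 := fun u hu => tr_zero hε hu
  have hT2o : ∀ u, 1 - ε ≤ u → T2 u = 1 := fun u hu => tr_one hε (by linarith)
  have hΦA : ∀ u, u ≤ u0 → Φ u = A := by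
    intro u hu
    simp [Φ, hT1z u hu]
  have hΦs : ContDiff ℝ ∞ Φ := by
    rw [contDiff_iff_contDiffAt]
    intro u
    rcases lt_or_ge u u0 with hu | hu
    · have : Φ =ᶠ[𝓝 u] fun _ => A := by
        filter_upwards [Iio_mem_nhds hu] with y hy using hΦA y (le_of_lt hy)
      exact contDiffAt_const.congr_of_eventuallyEq this
    · have hu' : u ≠ 0 := by linarith
      have h1 : ContDiffAt ℝ ∞ T1 u := (tr_contDiff _ _).contDiffAt
      have h2 : ContDiffAt ℝ ∞ T2 u := (tr_contDiff _ _).contDiffAt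
      have h3 : ContDiffAt ℝ ∞ (fun u : ℝ => c0 / u) u := contDiffAt_const.div contDiffAt_id hu'
      fun_prop
  have hΦd : ∀ u, 0 < u → Φ u + u * deriv Φ u = ψ' u := by
    intro u hu
    have h1 : HasDerivAt Φ (deriv Φ u) u := (hΦs.differentiable (by simp) u).hasDerivAt
    have h2 : HasDerivAt (fun u => u * Φ u) (1 * Φ u + u * deriv Φ u) u :=
      (hasDerivAt_id u).mul h1
    have h3 : HasDerivAt ψ (1 * Φ u + u * deriv Φ u) u := by
      refine h2.congr_of_eventuallyEq ?_
      filter_upwards [Ioi_mem_nhds hu] with y hy using hΦψ y hy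
    have h4 := (hψ u).unique h3
    linarith
  have hT1n := fun u => tr_nonneg u0 u0 u
  have hT1l := fun u => tr_le_one u0 u0 u
  have hT2n := fun u => tr_nonneg (1 - 2 * ε) ε u
  have hT2l := fun u => tr_le_one (1 - 2 * ε) ε u
  have hT1'n := fun u => tr'_nonneg (a := u0) hu0pos u
  have hT2'n := fun u => tr'_nonneg (a := 1 - 2 * ε) hε u
  -- the value of `ψ'` left and right of `ε`
  have hL : ∀ u, u ≤ ε → ψ' u = (1 - T1 u) * A + T1 u * ε + tr' u0 u0 u * (c0 + ε * u - A * u) := by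
    intro u hu
    have h1 : T2 u = 0 := hT2z u (by linarith)
    have h2 : tr' (1 - 2 * ε) ε u = 0 := tr'_zero_left hε (by linarith)
    simp only [ψ', h1, h2]
    ring
  have hR : ∀ u, ε ≤ u → ψ' u = (1 - T2 u) * ε + T2 u
      + tr' (1 - 2 * ε) ε u * ((1 - ε) * (u - (1 - 2 * ε))) := by
    intro u hu
    have h1 : T1 u = 1 := hT1o u hu
    have h2 : tr' u0 u0 u = 0 := tr'_zero_right hu0pos (by rw [hu0]; linarith)
    simp only [ψ', h1, h2, hc0]
    ring
  have hψ'pos : ∀ u, 0 < u → 0 < ψ' u := by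
    intro u hu
    rcases le_or_gt u ε with h | h
    · rw [hL u h]
      have h1 : 0 ≤ c0 + ε * u - A * u := by
        have : A * u ≤ A * ε := mul_le_mul_of_nonneg_left h hApos.le
        nlinarith
      have h2 := mul_nonneg (hT1'n u) h1
      have h3 : 0 < (1 - T1 u) * A + T1 u * ε := by
        rcases eq_or_lt_of_le (hT1n u) with h0 | h0
        · have : T1 u = 0 := h0.symm
          rw [this]; simpa using hApos
        · have : 0 ≤ (1 - T1 u) * A := mul_nonneg (sub_nonneg.2 (hT1l u)) hApos.le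
          have : 0 < T1 u * ε := mul_pos h0 hε
          linarith
      linarith
    · rw [hR u h.le]
      have h1 : 0 ≤ tr' (1 - 2 * ε) ε u * ((1 - ε) * (u - (1 - 2 * ε))) := by
        rcases le_or_gt u (1 - 2 * ε) with h' | h'
        · rw [tr'_zero_left hε h']; simp
        · exact mul_nonneg (hT2'n u) (mul_nonneg (by linarith) (by linarith))
      have h3 : 0 < (1 - T2 u) * ε + T2 u := by
        rcases eq_or_lt_of_le (hT2n u) with h0 | h0
        · have : T2 u = 0 := h0.symm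
          rw [this]; simpa using hε
        · have : 0 ≤ (1 - T2 u) * ε := mul_nonneg (sub_nonneg.2 (hT2l u)) hε.le
          have h0' : 0 < T2 u := h0
          linarith
      linarith
  refine ⟨Φ, hΦs, ⟨A, u0, hu0pos, hΦA⟩, ?_, ?_, ?_, ?_, ?_, ?_⟩
  · intro u hu
    simp [Φ, hT1o u (by linarith), hT2o u hu]
  · intro u
    rcases le_or_gt u 0 with h | h
    · rw [hΦA u (h.trans hu0pos.le)]; exact hApos
    · have h1 : 0 < (1 - T2 u) * (c0 / u + ε) + T2 u := by
        have hpos : 0 < c0 / u + ε := by positivity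
        rcases eq_or_lt_of_le (hT2n u) with h0 | h0
        · have : T2 u = 0 := h0.symm
          rw [this]; simpa using hpos
        · have : 0 ≤ (1 - T2 u) * (c0 / u + ε) := mul_nonneg (sub_nonneg.2 (hT2l u)) hpos.le
          have h0' : 0 < T2 u := h0
          linarith
      show 0 < (1 - T1 u) * A + T1 u * ((1 - T2 u) * (c0 / u + ε) + T2 u)
      rcases eq_or_lt_of_le (hT1n u) with h0 | h0
      · have : T1 u = 0 := h0.symm
        rw [this]; simpa using hApos
      · have h2 : 0 ≤ (1 - T1 u) * A := mul_nonneg (sub_nonneg.2 (hT1l u)) hApos.le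
        have h3 : 0 < T1 u * ((1 - T2 u) * (c0 / u + ε) + T2 u) := mul_pos h0 h1
        linarith
  · intro u hu
    rcases eq_or_lt_of_le hu with rfl | hu
    · rw [hΦA 0 hu0pos.le]; simpa using hApos
    · rw [hΦd u hu]; exact hψ'pos u hu
  · intro u hu hu1
    rcases eq_or_lt_of_le hu with rfl | hu
    · simp
    rw [← hΦψ u hu]
    have h2 : (1 - T2 u) * (c0 + ε * u) + T2 u * u ≤ 1 := by
      have h3 : c0 + ε * u ≤ 1 := by nlinarith
      have := mul_le_mul_of_nonneg_left h3 (sub_nonneg.2 (hT2l u))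
      have := mul_le_mul_of_nonneg_left hu1 (hT2n u)
      simp only [← hT2] at *
      linarith
    rcases le_or_gt u ε with h | h
    · have h1 : A * u ≤ 1 := by
        have : A * u ≤ A * ε := mul_le_mul_of_nonneg_left h hApos.le
        linarith
      have := mul_le_mul_of_nonneg_left h1 (sub_nonneg.2 (hT1l u))
      have := mul_le_mul_of_nonneg_left h2 (hT1n u)
      simp only [ψ, ← hT1] at *
      linarith
    · simp only [ψ, hT1o u h.le]
      linarith
  · intro u hu hu1
    rcases eq_or_lt_of_le hu with rfl | hu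
    · simp; positivity
    rw [hΦd u hu]
    rcases le_or_gt u ε with h | h
    · rw [hL u h]
      have hAu : A * u ≤ c0 := by
        have : A * u ≤ A * ε := mul_le_mul_of_nonneg_left h hApos.le
        linarith
      have h1 : (1 - T1 u) * (A * u) + T1 u * (ε * u) ≤ 1 := by
        have e1 : A * u ≤ 1 := by linarith
        have e2 : ε * u ≤ 1 := by nlinarith
        have := mul_le_mul_of_nonneg_left e1 (sub_nonneg.2 (hT1l u))
        have := mul_le_mul_of_nonneg_left e2 (hT1n u)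
        simp only [← hT1] at *
        linarith
      have h2 : u * tr' u0 u0 u ≤ 2 * C1 := by
        have h3 : tr' u0 u0 u ≤ C1 / u0 := div_le_div_of_nonneg_right (hst _) hu0pos.le
        have h4 : u * tr' u0 u0 u ≤ ε * (C1 / u0) :=
          mul_le_mul h h3 (hT1'n u) hε.le
        have h5 : ε * (C1 / u0) = 2 * C1 := by rw [hu0]; field_simp
        linarith
      have h3 : c0 + ε * u - A * u ≤ 1 := by
        have : 0 ≤ A * u := by positivity
        nlinarith
      have h3' : 0 ≤ c0 + ε * u - A * u := by nlinarith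
      have h4 : u * tr' u0 u0 u * (c0 + ε * u - A * u) ≤ 2 * C1 * 1 :=
        mul_le_mul h2 h3 h3' (by positivity)
      nlinarith
    · rw [hR u h.le]
      have h1 : tr' (1 - 2 * ε) ε u * ((1 - ε) * (u - (1 - 2 * ε))) ≤ C1 := by
        rcases le_or_gt u (1 - 2 * ε) with h' | h'
        · rw [tr'_zero_left hε h']; simp; exact hC1.le
        rcases le_or_gt (1 - 2 * ε + ε) u with h'' | h''
        · rw [tr'_zero_right hε h'']; simp; exact hC1.le
        have h3 : tr' (1 - 2 * ε) ε u ≤ C1 / ε := div_le_div_of_nonneg_right (hst _) hε.le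
        have h4 : (1 - ε) * (u - (1 - 2 * ε)) ≤ ε := by nlinarith
        have h5 : 0 ≤ (1 - ε) * (u - (1 - 2 * ε)) := mul_nonneg (by linarith) (by linarith)
        have h6 : tr' (1 - 2 * ε) ε u * ((1 - ε) * (u - (1 - 2 * ε))) ≤ C1 / ε * ε :=
          mul_le_mul h3 h4 h5 (by positivity)
        rwa [div_mul_cancel₀ _ hε.ne'] at h6
      have h2 : (1 - T2 u) * ε + T2 u ≤ 1 := by
        have := mul_le_mul_of_nonneg_left (show ε ≤ 1 by linarith) (sub_nonneg.2 (hT2l u))
        simp only [← hT2] at *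
        linarith
      have h0 : 0 < (1 - T2 u) * ε + T2 u + tr' (1 - 2 * ε) ε u * ((1 - ε) * (u - (1 - 2 * ε))) := by
        have := hψ'pos u hu
        rwa [hR u h.le] at this
      nlinarith
  · intro u hu1 hu2
    have hu : 0 < u := hε.trans hu1
    rw [← hΦψ u hu, hΦd u hu, hR u hu1.le, tr'_zero_left hε hu2.le]
    simp only [ψ, hT1o u hu1.le, hT2z u hu2.le, ← hc0]
    constructor <;> ring

end Vale.Agent.P073.SQ
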