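import Vale.Agent.P073.St

/-!
# Block SQ (domain squeeze): definitions and statements

All integrals are integrals over cubes of `V = Fin 3 → ℝ`: for a square `q` with centre `a`, normal
`k`, half side `ρ`, `∫_q H = (1/(2ρ)) ∫_{cube a ρ} H (update x k (a k))`; for the edge
`{x_k = a_k, x_i = b}` of `q`, `∫_e H = (1/(2ρ)^2) ∫_{cube a ρ} H (update (update x k (a k)) i b)`.
-/

namespace Vale.Agent.P073.SQ

open MeasureTheory Set Filter Topology Vale.Agent.P073.St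
open scoped ContDiff ENNReal

/-- closed cube with centre `c` and half side `ρ` -/
def cube (c : V) (ρ : ℝ) : Set V := {x | ∀ i, |x i - c i| ≤ ρ}

/-- basis vector -/
noncomputable def ev (j : Fin 3) : V := Pi.single j 1

/-- `s : V → V` is a diffeomorphism of `V` which is the identity outside the compact set `K`. -/
structure SuppDiffeo (K : Set V) (s : V → V) : Prop where
  compact : IsCompact K
  smooth : ContDiff ℝ ∞ s
  inv : ∃ t : V → V, ContDiff ℝ ∞ t ∧ (∀ x, t (s x) = x) ∧ ∀ x, s (t x) = x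
  supp : ∀ x, x ∉ K → s x = x

/-- the radial projection in the coordinates of `S`, on the sector where the coordinate `i`
dominates -/
noncomputable def rad (S : Finset (Fin 3)) (c : V) (ρ : ℝ) (i : Fin 3) (x : V) : V :=
  fun l => if l ∈ S then c l + ρ * (x l - c l) / |x i - c i| else x l

/-- (SQ1) the radial diffeomorphisms in the coordinates of `S` (`S = univ`: a cube;
`S = univ \ {k}`: a square with normal `k`). `U` is a neighbourhood of the open cube / square. -/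
def SpecRad : Prop :=
  ∃ C : ℝ, 0 < C ∧ ∀ (S : Finset (Fin 3)) (c : V) (ρ : ℝ) (U : Set V), S.Nonempty → 0 < ρ →
    IsOpen U → (∀ x : V, (∀ l, l ∉ S → x l = c l) → (∀ l ∈ S, |x l - c l| < ρ) → x ∈ U) →
    ∃ (K : ℕ → Set V) (s : ℕ → V → V),
      (∀ n, SuppDiffeo (K n) (s n)) ∧
      (∀ n, K n ⊆ U ∩ {x | ∀ l ∈ S, |x l - c l| < ρ}) ∧
      (∀ n x l, l ∉ S → s n x l = x l) ∧
      (∀ n x, (∀ l, l ∉ S → x l = c l) → (∀ l ∈ S, |x l - c l| ≤ ρ) → ∀ j ∈ S, ∀ i ∈ S,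
        ‖fderiv ℝ (s n) x (ev j)‖ * |x i - c i| ≤ C * ρ) ∧
      ∀ x, ∀ i ∈ S, (∀ l, l ∉ S → x l = c l) → (∀ j ∈ S, j ≠ i → |x j - c j| < |x i - c i|) →
        0 < |x i - c i| → |x i - c i| < ρ →
        Tendsto (fun n => s n x) atTop (𝓝 (rad S c ρ i x)) ∧
        (∀ j ∈ S, j ≠ i → Tendsto (fun n => fderiv ℝ (s n) x (ev j)) atTop
          (𝓝 ((ρ / |x i - c i|) • ev j))) ∧
        Tendsto (fun n => fderiv ℝ (s n) x (ev i)) atTop
          (𝓝 (fun l => if l ∈ S ∧ l ≠ i then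
            -(ρ / |x i - c i|) * ((x l - c l) / (x i - c i)) else 0))

/-- (SQ2) integration in the sector where the coordinate `i` dominates -/
def SpecPolar : Prop :=
  ∀ p : ℝ, 1 ≤ p → p < 2 → ∃ C : ℝ≥0∞, C ≠ ⊤ ∧
    ∀ (S : Finset (Fin 3)) (c : V) (ρ : ℝ) (i : Fin 3) (H : V → ℝ≥0∞), 2 ≤ S.card → i ∈ S →
      0 < ρ → Measurable H →
      ∫⁻ x in cube c ρ ∩ {x | ∀ j ∈ S, |x j - c j| ≤ |x i - c i|},
          ENNReal.ofReal ((ρ / |x i - c i|) ^ p) * H (rad S c ρ i x) ≤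
        C * ((∫⁻ x in cube c ρ, H (Function.update x i (c i + ρ))) +
          (∫⁻ x in cube c ρ, H (Function.update x i (c i - ρ))))

/-- the `p`-th power of the size of the partial derivative `∂_j G` -/
noncomputable def dE (p : ℝ) (G : V → V) (j : Fin 3) (x : V) : ℝ≥0∞ :=
  ENNReal.ofReal (‖fderiv ℝ G x (ev j)‖ ^ p)

/-- energy of `G` on the square with centre `a`, normal `k`, half side `ρ` (times `2ρ`) -/
noncomputable def faceE (p : ℝ) (G : V → V) (a : V) (k : Fin 3) (ρ : ℝ) : ℝ≥0∞ :=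
  ∑ j ∈ Finset.univ.erase k, ∫⁻ x in cube a ρ, dE p G j (Function.update x k (a k))

/-- energy of `G` on the four edges of this square (times `(2ρ)^2`) -/
noncomputable def edgesE (p : ℝ) (G : V → V) (a : V) (k : Fin 3) (ρ : ℝ) : ℝ≥0∞ :=
  ∑ i ∈ Finset.univ.erase k, ∑ j ∈ (Finset.univ.erase k).erase i, ∑ σ ∈ ({1, -1} : Finset ℝ),
    ∫⁻ x in cube a ρ, dE p G j (Function.update (Function.update x k (a k)) i (a i + σ * ρ))

/-- (SQ3) squares -/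
def SpecFace : Prop :=
  ∀ p : ℝ, 1 ≤ p → p < 2 → ∃ C : ℝ≥0∞, C ≠ ⊤ ∧
    ∀ (a : V) (k : Fin 3) (ρ : ℝ) (U W : Set V) (G : V → V) (Z : V → ℝ≥0∞) (ε : ℝ≥0∞), 0 < ρ →
      IsOpen U → (∀ x : V, x k = a k → (∀ l, l ≠ k → |x l - a l| < ρ) → x ∈ U) →
      IsOpen W → (∀ x : V, x k = a k → (∀ l, l ≠ k → |x l - a l| ≤ ρ) → x ∈ W) →
      ContDiffOn ℝ 1 G W → Continuous Z → (∀ x, Z x ≤ 1) → ε ≠ 0 →
      ∃ (K : Set V) (s : V → V), SuppDiffeo K s ∧ K ⊆ U ∩ {x | ∀ l, l ≠ k → |x l - a l| < ρ} ∧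
        (∀ x, s x k = x k) ∧
        faceE p (G ∘ s) a k ρ ≤ C * edgesE p G a k ρ + ε ∧
        ∫⁻ x in cube a ρ, Z (s (Function.update x k (a k))) ≤
          C * (∑ i ∈ Finset.univ.erase k, ∑ σ ∈ ({1, -1} : Finset ℝ),
            ∫⁻ x in cube a ρ, Z (Function.update (Function.update x k (a k)) i (a i + σ * ρ))) + ε

/-- (SQ6) comparison of a part of a layer integral with the integral over a smaller cube -/
def SpecLayer : Prop :=
  ∀ (c a : V) (ρ σ : ℝ) (k : Fin 3) (b : ℝ) (H : V → ℝ≥0∞), 0 < ρ → 0 < σ → Measurable H →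
    (∀ l, l ≠ k → |a l - c l| + σ ≤ ρ) →
    ∫⁻ x in cube c ρ ∩ {x | ∀ l, l ≠ k → |x l - a l| ≤ σ}, H (Function.update x k b) =
      ENNReal.ofReal (ρ / σ) * ∫⁻ x in cube a σ, H (Function.update x k b)

/-- (SQ7) an edge integral is a one-dimensional integral -/
def SpecEdge : Prop :=
  ∀ (a : V) (σ : ℝ) (k i j : Fin 3) (b : ℝ) (H : V → ℝ≥0∞), 0 < σ → Measurable H → i ≠ k →
    j ≠ i → j ≠ k →
    ∫⁻ x in cube a σ, H (Function.update (Function.update x k (a k)) i b) =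
      ENNReal.ofReal ((2 * σ) ^ 2) *
        ∫⁻ t in Icc (a j - σ) (a j + σ), H (Function.update (Function.update a i b) j t)

/-- (SQ4) cubes -/
def SpecCube : Prop :=
  ∀ p : ℝ, 1 ≤ p → p < 2 → ∃ C : ℝ≥0∞, C ≠ ⊤ ∧
    ∀ (c : V) (ρ : ℝ) (W : Set V) (G : V → V) (Z : V → ℝ≥0∞) (ε : ℝ≥0∞), 0 < ρ →
      IsOpen W → cube c ρ ⊆ W → ContDiffOn ℝ 1 G W → Continuous Z → (∀ x, Z x ≤ 1) → ε ≠ 0 →
      ∃ (K : Set V) (s : V → V), SuppDiffeo K s ∧ K ⊆ {x | ∀ l, |x l - c l| < ρ} ∧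
        ∑ j, ∫⁻ x in cube c ρ, dE p (G ∘ s) j x ≤
          C * (∑ i, ∑ σ ∈ ({1, -1} : Finset ℝ), ∑ j ∈ Finset.univ.erase i,
            ∫⁻ x in cube c ρ, dE p G j (Function.update x i (c i + σ * ρ))) + ε ∧
        ∫⁻ x in cube c ρ, Z (s x) ≤
          C * (∑ i, ∑ σ ∈ ({1, -1} : Finset ℝ),
            ∫⁻ x in cube c ρ, Z (Function.update x i (c i + σ * ρ))) + ε

/-- (SQ5) gluing of diffeomorphisms with disjoint, locally finite supports -/
def SpecGlue : Prop :=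
  ∀ (Ω : Set V) (ι : Type) (K : ι → Set V) (s : ι → V → V), IsOpen Ω →
    (∀ i, SuppDiffeo (K i) (s i)) → (∀ i, K i ⊆ Ω) → (∀ i j, i ≠ j → Disjoint (K i) (K j)) →
    (∀ x ∈ Ω, ∃ N ∈ 𝓝 x, {i | (K i ∩ N).Nonempty}.Finite) →
    ∃ S : V → V, IsDiffeo Ω Ω S ∧ (∀ i, ∀ x ∈ K i, S x = s i x) ∧
      (∀ x, (∀ i, x ∉ K i) → S x = x) ∧
      ∀ i, ∀ x ∈ Ω, (∀ j, j ≠ i → x ∉ K j) → S =ᶠ[𝓝 x] s i

/-- A family of cubes and squares. `ctrl` are the controlled squares. -/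
structure Cells (Ω R : Set V) where
  /-- the cubes -/
  ι : Type
  cnt : Countable ι
  /-- centre -/
  c : ι → V
  /-- half side -/
  ρ : ι → ℝ
  ρpos : ∀ i, 0 < ρ i
  sub : ∀ i, cube (c i) (ρ i) ⊆ Ω
  /-- the squares -/
  κ : Type
  cntκ : Countable κ
  /-- centre -/
  a : κ → V
  /-- normal -/
  k : κ → Fin 3
  /-- half side -/
  σ : κ → ℝ
  σpos : ∀ q, 0 < σ q
  /-- controlled squares -/
  ctrl : Set κ
  /-- the squares in the boundary of a cube -/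
  bd : ι → Finset κ
  /-- different cubes have disjoint interiors -/
  disj : ∀ i j, i ≠ j → ∀ x : V, (∀ l, |x l - c i l| < ρ i) → ¬ ∀ l, |x l - c j l| ≤ ρ j
  /-- the cubes and the protected set `R` cover `Ω`; open cubes miss `R` -/
  cover : Ω ⊆ R ∪ ⋃ i, cube (c i) (ρ i)
  miss : ∀ i, ∀ x ∈ R, ¬ ∀ l, |x l - c i l| < ρ i
  /-- local finiteness in `Ω` -/
  fin : ∀ x ∈ Ω, ∃ N ∈ 𝓝 x, {i | (cube (c i) (ρ i) ∩ N).Nonempty}.Finite
  finκ : ∀ x ∈ Ω, ∃ N ∈ 𝓝 x, {q | (cube (a q) (σ q) ∩ N).Nonempty}.Finite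
  subκ : ∀ q, cube (a q) (σ q) ⊆ Ω
  /-- a square of `bd i` lies in the boundary of the cube `i` -/
  bd_sub : ∀ i, ∀ q ∈ bd i, |a q (k q) - c i (k q)| = ρ i ∧
    ∀ l, l ≠ k q → |a q l - c i l| + σ q ≤ ρ i
  /-- the squares of `bd i` cover the boundary of the cube `i` -/
  bd_cover : ∀ i, ∀ x ∈ cube (c i) (ρ i), (∃ l, |x l - c i l| = ρ i) →
    ∃ q ∈ bd i, x (k q) = a q (k q) ∧ ∀ l, |x l - a q l| ≤ σ q
  /-- the open squares (relative interiors) are pairwise disjoint, and disjoint from the other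
  closed squares -/
  disjκ : ∀ q q', q ≠ q' → ∀ x : V, x (k q) = a q (k q) → (∀ l, l ≠ k q → |x l - a q l| < σ q) →
    ¬ (x (k q') = a q' (k q') ∧ ∀ l, |x l - a q' l| ≤ σ q')
  /-- every square is in the boundary of some cube, and an uncontrolled square has no point of its
  relative interior in `R` -/
  used : ∀ q, ∃ i, q ∈ bd i
  unc : ∀ q, q ∉ ctrl → ∀ x : V, x (k q) = a q (k q) → (∀ l, l ≠ k q → |x l - a q l| < σ q) →
    ∃ N ∈ 𝓝 x, Disjoint N R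

/-- the edges of the squares, and the controlled squares, of the boundary of the cube `i` -/
def Cells.net {Ω R : Set V} (W : Cells Ω R) (i : W.ι) : Set V :=
  {x | ∃ q ∈ W.bd i, x (W.k q) = W.a q (W.k q) ∧ (∀ l, |x l - W.a q l| ≤ W.σ q) ∧
    (q ∈ W.ctrl ∨ ∃ l, l ≠ W.k q ∧ |x l - W.a q l| = W.σ q)}

open Classical in
/-- the energy of `F` on the net of the cube `i`, with the right weights -/
noncomputable def Cells.en {Ω R : Set V} (W : Cells Ω R) (p : ℝ) (F : V → V) (i : W.ι) : ℝ≥0∞ :=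
  ∑ q ∈ W.bd i, ENNReal.ofReal (W.ρ i / W.σ q) *
    (if q ∈ W.ctrl then faceE p F (W.a q) (W.k q) (W.σ q)
      else edgesE p F (W.a q) (W.k q) (W.σ q))

/-- (SQ) the squeeze theorem -/
def SpecSQ : Prop :=
  ∀ p : ℝ, 1 ≤ p → p < 2 → ∃ C : ℝ≥0∞, C ≠ ⊤ ∧
    ∀ (Ω Λ R : Set V) (W : Cells Ω R) (F : V → V) (ε : W.ι → ℝ≥0∞) (d : W.ι → ℝ), IsOpen Ω →
      IsOpen Λ → IsDiffeo Ω Λ F → (∀ i, ε i ≠ 0) → (∀ i, 0 < d i) →
      ∃ s : V → V, IsDiffeo Ω Ω s ∧ (∀ x ∈ R, s x = x) ∧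
        (∀ i, ∀ x ∈ cube (W.c i) (W.ρ i), s x ∈ cube (W.c i) (W.ρ i)) ∧
        ∀ i, ∑ j, ∫⁻ x in cube (W.c i) (W.ρ i), dE p (F ∘ s) j x ≤ C * W.en p F i + ε i ∧
          volume {x ∈ cube (W.c i) (W.ρ i) | ∀ y ∈ W.net i, d i ≤ ‖s x - y‖} ≤ ε i

end Vale.Agent.P073.SQ
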