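import Vale.Agent.P073.SQ.Step2

/-!
# SQ: the squeeze theorem
-/

namespace Vale.Agent.P073.SQ

open MeasureTheory Set Filter Topology Metric Vale.Agent.P073.St
open scoped ContDiff ENNReal

variable {Ω R : Set V}

/-- decomposition of the integral over the boundary of a cube -/
def FaceDec (W : Cells Ω R) : Prop :=
  ∀ (i : W.ι) (H : Fin 3 → V → ℝ≥0∞), (∀ l, Measurable (H l)) →
    ∑ l, ∑ σ ∈ ({1, -1} : Finset ℝ), ∫⁻ x in cube (W.c i) (W.ρ i),
      H l (Function.update x l (W.c i l + σ * W.ρ i)) ≤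
    ∑ q ∈ W.bd i, ENNReal.ofReal (W.ρ i / W.σ q) *
      ∫⁻ x in cube (W.a q) (W.σ q), H (W.k q) (Function.update x (W.k q) (W.a q (W.k q)))

/-- the choice of the small numbers for the squares -/
theorem exists_eps (W : Cells Ω R) (hfin : ∀ q, {i | q ∈ W.bd i}.Finite) {C : ℝ≥0∞} (hC : C ≠ ⊤)
    {ε : W.ι → ℝ≥0∞} (hε : ∀ i, ε i ≠ 0) : ∃ e : W.κ → ℝ≥0∞, (∀ q, e q ≠ 0) ∧
      ∀ i, C * ∑ q ∈ W.bd i, ENNReal.ofReal (W.ρ i / W.σ q) * e q ≤ ε i / 2 := by
  have hε2 : ∀ i, ε i / 2 ≠ 0 := fun i => ENNReal.div_ne_zero.2 ⟨hε i, by simp⟩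
  have h1 : ∀ (q : W.κ) (i : W.ι), ∃ e : ℝ≥0∞, e ≠ 0 ∧
      ((W.bd i).card * C * ENNReal.ofReal (W.ρ i / W.σ q)) * e ≤ ε i / 2 := fun q i =>
    exists_mul_le (ENNReal.mul_ne_top (ENNReal.mul_ne_top (by simp) hC) ENNReal.ofReal_ne_top)
      (hε2 i)
  choose δ hδ0 hδ using h1
  have h2 : ∀ q, ∃ e : ℝ≥0∞, e ≠ 0 ∧ ∀ i ∈ {i | q ∈ W.bd i}, e ≤ δ q i := fun q =>
    exists_small (hfin q) fun i _ => hδ0 q i
  choose e he0 he using h2
  refine ⟨e, he0, fun i => ?_⟩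
  have hcard : ((W.bd i).card : ℝ≥0∞) ≠ 0 := by
    exact_mod_cast (Finset.card_pos.2 (bd_nonempty W i)).ne'
  rw [Finset.mul_sum]
  calc ∑ q ∈ W.bd i, C * (ENNReal.ofReal (W.ρ i / W.σ q) * e q)
      ≤ ∑ _q ∈ W.bd i, (ε i / 2) / (W.bd i).card := by
        refine Finset.sum_le_sum fun q hq => ?_
        rw [ENNReal.le_div_iff_mul_le (Or.inl hcard) (Or.inl (by simp))]
        calc C * (ENNReal.ofReal (W.ρ i / W.σ q) * e q) * (W.bd i).card
            = ((W.bd i).card * C * ENNReal.ofReal (W.ρ i / W.σ q)) * e q := by ring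
          _ ≤ ((W.bd i).card * C * ENNReal.ofReal (W.ρ i / W.σ q)) * δ q i := by
            gcongr; exact he q i hq
          _ ≤ ε i / 2 := hδ q i
    _ = (W.bd i).card * ((ε i / 2) / (W.bd i).card) := by
        rw [Finset.sum_const, nsmul_eq_mul]
    _ ≤ ε i / 2 := ENNReal.mul_div_le

/-- the faces of a cube: energy -/
theorem faces_le {W : Cells Ω R} (hFD : FaceDec W) {p : ℝ} {F s : V → V} {C : ℝ≥0∞}
    {ε : W.κ → ℝ≥0∞} {d : W.κ → ℝ} (hs : Step2 W p F C ε d s) (i : W.ι) :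
    ∑ l, ∑ σ ∈ ({1, -1} : Finset ℝ), ∑ j ∈ Finset.univ.erase l, ∫⁻ x in cube (W.c i) (W.ρ i),
      dE p (F ∘ s) j (Function.update x l (W.c i l + σ * W.ρ i)) ≤
    (1 + C) * W.en p F i + ∑ q ∈ W.bd i, ENNReal.ofReal (W.ρ i / W.σ q) * ε q := by
  have h1 := hFD i (fun l x => ∑ j ∈ Finset.univ.erase l, dE p (F ∘ s) j x)
    fun l => Finset.measurable_sum _ fun j _ => measurable_dE _ j
  have h2 : ∀ (l : Fin 3) (b : ℝ), ∫⁻ x in cube (W.c i) (W.ρ i),
      ∑ j ∈ Finset.univ.erase l, dE p (F ∘ s) j (Function.update x l b) =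
      ∑ j ∈ Finset.univ.erase l, ∫⁻ x in cube (W.c i) (W.ρ i),
        dE p (F ∘ s) j (Function.update x l b) := fun l b => lint_dE _ _ _ (measurable_upd l b)
  have h3 : ∀ q : W.κ, ∫⁻ x in cube (W.a q) (W.σ q), ∑ j ∈ Finset.univ.erase (W.k q),
      dE p (F ∘ s) j (Function.update x (W.k q) (W.a q (W.k q))) =
      faceE p (F ∘ s) (W.a q) (W.k q) (W.σ q) := fun q => lint_dE _ _ _ (measurable_upd _ _)
  simp only [h2, h3] at h1
  refine h1.trans ?_
  rw [Cells.en, Finset.mul_sum, ← Finset.sum_add_distrib]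
  refine Finset.sum_le_sum fun q _ => ?_
  have key : ∀ A B E : ℝ≥0∞, (1 + C) * (A * B) + A * E = A * ((1 + C) * B + E) := by
    intros; ring
  rw [key]
  gcongr
  by_cases hq : q ∈ W.ctrl
  · rw [if_pos hq, hs.ctrlE q hq, add_mul, one_mul, add_assoc]
    exact le_self_add
  · rw [if_neg hq]
    refine (hs.uncE q hq).trans ?_
    gcongr
    exact le_add_self

/-- the faces of a cube: zero order -/
theorem faces_zero {W : Cells Ω R} (hFD : FaceDec W) {p : ℝ} {F s : V → V} {C : ℝ≥0∞}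
    {ε : W.κ → ℝ≥0∞} {d : W.κ → ℝ} (hs : Step2 W p F C ε d s) (i : W.ι) {δ : ℝ}
    (hd0 : ∀ q ∈ W.bd i, 0 < d q) (hd : ∀ q ∈ W.bd i, d q ≤ δ) {Z : V → ℝ≥0∞} (hZ : Continuous Z)
    (hZs : ∀ x ∈ cube (W.c i) (W.ρ i), Z x = zf (W.net i) δ (s x)) :
    ∑ l, ∑ σ ∈ ({1, -1} : Finset ℝ), ∫⁻ x in cube (W.c i) (W.ρ i),
      Z (Function.update x l (W.c i l + σ * W.ρ i)) ≤
    ∑ q ∈ W.bd i, ENNReal.ofReal (W.ρ i / W.σ q) * ε q := by
  refine (hFD i (fun _ => Z) fun _ => hZ.measurable).trans ?_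
  refine Finset.sum_le_sum fun q hq => ?_
  gcongr
  by_cases hc : q ∈ W.ctrl
  · rw [setLIntegral_congr_fun (g := fun _ => 0) (isClosed_cube _ _).measurableSet
      fun x hx => ?_]
    · simp
    · have h1 := upd_mem_sq W q hx
      simp only
      rw [hZs _ (sq_subset_cube W hq h1), hs.ctrlZ q hc _ h1]
      exact zf_eq_zero _ (sq_subset_net W hq hc h1)
  · refine le_trans ?_ (hs.uncZ q hc)
    refine setLIntegral_mono' (isClosed_cube _ _).measurableSet fun x hx => ?_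
    rw [hZs _ (sq_subset_cube W hq (upd_mem_sq W q hx))]
    exact zf_mono (bdry_subset_net W hq) (bdry_nonempty W q) (hd0 q hq) (hd q hq) _

/-- **(SQ)**, from the neighbourhood lemma and the decomposition of the faces -/
theorem specSQ_of
    (hN : ∀ (Ω R : Set V) (W : Cells Ω R), IsOpen Ω → ∃ U : W.κ → Set V, Nbhds W U)
    (hFD : ∀ (Ω R : Set V) (W : Cells Ω R), FaceDec W) : SpecSQ := by
  intro p hp hp2
  obtain ⟨C₂, hC₂, hstep2⟩ := exists_step2 p hp hp2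
  obtain ⟨C₃, hC₃, hcube⟩ := specCube p hp hp2
  refine ⟨C₃ * (1 + C₂), ENNReal.mul_ne_top hC₃ (ENNReal.add_ne_top.2 ⟨ENNReal.one_ne_top, hC₂⟩), ?_⟩
  intro Ω Λ R W F ε d hΩ hΛ hF hε hd
  obtain ⟨U, hU⟩ := hN Ω R W hΩ
  obtain ⟨e, he0, he⟩ := exists_eps W hU.finbd hC₃ hε
  have hd' : ∀ q, ∃ t : ℝ, 0 < t ∧ ∀ i ∈ {i | q ∈ W.bd i}, t ≤ d i := fun q =>
    exists_small' (hU.finbd q) hd
  choose δ hδ0 hδ using hd'
  obtain ⟨T, hT⟩ := hstep2 Ω Λ R W U F e δ hΩ hF hU he0 hδ0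
  have hG : IsDiffeo Ω Λ (F ∘ T) := isDiffeo_comp hT.diffeo hF
  have hcd : ContDiffOn ℝ 1 (F ∘ T) Ω := (isDiffeo_cd hG).of_le (by exact_mod_cast le_top)
  have hTc : ContinuousOn T Ω := (isDiffeo_cd hT.diffeo).continuousOn
  have hε2 : ∀ i, ε i / 2 ≠ 0 := fun i => ENNReal.div_ne_zero.2 ⟨hε i, by simp⟩
  set Z : W.ι → V → ℝ≥0∞ := fun i x => zf (W.net i) (d i) (T (clamp (W.c i) (W.ρ i) x)) with hZdef
  have hZc : ∀ i, Continuous (Z i) := fun i =>
    (continuous_zf _ _).comp (hTc.comp_continuous (continuous_clamp _ _)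
      fun x => W.sub i (clamp_mem _ (W.ρpos i).le x))
  have hZs : ∀ i, ∀ x ∈ cube (W.c i) (W.ρ i), Z i x = zf (W.net i) (d i) (T x) := by
    intro i x hx
    simp only [hZdef, clamp_eq hx]
  have hex := fun i => hcube (W.c i) (W.ρ i) Ω (F ∘ T) (Z i) (ε i / 2) (W.ρpos i) hΩ (W.sub i)
    hcd (hZc i) (fun x => zf_le_one _ _ _) (hε2 i)
  choose K s h1 h2 h3 h4 using hex
  have hKc : ∀ i, K i ⊆ cube (W.c i) (W.ρ i) := fun i x hx l => (h2 i hx l).le
  have hKd : ∀ i j, i ≠ j → Disjoint (K i) (cube (W.c j) (W.ρ j)) := fun i j hij =>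
    Set.disjoint_left.2 fun x hx hx' => W.disj i j hij x (h2 i hx) hx'
  obtain ⟨S, hS, hS1, hS2, hS3⟩ := specGlue Ω _ K s hΩ h1 (fun i => (hKc i).trans (W.sub i))
    (fun i j hij => (hKd i j hij).mono_right (hKc j)) (fun x hx => by
      obtain ⟨N, hN, hf⟩ := W.fin x hx
      refine ⟨N, hN, hf.subset ?_⟩
      rintro i ⟨y, hy, hyN⟩
      exact ⟨y, hKc i hy, hyN⟩)
  have hloc : ∀ i, ∀ x ∈ cube (W.c i) (W.ρ i), S =ᶠ[𝓝 x] s i := fun i x hx =>
    hS3 i x (W.sub i hx) fun j hj hxK => Set.disjoint_left.1 (hKd j i hj) hxK hx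
  have hscube : ∀ i, ∀ x ∈ cube (W.c i) (W.ρ i), s i x ∈ cube (W.c i) (W.ρ i) := by
    intro i x hx
    by_cases hxK : x ∈ K i
    · exact hKc i ((h1 i).mapsTo hxK)
    · rw [(h1 i).supp x hxK]; exact hx
  refine ⟨T ∘ S, isDiffeo_comp hS hT.diffeo, ?_, ?_, ?_⟩
  · intro x hx
    have hx' : S x = x := hS2 x fun i hi => W.miss i x hx (h2 i hi)
    rw [Function.comp, hx', hT.fixR x hx]
  · intro i x hx
    rw [Function.comp, (hloc i x hx).eq_of_nhds]
    exact hT.box i _ (hscube i x hx)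
  · intro i
    constructor
    · have e1 : ∀ j, ∫⁻ x in cube (W.c i) (W.ρ i), dE p (F ∘ (T ∘ S)) j x =
          ∫⁻ x in cube (W.c i) (W.ρ i), dE p ((F ∘ T) ∘ s i) j x := by
        intro j
        refine setLIntegral_congr_fun (isClosed_cube _ _).measurableSet fun x hx => ?_
        rw [← Function.comp_assoc]
        exact dE_congr (comp_congr (hloc i x hx)) j
      simp only [e1]
      calc ∑ j, ∫⁻ x in cube (W.c i) (W.ρ i), dE p ((F ∘ T) ∘ s i) j x
          ≤ C₃ * (∑ l, ∑ σ ∈ ({1, -1} : Finset ℝ), ∑ j ∈ Finset.univ.erase l,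
            ∫⁻ x in cube (W.c i) (W.ρ i),
              dE p (F ∘ T) j (Function.update x l (W.c i l + σ * W.ρ i))) + ε i / 2 := h3 i
        _ ≤ C₃ * ((1 + C₂) * W.en p F i +
            ∑ q ∈ W.bd i, ENNReal.ofReal (W.ρ i / W.σ q) * e q) + ε i / 2 := by
            gcongr
            exact faces_le (hFD Ω R W) hT i
        _ = C₃ * (1 + C₂) * W.en p F i +
            (C₃ * (∑ q ∈ W.bd i, ENNReal.ofReal (W.ρ i / W.σ q) * e q) + ε i / 2) := by ring
        _ ≤ C₃ * (1 + C₂) * W.en p F i + (ε i / 2 + ε i / 2) := by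
            gcongr
            exact he i
        _ = _ := by rw [ENNReal.add_halves]
    · have e1 : volume {x ∈ cube (W.c i) (W.ρ i) | ∀ y ∈ W.net i, d i ≤ ‖(T ∘ S) x - y‖} ≤
          ∫⁻ x in cube (W.c i) (W.ρ i), Z i (s i x) := by
        calc volume {x ∈ cube (W.c i) (W.ρ i) | ∀ y ∈ W.net i, d i ≤ ‖(T ∘ S) x - y‖}
            ≤ volume ({x | 1 ≤ Z i (s i x)} ∩ cube (W.c i) (W.ρ i)) := by
              refine measure_mono fun x hx => ⟨?_, hx.1⟩
              have h5 := hx.2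
              simp only [Function.comp, (hloc i x hx.1).eq_of_nhds] at h5
              rw [mem_ofPred_eq, hZs i _ (hscube i x hx.1), zf_eq_one (net_nonempty W i) (hd i) h5]
          _ = (volume.restrict (cube (W.c i) (W.ρ i))) {x | 1 ≤ Z i (s i x)} :=
              (Measure.restrict_apply' (isClosed_cube _ _).measurableSet).symm
          _ ≤ _ := by
              have h6 := mul_meas_ge_le_lintegral (μ := volume.restrict (cube (W.c i) (W.ρ i)))
                ((hZc i).measurable.comp (h1 i).smooth.continuous.measurable) 1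
              rw [one_mul] at h6
              exact h6
      calc _ ≤ _ := e1
        _ ≤ _ := h4 i
        _ ≤ C₃ * (∑ q ∈ W.bd i, ENNReal.ofReal (W.ρ i / W.σ q) * e q) + ε i / 2 := by
            gcongr
            exact faces_zero (hFD Ω R W) hT i (fun q _ => hδ0 q) (fun q hq => hδ q i hq) (hZc i)
              (hZs i)
        _ ≤ ε i / 2 + ε i / 2 := by
            gcongr
            exact he i
        _ = _ := by rw [ENNReal.add_halves]

end Vale.Agent.P073.SQ
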