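import Vale.Agent.P073.SQ.Prep

/-!
# SQ: the squeeze of the uncontrolled squares
-/

namespace Vale.Agent.P073.SQ

open MeasureTheory Set Filter Topology Metric Vale.Agent.P073.St
open scoped ContDiff ENNReal

variable {Ω R : Set V}

/-- the result of the squeeze of the squares -/
structure Step2 (W : Cells Ω R) (p : ℝ) (F : V → V) (C : ℝ≥0∞) (ε : W.κ → ℝ≥0∞) (d : W.κ → ℝ)
    (s : V → V) : Prop where
  diffeo : IsDiffeo Ω Ω s
  fixR : ∀ x ∈ R, s x = x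
  box : ∀ i, ∀ x ∈ cube (W.c i) (W.ρ i), s x ∈ cube (W.c i) (W.ρ i)
  ctrlE : ∀ q ∈ W.ctrl,
    faceE p (F ∘ s) (W.a q) (W.k q) (W.σ q) = faceE p F (W.a q) (W.k q) (W.σ q)
  uncE : ∀ q, q ∉ W.ctrl →
    faceE p (F ∘ s) (W.a q) (W.k q) (W.σ q) ≤ C * edgesE p F (W.a q) (W.k q) (W.σ q) + ε q
  ctrlZ : ∀ q ∈ W.ctrl, ∀ x ∈ W.sq q, s x = x
  uncZ : ∀ q, q ∉ W.ctrl → ∫⁻ x in cube (W.a q) (W.σ q),
    zf (W.bdry q) (d q) (s (Function.update x (W.k q) (W.a q (W.k q)))) ≤ ε q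

theorem dE_congr {p : ℝ} {G H : V → V} {x : V} (h : G =ᶠ[𝓝 x] H) (j : Fin 3) :
    dE p G j x = dE p H j x := by
  rw [dE, dE, h.fderiv_eq]

theorem comp_congr {F s t : V → V} {x : V} (h : s =ᶠ[𝓝 x] t) : F ∘ s =ᶠ[𝓝 x] F ∘ t := by
  filter_upwards [h] with y hy
  simp only [Function.comp, hy]

/-- equal germs on the square: equal energies -/
theorem faceE_congr {p : ℝ} {G H : V → V} (W : Cells Ω R) (q : W.κ)
    (h : ∀ y ∈ W.sq q, G =ᶠ[𝓝 y] H) :
    faceE p G (W.a q) (W.k q) (W.σ q) = faceE p H (W.a q) (W.k q) (W.σ q) := by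
  unfold faceE
  refine Finset.sum_congr rfl fun j _ => ?_
  refine setLIntegral_congr_fun (isClosed_cube _ _).measurableSet fun x hx => ?_
  exact dE_congr (h _ (upd_mem_sq W q hx)) j

theorem exists_step2 (p : ℝ) (hp : 1 ≤ p) (hp2 : p < 2) : ∃ C : ℝ≥0∞, C ≠ ⊤ ∧
    ∀ (Ω Λ R : Set V) (W : Cells Ω R) (U : W.κ → Set V) (F : V → V) (ε : W.κ → ℝ≥0∞)
      (d : W.κ → ℝ), IsOpen Ω → IsDiffeo Ω Λ F → Nbhds W U → (∀ q, ε q ≠ 0) → (∀ q, 0 < d q) →
      ∃ s, Step2 W p F C ε d s := by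
  obtain ⟨C, hC, hface⟩ := specFace p hp hp2
  refine ⟨C, hC, ?_⟩
  intro Ω Λ R W U F ε d hΩ hF hU hε hd
  have hcd : ContDiffOn ℝ 1 F Ω := (isDiffeo_cd hF).of_le (by exact_mod_cast le_top)
  have hex : ∀ q : {q : W.κ // q ∉ W.ctrl}, ∃ (K : Set V) (s : V → V), SuppDiffeo K s ∧
      K ⊆ U q ∩ {x | ∀ l, l ≠ W.k q → |x l - W.a q l| < W.σ q} ∧
        (∀ x, s x (W.k q) = x (W.k q)) ∧
        faceE p (F ∘ s) (W.a q) (W.k q) (W.σ q) ≤
          C * edgesE p F (W.a q) (W.k q) (W.σ q) + ε q ∧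
        ∫⁻ x in cube (W.a q) (W.σ q),
          zf (W.bdry q) (d q) (s (Function.update x (W.k q) (W.a q (W.k q)))) ≤ ε q := by
    rintro ⟨q, hq⟩
    have hcl : ∀ x : V, x (W.k q) = W.a q (W.k q) →
        (∀ l, l ≠ W.k q → |x l - W.a q l| ≤ W.σ q) → x ∈ Ω := by
      intro x hx hx'
      refine sq_subset W q ⟨hx, fun l => ?_⟩
      by_cases hl : l = W.k q
      · subst hl; rw [hx, sub_self, abs_zero]; exact (W.σpos q).le
      · exact hx' l hl
    obtain ⟨K, s, h1, h2, h3, h4, h5⟩ := hface (W.a q) (W.k q) (W.σ q) (U q) Ω F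
      (zf (W.bdry q) (d q)) (ε q) (W.σpos q) (hU.op q) (hU.mem q hq) hΩ hcl hcd
      (continuous_zf _ _) (zf_le_one _ _) (hε q)
    refine ⟨K, s, h1, h2, h3, h4, h5.trans (le_of_eq ?_)⟩
    have h0 : (∑ i ∈ Finset.univ.erase (W.k q), ∑ t ∈ ({1, -1} : Finset ℝ),
        ∫⁻ x in cube (W.a q) (W.σ q), zf (W.bdry q) (d q)
          (Function.update (Function.update x (W.k q) (W.a q (W.k q))) i
            (W.a q i + t * W.σ q))) = 0 := by
      refine Finset.sum_eq_zero fun i hi => Finset.sum_eq_zero fun t ht => ?_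
      rw [setLIntegral_congr_fun (g := fun _ => 0) (isClosed_cube _ _).measurableSet
        fun x hx => zf_eq_zero _ (upd_mem_bdry W q hx (Finset.ne_of_mem_erase hi) ht)]
      simp
    rw [h0, mul_zero, zero_add]
  choose K s h1 h2 h3 h4 h5 using hex
  have hKU : ∀ q, K q ⊆ U q := fun q x hx => (h2 q hx).1
  have hne : ∀ {q q' : {q : W.κ // q ∉ W.ctrl}}, q ≠ q' → (q : W.κ) ≠ q' := fun h h' =>
    h (Subtype.ext h')
  obtain ⟨S, hS, hS1, hS2, hS3⟩ := specGlue Ω _ K s hΩ h1 (fun q => (hKU q).trans (hU.sub q))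
    (fun q q' h => (hU.dU q q' (hne h)).mono (hKU q) (hKU q')) (fun x hx => by
      obtain ⟨N, hN, hf⟩ := hU.fin x hx
      refine ⟨N, hN, ?_⟩
      refine (hf.preimage (f := Subtype.val) Subtype.val_injective.injOn).subset ?_
      rintro q ⟨y, hy, hyN⟩
      exact ⟨y, hKU q hy, hyN⟩)
  have hS0 : ∀ x ∈ Ω, (∀ q, x ∉ K q) → S =ᶠ[𝓝 x] id := by
    intro x hx hxK
    by_cases hne : Nonempty {q : W.κ // q ∉ W.ctrl}
    · obtain ⟨q⟩ := hne
      refine (hS3 q x hx fun j _ => hxK j).trans ?_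
      filter_upwards [(h1 q).compact.isClosed.isOpen_compl.mem_nhds (hxK q)] with y hy
      exact (h1 q).supp y hy
    · exact Eventually.of_forall fun y => hS2 y fun q => (hne ⟨q⟩).elim
  have hoff : ∀ (q : {q : W.κ // q ∉ W.ctrl}) (q' : W.κ), (q : W.κ) ≠ q' → ∀ x ∈ W.sq q',
      x ∉ K q := fun q q' h x hx hxK => Set.disjoint_left.1 (hU.dsq q q' h) (hKU q hxK) hx
  have hctrl : ∀ q ∈ W.ctrl, ∀ x ∈ W.sq q, ∀ q', x ∉ K q' := fun q hq x hx q' =>
    hoff q' q (fun h => q'.2 (h ▸ hq)) x hx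
  have hunc : ∀ (q : {q : W.κ // q ∉ W.ctrl}), ∀ x ∈ W.sq q, S =ᶠ[𝓝 x] s q := fun q x hx =>
    hS3 q x (sq_subset W q hx) fun j hj => hoff j q (hne hj) x hx
  refine ⟨S, hS, ?_, ?_, ?_, ?_, ?_, ?_⟩
  · exact fun x hx => hS2 x fun q hq => Set.disjoint_left.1 (hU.dR q) (hKU q hq) hx
  · intro i x hx
    by_cases h : ∃ q, x ∈ K q
    · obtain ⟨q, hq⟩ := h
      have hbd : (q : W.κ) ∈ W.bd i := by
        by_contra hcon
        exact Set.disjoint_left.1 (hU.dcube i q hcon) (hKU q hq) hx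
      rw [hS1 q x hq]
      have hm := (h2 q ((h1 q).mapsTo hq)).2
      intro l
      by_cases hl : l = W.k q
      · subst hl; rw [h3 q x]; exact hx _
      · have e1 := hm l hl
        have e2 := (W.bd_sub i q hbd).2 l hl
        calc |s q x l - W.c i l| = |(s q x l - W.a q l) + (W.a q l - W.c i l)| := by ring_nf
          _ ≤ |s q x l - W.a q l| + |W.a q l - W.c i l| := abs_add_le _ _
          _ ≤ W.ρ i := by linarith
    · push Not at h
      rw [hS2 x h]; exact hx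
  · intro q hq
    refine faceE_congr W q fun y hy => ?_
    exact comp_congr (hS0 y (sq_subset W q hy) (hctrl q hq y hy))
  · intro q hq
    rw [faceE_congr (H := F ∘ s ⟨q, hq⟩) W q fun y hy => comp_congr (hunc ⟨q, hq⟩ y hy)]
    exact h4 ⟨q, hq⟩
  · exact fun q hq x hx => hS2 x (hctrl q hq x hx)
  · intro q hq
    rw [setLIntegral_congr_fun (g := fun x => zf (W.bdry q) (d q)
      (s ⟨q, hq⟩ (Function.update x (W.k q) (W.a q (W.k q))))) (isClosed_cube _ _).measurableSet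
      fun x hx => ?_]
    · exact h5 ⟨q, hq⟩
    · simp only
      rw [(hunc ⟨q, hq⟩ _ (upd_mem_sq W q hx)).eq_of_nhds]

end Vale.Agent.P073.SQ
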